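import Vale.Agent.P147.Velocity.ListAvg

/-!
P147: a renewal sequence which stays in `[g, 1]` comes from steps of total mass one and mean
height at most `1 / g`.
-/

open Filter
open scoped ENNReal Topology

namespace Vale.Agent.P147.Velocity

/-- The renewal identity and its consequences, over the reals. -/
lemma renewal_real (a u : ℕ → ℝ) {g : ℝ} (hg : 0 < g) (ha : ∀ h, 0 ≤ a h) (h0 : u 0 = 1)
    (hlo : ∀ m, g ≤ u m) (hhi : ∀ m, u m ≤ 1)
    (hrec : ∀ m, u (m + 1) = ∑ h ∈ Finset.range (m + 1), a h * u (m - h)) :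
    (∀ N, ∑ h ∈ Finset.range N, a h ≤ 1) ∧
      Tendsto (fun N => ∑ h ∈ Finset.range N, a h) atTop (𝓝 1) ∧
      ∀ N, ∑ h ∈ Finset.range N, ((h : ℝ) + 1) * a h ≤ g⁻¹ := by
  set A : ℕ → ℝ := fun N => ∑ h ∈ Finset.range N, a h with hA
  have hAs : ∀ N, A (N + 1) = A N + a N := fun N => Finset.sum_range_succ _ _
  have hA0 : ∀ N, 0 ≤ A N := fun N => Finset.sum_nonneg fun h _ => ha h
  have hmono : Monotone A := monotone_nat_of_le_succ fun N => by linarith [hAs N, ha N]
  have hA1 : ∀ K, A K ≤ 1 := by
    intro K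
    by_contra hK
    rw [not_le] at hK
    have hpow : ∀ j n, j * K ≤ n → A K ^ j * g ≤ u n := by
      intro j
      induction j with
      | zero => intro n _; simpa using hlo n
      | succ j ih =>
        intro n hn
        rcases Nat.eq_zero_or_pos K with hK0 | hK0
        · subst hK0; simp [hA] at hK; norm_num at hK
        obtain ⟨m, rfl⟩ := Nat.exists_eq_add_of_le (show 1 ≤ n by nlinarith)
        rw [Nat.add_comm 1 m] at hn ⊢
        have hKm : K ≤ m + 1 := by nlinarith
        rw [hrec m, pow_succ', mul_assoc, hA, Finset.sum_mul]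
        refine le_trans (Finset.sum_le_sum fun h hh => ?_)
          (Finset.sum_le_sum_of_subset_of_nonneg (Finset.range_mono hKm)
            fun h _ _ => mul_nonneg (ha h) (le_trans hg.le (hlo _)))
        refine mul_le_mul_of_nonneg_left (ih _ ?_) (ha h)
        have hh' := Finset.mem_range.mp hh
        have : (j + 1) * K = j * K + K := by ring
        omega
    obtain ⟨j, hj⟩ := pow_unbounded_of_one_lt (1 / g) hK
    have := (hpow j (j * K) le_rfl).trans (hhi _)
    rw [div_lt_iff₀ hg] at hj
    linarith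
  have hid : ∀ N, ∑ j ∈ Finset.range (N + 1), u j * (1 - A (N - j)) = 1 := by
    intro N
    induction N with
    | zero => simp [h0, hA]
    | succ N ih =>
      rw [Finset.sum_range_succ, Nat.sub_self]
      have h1 : ∀ j ∈ Finset.range (N + 1),
          u j * (1 - A (N + 1 - j)) = u j * (1 - A (N - j)) - u j * a (N - j) := by
        intro j hj
        rw [show N + 1 - j = N - j + 1 by have := Finset.mem_range.mp hj; omega, hAs]
        ring
      rw [Finset.sum_congr rfl h1, Finset.sum_sub_distrib, ih]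
      have h2 : ∑ j ∈ Finset.range (N + 1), u j * a (N - j) = u (N + 1) := by
        rw [hrec, ← Finset.sum_range_reflect]
        refine Finset.sum_congr rfl fun j hj => ?_
        have := Finset.mem_range.mp hj
        rw [show N + 1 - 1 - j = N - j by omega, show N - (N - j) = j by omega]
        ring
      simp [h2, hA]
  have htail : ∀ N, ∑ i ∈ Finset.range (N + 1), (1 - A i) ≤ g⁻¹ := by
    intro N
    rw [← one_div, le_div_iff₀' hg, Finset.mul_sum]
    refine le_trans ?_ (hid N).le
    rw [← Finset.sum_range_reflect (fun i => g * (1 - A i))]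
    refine Finset.sum_le_sum fun j _ => ?_
    rw [show N + 1 - 1 - j = N - j by omega]
    exact mul_le_mul_of_nonneg_right (hlo j) (by linarith [hA1 (N - j)])
  refine ⟨hA1, ?_, ?_⟩
  · have hgap : ∀ N : ℕ, 1 - g⁻¹ * (1 / ((N : ℝ) + 1)) ≤ A N := by
      intro N
      have h1 : ((N : ℝ) + 1) * (1 - A N) ≤ g⁻¹ := by
        refine le_trans ?_ (htail N)
        have h3 := Finset.card_nsmul_le_sum (Finset.range (N + 1)) (fun i => 1 - A i) (1 - A N)
          fun i hi => by linarith [hmono (Nat.lt_succ_iff.mp (Finset.mem_range.mp hi))]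
        simpa using h3
      have hN : (0 : ℝ) < (N : ℝ) + 1 := by positivity
      have : 1 - A N ≤ g⁻¹ * (1 / ((N : ℝ) + 1)) := by
        rw [mul_one_div, le_div_iff₀ hN]; linarith
      linarith
    refine tendsto_of_tendsto_of_tendsto_of_le_of_le ?_ tendsto_const_nhds hgap hA1
    simpa using (tendsto_one_div_add_atTop_nhds_zero_nat.const_mul g⁻¹).const_sub 1
  · intro N
    have e : ∀ M, ∑ h ∈ Finset.range M, ((h : ℝ) + 1) * a h
        = ∑ i ∈ Finset.range M, (A M - A i) := by
      intro M
      induction M with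
      | zero => simp
      | succ M ih =>
        rw [Finset.sum_range_succ, ih, Finset.sum_range_succ, hAs]
        simp only [Finset.sum_sub_distrib, Finset.sum_const, Finset.card_range, nsmul_eq_mul]
        ring
    rw [e]
    refine le_trans ?_ (htail N)
    rw [Finset.sum_range_succ]
    have := hA1 N
    refine le_add_of_le_of_nonneg (Finset.sum_le_sum fun i _ => by linarith) (by linarith)

variable {α : Type*} (w : α → ℝ≥0∞) (hgt : α → ℕ)

/-- The mass of the lists of total height `m`. -/
noncomputable def renew (m : ℕ) : ℝ≥0∞ :=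
  ∑' n, avg w n fun L => if (L.map hgt).sum = m then 1 else 0

variable {w hgt}

lemma renew_zero (h1 : ∀ x, 1 ≤ hgt x) : renew w hgt 0 = 1 := by
  rw [renew, tsum_eq_single 0]
  · simp
  · intro n hn
    obtain ⟨k, rfl⟩ := Nat.exists_eq_succ_of_ne_zero hn
    rw [avg_succ]
    refine ENNReal.tsum_eq_zero.mpr fun x => ?_
    rw [show (fun L : List α => if ((x :: L).map hgt).sum = 0 then (1 : ℝ≥0∞) else 0)
      = fun _ => 0 * 1 from funext fun L => by
        rw [if_neg (by simp; have := h1 x; omega), zero_mul]]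
    rw [avg_const_mul]
    simp

lemma renew_succ (h1 : ∀ x, 1 ≤ hgt x) (m : ℕ) : renew w hgt (m + 1) =
    ∑ h ∈ Finset.range (m + 1),
      (∑' x, if hgt x = h + 1 then w x else 0) * renew w hgt (m - h) := by
  rw [renew, tsum_eq_zero_add' ENNReal.summable]
  simp only [avg_zero, List.map_nil, List.sum_nil, (Nat.succ_ne_zero m).symm, if_false, zero_add,
    avg_succ]
  rw [ENNReal.tsum_comm]
  simp only [renew, ← ENNReal.tsum_mul_right, ite_mul, zero_mul]
  rw [← Summable.tsum_finsetSum fun _ _ => ENNReal.summable]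
  refine tsum_congr fun x => ?_
  rw [ENNReal.tsum_mul_left]
  by_cases hx : hgt x ≤ m + 1
  · have hx1 := h1 x
    rw [Finset.sum_eq_single_of_mem (hgt x - 1) (Finset.mem_range.mpr (by omega))
      (fun h _ hh => if_neg (by omega)), if_pos (by omega)]
    congr 1
    refine tsum_congr fun n => congrArg _ (funext fun L => ?_)
    simp only [List.map_cons, List.sum_cons]
    by_cases hL : (L.map hgt).sum = m - (hgt x - 1)
    · rw [if_pos hL, if_pos (by omega)]
    · rw [if_neg hL, if_neg (by omega)]
  · rw [Finset.sum_eq_zero fun h hh => if_neg (by have := Finset.mem_range.mp hh; omega)]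
    refine mul_eq_zero_of_right _ (ENNReal.tsum_eq_zero.mpr fun n => ?_)
    rw [show (fun L : List α => if ((x :: L).map hgt).sum = m + 1 then (1 : ℝ≥0∞) else 0)
      = fun _ => 0 * 1 from funext fun L => by
        rw [if_neg (by simp; omega), zero_mul]]
    rw [avg_const_mul]
    simp

/-- Renewal in `[g, 1]` forces total mass one and mean height at most `1 / g`. -/
theorem renewal (h1 : ∀ x, 1 ≤ hgt x) {g : ℝ} (hg : 0 < g)
    (hlo : ∀ m, ENNReal.ofReal g ≤ renew w hgt m) (hhi : ∀ m, renew w hgt m ≤ 1) :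
    ∑' x, w x = 1 ∧ ∑' x, w x * (hgt x : ℝ≥0∞) ≤ ENNReal.ofReal g⁻¹ := by
  set a' : ℕ → ℝ≥0∞ := fun h => ∑' x, if hgt x = h + 1 then w x else 0 with ha'
  have hfin : ∀ h, a' h ≤ 1 := fun h => le_trans (by
    refine le_trans (le_of_eq ?_) (ENNReal.le_tsum 1)
    simp [avg_succ, ha']) (hhi (h + 1))
  set a : ℕ → ℝ := fun h => (a' h).toReal
  set u : ℕ → ℝ := fun m => (renew w hgt m).toReal
  have hne : ∀ m, renew w hgt m ≠ ⊤ := fun m => ne_top_of_le_ne_top ENNReal.one_ne_top (hhi m)
  have hane : ∀ h, a' h ≠ ⊤ := fun h => ne_top_of_le_ne_top ENNReal.one_ne_top (hfin h)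
  obtain ⟨hA1, hlim, hmean⟩ := renewal_real a u hg (fun h => ENNReal.toReal_nonneg)
    (by simp [u, renew_zero h1])
    (fun m => (ENNReal.ofReal_le_iff_le_toReal (hne m)).mp (hlo m))
    (fun m => ENNReal.toReal_le_of_le_ofReal zero_le_one (by simpa using hhi m))
    (fun m => by
      simp only [u, a, renew_succ h1 m]
      rw [ENNReal.toReal_sum fun h _ => ENNReal.mul_ne_top (hane h) (hne _)]
      simp [ENNReal.toReal_mul, ha'])
  have hsplit : ∀ f : ℕ → ℝ≥0∞, ∑' x, w x * f (hgt x) = ∑' h, f (h + 1) * a' h := by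
    intro f
    simp only [ha', ← ENNReal.tsum_mul_left, mul_ite, mul_zero]
    rw [ENNReal.tsum_comm]
    refine tsum_congr fun x => ?_
    have := h1 x
    rw [tsum_eq_single (hgt x - 1) fun h hh => if_neg (by omega), if_pos (by omega)]
    rw [show hgt x - 1 + 1 = hgt x by omega, mul_comm]
  constructor
  · have e := hsplit fun _ => 1
    simp only [mul_one, one_mul] at e
    rw [e, ENNReal.tsum_eq_iSup_nat]
    have hp : ∀ N, ∑ h ∈ Finset.range N, a' h = ENNReal.ofReal (∑ h ∈ Finset.range N, a h) := by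
      intro N
      rw [ENNReal.ofReal_sum_of_nonneg fun h _ => ENNReal.toReal_nonneg]
      exact Finset.sum_congr rfl fun h _ => (ENNReal.ofReal_toReal (hane h)).symm
    simp only [hp]
    refine le_antisymm (iSup_le fun N => ENNReal.ofReal_le_one.mpr (hA1 N)) ?_
    refine le_of_tendsto' (x := atTop) ?_ fun N =>
      le_iSup (fun N => ENNReal.ofReal (∑ h ∈ Finset.range N, a h)) N
    simpa using ENNReal.tendsto_ofReal hlim
  · rw [hsplit (fun h => (h : ℝ≥0∞)), ENNReal.tsum_eq_iSup_nat]
    refine iSup_le fun N => le_trans (le_of_eq ?_) (ENNReal.ofReal_le_ofReal (hmean N))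
    rw [ENNReal.ofReal_sum_of_nonneg fun h _ => mul_nonneg (by positivity) ENNReal.toReal_nonneg]
    refine Finset.sum_congr rfl fun h _ => ?_
    rw [ENNReal.ofReal_mul (by positivity), ENNReal.ofReal_toReal (hane h)]
    congr 1
    rw [← ENNReal.ofReal_natCast]
    push_cast
    ring_nf

end Vale.Agent.P147.Velocity
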