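import Vale.Agent.P147.Velocity.Regen
import Vale.Agent.P147.Velocity.Renewal

/-!
P147: a velocity with positive level component gives blocks of total mass one with finite mean
height and finite mean length.
-/

open MeasureTheory Filter
open scoped ENNReal Topology

namespace Vale.Agent.P147.Velocity

variable {d : ℕ}

/-- The level given by integer coefficients. -/
def levOf (a : Fin d → ℤ) : Site d →+ ℤ where
  toFun x := ∑ i, a i * x i
  map_zero' := by simp
  map_add' x y := by simp [mul_add, Finset.sum_add_distrib]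

lemma levOf_apply (a : Fin d → ℤ) (x : Site d) : levOf a x = ∑ i, a i * x i := rfl

lemma levOf_move (a : Fin d → ℤ) (e : Step d) :
    levOf a (move e) = if e.2 then a e.1 else -a e.1 := by
  rw [levOf_apply, Finset.sum_eq_single e.1]
  · rcases e with ⟨i, b⟩
    cases b <;> simp [move]
  · intro i _ hi; simp [move, Pi.single_eq_of_ne hi]
  · simp

/-- The paths with velocity `v`. -/
def vel (v : Fin d → ℝ) : Set (Path d) :=
  {X | ∀ i, Tendsto (fun t : ℕ => (X t i : ℝ) / t) atTop (𝓝 (v i))}

lemma measurableSet_vel (v : Fin d → ℝ) : MeasurableSet (vel v) := by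
  have h : vel v = ⋂ i, {X : Path d | Tendsto (fun t : ℕ => (X t i : ℝ) / t) atTop (𝓝 (v i))} := by
    ext X; simp [vel]
  rw [h]
  exact MeasurableSet.iInter fun i => measurableSet_tendsto _ fun t =>
    (measurable_of_countable fun y : Site d => (y i : ℝ) / t).comp (measurable_pi_apply t)

/-- Paths staying above their start at linear speed, with velocity `v`. -/
def climb (a : Fin d → ℤ) (ε B : ℝ) (v : Fin d → ℝ) : Set (Path d) :=
  {X | (∀ t, 0 ≤ levOf a (X t - X 0) ∧ ε * t - B ≤ (levOf a (X t - X 0) : ℝ))} ∩ vel v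

lemma measurableSet_climb (a : Fin d → ℤ) (ε B : ℝ) (v : Fin d → ℝ) :
    MeasurableSet (climb a ε B v) := by
  refine MeasurableSet.inter ?_ (measurableSet_vel v)
  have h : {X : Path d | ∀ t, 0 ≤ levOf a (X t - X 0) ∧ ε * t - B ≤ (levOf a (X t - X 0) : ℝ)}
      = ⋂ t : ℕ, (fun X : Path d => (X t, X 0)) ⁻¹'
        {p | 0 ≤ levOf a (p.1 - p.2) ∧ ε * t - B ≤ (levOf a (p.1 - p.2) : ℝ)} := by
    ext X; simp
  rw [h]
  exact MeasurableSet.iInter fun t =>
    ((measurable_pi_apply t).prodMk (measurable_pi_apply 0)) MeasurableSet.of_discrete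

lemma vel_shift {v : Fin d → ℝ} {X : Path d} (h : X ∈ vel v) (n : ℕ) (z : Site d) :
    (fun t => X (t + n) + z) ∈ vel v := by
  intro i
  have h1 := (h i).comp (tendsto_add_atTop_nat n)
  have h2 : Tendsto (fun t : ℕ => ((t + n : ℕ) : ℝ) / t) atTop (𝓝 1) := by
    have := (tendsto_const_div_atTop_nhds_zero_nat (n : ℝ)).const_add 1
    rw [add_zero] at this
    refine this.congr' ?_
    filter_upwards [eventually_gt_atTop 0] with t ht
    have : (t : ℝ) ≠ 0 := by positivity
    push_cast; field_simp; 
  have h3 := (h1.mul h2).add (tendsto_const_div_atTop_nhds_zero_nat ((z i : ℤ) : ℝ))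
  rw [mul_one, add_zero] at h3
  refine h3.congr' ?_
  filter_upwards [eventually_gt_atTop 0] with t ht
  have ht' : (t : ℝ) ≠ 0 := by positivity
  simp only [Function.comp_apply, Pi.add_apply]
  push_cast
  field_simp

lemma vel_subset (a : Fin d → ℤ) {v : Fin d → ℝ} (hv : 0 < ∑ i, (a i : ℝ) * v i) :
    vel v ⊆ ⋃ p : ℕ × ℕ,
      theta^[p.1] ⁻¹' climb a ((∑ i, (a i : ℝ) * v i) / 2) p.2 v := by
  intro X hX
  set c := ∑ i, (a i : ℝ) * v i
  have hl : Tendsto (fun t : ℕ => (levOf a (X t) : ℝ) / t) atTop (𝓝 c) := by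
    have := tendsto_finsetSum (Finset.univ : Finset (Fin d)) fun i _ =>
      (hX i).const_mul (a i : ℝ)
    refine this.congr fun t => ?_
    simp [levOf_apply, Finset.sum_div, mul_div_assoc]
  obtain ⟨T, hT⟩ := eventually_atTop.mp
    ((hl.eventually (lt_mem_nhds (show c / 2 < c by linarith))).and (eventually_gt_atTop 0))
  have hlow : ∀ t, T ≤ t → c / 2 * t ≤ (levOf a (X t) : ℝ) := fun t ht => by
    obtain ⟨h1, h2⟩ := hT t ht
    rw [lt_div_iff₀ (by positivity)] at h1
    linarith
  obtain ⟨T', hT'⟩ := exists_nat_ge (2 * (levOf a (X 0) : ℝ) / c)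
  obtain ⟨n, hn, hmin⟩ := Finset.exists_min_image (Finset.range (max T T' + 1))
    (fun t => levOf a (X t)) (by simp)
  have hall : ∀ t, levOf a (X n) ≤ levOf a (X t) := by
    intro t
    by_cases ht : t < max T T' + 1
    · exact hmin t (Finset.mem_range.mpr ht)
    · rw [not_lt] at ht
      refine le_trans (hmin 0 (by simp)) ?_
      have h1 := hlow t (by omega)
      have h2 : (T' : ℝ) ≤ t := by exact_mod_cast (show T' ≤ t by omega)
      rw [div_le_iff₀ hv] at hT'
      have : (levOf a (X 0) : ℝ) ≤ (levOf a (X t) : ℝ) := by nlinarith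
      exact_mod_cast this
  obtain ⟨B, hB⟩ := exists_nat_ge (c / 2 * T + |(levOf a (X n) : ℝ)|)
  refine Set.mem_iUnion.mpr ⟨(n, B), ?_⟩
  have hth : ∀ (k : ℕ) (Y : Path d), theta^[k] Y = fun t => Y (t + k) := by
    intro k
    induction k with
    | zero => intro Y; rfl
    | succ k ih =>
      intro Y
      rw [Function.iterate_succ_apply', ih]
      funext t; simp [theta, add_assoc, add_comm 1 k]
  refine ⟨fun t => ?_, ?_⟩
  · rw [hth]
    simp only [zero_add, map_sub]
    refine ⟨by linarith [hall (t + n)], ?_⟩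
    have hBn : c / 2 * T + |(levOf a (X n) : ℝ)| ≤ B := hB
    have habs := le_abs_self (levOf a (X n) : ℝ)
    push_cast
    by_cases ht : T ≤ t + n
    · have := hlow _ ht
      push_cast at this
      have : (0 : ℝ) ≤ c / 2 * n := by positivity
      have : (0 : ℝ) ≤ c / 2 * T := by positivity
      linarith
    · have h1 : (levOf a (X n) : ℝ) ≤ (levOf a (X (t + n)) : ℝ) := by exact_mod_cast hall (t + n)
      have h2 : c / 2 * (t : ℝ) ≤ c / 2 * T :=
        mul_le_mul_of_nonneg_left (by exact_mod_cast (show t ≤ T by omega)) (by linarith)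
      have := abs_nonneg (levOf a (X n) : ℝ)
      linarith
  · rw [hth]
    simpa using vel_shift hX n 0

variable [NeZero d] {μ : Measure (Step d → ℝ)} [IsProbabilityMeasure μ]

omit [NeZero d] in
lemma climb_translate (a : Fin d → ℤ) (ε B : ℝ) (v : Fin d → ℝ) (z : Site d) :
    (fun (X : Path d) k => X k - z) ⁻¹' climb a ε B v = climb a ε B v := by
  ext X
  simp only [climb, Set.mem_preimage, Set.mem_inter_iff, Set.mem_ofPred_eq, sub_sub_sub_cancel_right]
  refine and_congr_right fun _ => ⟨fun h => ?_, fun h => ?_⟩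
  · simpa using vel_shift h 0 z
  · simpa [sub_eq_add_neg] using vel_shift h 0 (-z)

/-- A velocity of positive level component gives climbing paths with positive chance. -/
lemma exists_climb (hrow : ∀ᵐ p ∂μ, GoodRow p) (a : Fin d → ℤ) {v : Fin d → ℝ}
    (hv : 0 < ∑ i, (a i : ℝ) * v i) (hP : annealed μ (vel v) ≠ 0) :
    ∃ B : ℕ, annealed μ (climb a ((∑ i, (a i : ℝ) * v i) / 2) B v) ≠ 0 := by
  by_contra hall
  push Not at hall
  set ε := (∑ i, (a i : ℝ) * v i) / 2
  refine hP ?_
  have hz : ∀ᵐ ω ∂iidLaw μ, ∀ (B : ℕ) (z : Site d), law ω z (climb a ε B v) = 0 := by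
    refine ae_all_iff.mpr fun B => ae_all_iff.mpr fun z => ?_
    have h0 := hall B
    rw [annealed_apply μ (measurableSet_climb a ε B v), ← (measurePreserving_shift μ z).lintegral_comp
      (measurable_law 0 (measurableSet_climb a ε B v))] at h0
    have h0 := (lintegral_eq_zero_iff
      ((measurable_law 0 (measurableSet_climb a ε B v)).comp (measurable_shift z))).mp h0
    filter_upwards [h0, ae_forall_site μ hrow] with ω h1 hω
    have hm : Measurable fun (X : Path d) k => X k - z := measurable_pi_lambda _ fun k =>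
      (measurable_of_countable fun y : Site d => y - z).comp (measurable_pi_apply k)
    simpa [law_shift hω, Measure.map_apply hm (measurableSet_climb a ε B v),
      climb_translate] using h1
  refine measure_mono_null (vel_subset a hv) (measure_iUnion_null fun p => ?_)
  have hmeas : ∀ n : ℕ, MeasurableSet (theta^[n] ⁻¹' climb a ε p.2 v) := fun n =>
    (measurable_theta.iterate n) (measurableSet_climb a ε p.2 v)
  rw [annealed_apply μ (hmeas p.1)]
  refine (lintegral_congr_ae ?_).trans lintegral_zero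
  filter_upwards [hz, ae_forall_site μ hrow] with ω h1 hω
  suffices h : ∀ n z, law ω z (theta^[n] ⁻¹' climb a ε p.2 v) = 0 from h _ _
  intro n
  induction n with
  | zero => exact h1 p.2
  | succ n ih =>
    intro z
    rw [Function.iterate_succ, Set.preimage_comp, law_theta hω z (hmeas n)]
    simp [ih]

/-- Almost every path starts at the origin and makes nearest neighbour steps. -/
lemma annealed_steps (μ : Measure (Step d → ℝ)) [IsProbabilityMeasure μ] :
    ∀ᵐ X ∂annealed μ, X 0 = 0 ∧ ∀ k, ∃ e, X (k + 1) = X k + move e := by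
  have hm : MeasurableSet {X : Path d | X 0 = 0 ∧ ∀ k, ∃ e, X (k + 1) = X k + move e} := by
    refine (measurableSet_start 0).inter ?_
    have h : {X : Path d | ∀ k, ∃ e, X (k + 1) = X k + move e} = ⋂ k, (fun X : Path d =>
        (X k, X (k + 1))) ⁻¹' {q | ∃ e, q.2 = q.1 + move e} := by ext X; simp
    change MeasurableSet {X : Path d | ∀ k, ∃ e, X (k + 1) = X k + move e}
    rw [h]
    exact MeasurableSet.iInter fun k =>
      ((measurable_pi_apply k).prodMk (measurable_pi_apply (k + 1))) MeasurableSet.of_discrete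
  rw [ae_iff, ← Set.compl_ofPred, annealed_apply μ hm.compl]
  refine (lintegral_congr fun ω => ?_).trans lintegral_zero
  rw [law, Measure.map_apply (measurable_walk 0) hm.compl]
  convert measure_empty (μ := Measure.infinitePi fun i : Idx d => rowMeasure (ω i.2))
  ext ξ
  simp only [Set.mem_preimage, Set.mem_compl_iff, Set.mem_ofPred_eq, Set.mem_empty_iff_false,
    iff_false, not_not]
  exact ⟨rfl, fun k => ⟨_, rfl⟩⟩

variable (μ) in
/-- The weight of the words reaching level `N` with property `P`. -/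
noncomputable def reachMass (lev : Site d →+ ℤ) (N : ℕ) (P : List (Step d) → Prop) : ℝ≥0∞ := by
  classical
  exact ∑' γ : {γ : List (Step d) // IsReach lev γ},
    wt μ γ.1 * if lev (disp γ.1) = N ∧ P γ.1 then 1 else 0

omit [NeZero d] in
lemma follow_eq_take {X : Path d} {γ π : List (Step d)} (h1 : X ∈ follow γ) (h2 : X ∈ follow π)
    (hle : γ.length ≤ π.length) : γ = π.take γ.length := by
  refine List.ext_getElem (by simp [hle]) fun k hk hk' => ?_
  have e1 := h1 (k + 1) hk
  have e2 := h2 (k + 1) (by omega)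
  have f1 := h1 k hk.le
  have f2 := h2 k (by omega)
  change X (k + 1) = disp (γ.take (k + 1)) at e1
  change X (k + 1) = disp (π.take (k + 1)) at e2
  change X k = disp (γ.take k) at f1
  change X k = disp (π.take k) at f2
  rw [List.take_add_one, disp_append, List.getElem?_eq_getElem hk] at e1
  rw [List.take_add_one, disp_append, List.getElem?_eq_getElem (by omega)] at e2
  simp only [Option.toList_some, disp_cons, disp_nil, add_zero] at e1 e2
  rw [← f1] at e1
  rw [← f2, e1, add_right_inj] at e2
  rw [List.getElem_take]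
  exact move_injective e2

lemma reachMass_le_one (hrow : ∀ᵐ p ∂μ, GoodRow p) (lev : Site d →+ ℤ) (N : ℕ)
    (P : List (Step d) → Prop) : reachMass μ lev N P ≤ 1 := by
  classical
  let s : {γ : List (Step d) // IsReach lev γ} → Set (Path d) := fun γ =>
    if lev (disp γ.1) = N ∧ P γ.1 then follow γ.1 else ∅
  have hs : ∀ γ, MeasurableSet (s γ) := fun γ => by
    simp only [s]; split_ifs
    · exact measurableSet_follow _
    · exact MeasurableSet.empty
  have hd : Pairwise (fun γ π => Disjoint (s γ) (s π)) := by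
    have key : ∀ (γ π : {γ : List (Step d) // IsReach lev γ}) (X : Path d),
        lev (disp γ.1) = N → lev (disp π.1) = N → X ∈ follow γ.1 → X ∈ follow π.1 →
        γ.1.length ≤ π.1.length → γ = π := by
      intro γ π X h1 h2 hX hX' hle
      have e := follow_eq_take hX hX' hle
      by_cases hlt : γ.1.length < π.1.length
      · have h3 := (π.2 _ hlt).2
        rw [← e] at h3
        omega
      · rw [List.take_of_length_le (not_lt.mp hlt)] at e
        exact Subtype.ext e
    intro γ π hne
    rw [Set.disjoint_left]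
    intro X hX hX'
    by_cases h1 : lev (disp γ.1) = N ∧ P γ.1
    · by_cases h2 : lev (disp π.1) = N ∧ P π.1
      · simp only [s, if_pos h1] at hX
        simp only [s, if_pos h2] at hX'
        rcases le_total γ.1.length π.1.length with hle | hle
        · exact hne (key γ π X h1.1 h2.1 hX hX' hle)
        · exact hne (key π γ X h2.1 h1.1 hX' hX hle).symm
      · simp only [s, if_neg h2] at hX'; exact hX'
    · simp only [s, if_neg h1] at hX; exact hX
  calc reachMass μ lev N P = ∑' γ, annealed μ (s γ) := by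
        refine tsum_congr fun γ => ?_
        simp only [s]
        split_ifs
        · rw [mul_one, annealed_follow μ hrow]
        · simp
    _ = annealed μ (⋃ γ, s γ) := (measure_iUnion hd hs).symm
    _ ≤ 1 := prob_le_one

lemma le_reachMass (hrow : ∀ᵐ p ∂μ, GoodRow p) (lev : Site d →+ ℤ) (N : ℕ)
    (P : List (Step d) → Prop) (S : Set (Path d))
    (hS : ∀ X ∈ S, X 0 = 0 → (∀ k, ∃ e, X (k + 1) = X k + move e) →
      ∃ γ, IsReach lev γ ∧ lev (disp γ) = N ∧ P γ ∧ X ∈ follow γ) :
    annealed μ S ≤ reachMass μ lev N P := by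
  classical
  let s : {γ : List (Step d) // IsReach lev γ} → Set (Path d) := fun γ =>
    if lev (disp γ.1) = N ∧ P γ.1 then follow γ.1 else ∅
  calc annealed μ S ≤ annealed μ (⋃ γ, s γ) := by
        refine measure_mono_ae ?_
        filter_upwards [annealed_steps μ] with X hX hXS
        obtain ⟨γ, h1, h2, h3, h4⟩ := hS X hXS hX.1 hX.2
        exact Set.mem_iUnion.mpr ⟨⟨γ, h1⟩, by simp [s, h2, h3, h4]⟩
    _ ≤ ∑' γ, annealed μ (s γ) := measure_iUnion_le _
    _ = _ := by
        refine tsum_congr fun γ => ?_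
        simp only [s]
        split_ifs
        · rw [mul_one, annealed_follow μ hrow]
        · simp

omit [NeZero d] in
lemma exists_follow {X : Path d} (h0 : X 0 = 0) (hs : ∀ k, ∃ e, X (k + 1) = X k + move e) (t : ℕ) :
    ∃ γ : List (Step d), γ.length = t ∧ X ∈ follow γ ∧ ∀ k ≤ t, disp (γ.take k) = X k := by
  choose e he using hs
  refine ⟨List.ofFn fun i : Fin t => e i, by simp, ?_⟩
  have key : ∀ k ≤ t, disp ((List.ofFn fun i : Fin t => e i).take k) = X k := by
    intro k hk
    induction k with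
    | zero => simp [h0]
    | succ k ih =>
      have hk' : k < t := hk
      rw [List.take_add_one, disp_append, ih hk'.le, he k]
      simp [hk']
  exact ⟨fun k hk => (key k (by simpa using hk)).symm, key⟩

omit [NeZero d] in
/-- A climbing path gives, for every level, a word reaching it quickly. -/
lemma climb_reach {a : Fin d → ℤ} (ha : ∀ i, |a i| ≤ 1) {ε : ℝ} (hε : 0 < ε) {B : ℕ}
    {v : Fin d → ℝ} {X : Path d} (hX : X ∈ climb a ε B v) (h0 : X 0 = 0)
    (hs : ∀ k, ∃ e, X (k + 1) = X k + move e) (N : ℕ) :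
    ∃ γ, IsReach (levOf a) γ ∧ levOf a (disp γ) = N ∧ X ∈ follow γ ∧
      ε * γ.length ≤ N + B + ε ∧ X γ.length = disp γ := by
  have hlev : ∀ t, 0 ≤ levOf a (X t) ∧ ε * t - B ≤ (levOf a (X t) : ℝ) := fun t => by
    simpa [h0] using hX.1 t
  have hex : ∃ t, (N : ℤ) ≤ levOf a (X t) := by
    obtain ⟨t, ht⟩ := exists_nat_ge (((N : ℝ) + B) / ε)
    refine ⟨t, ?_⟩
    rw [div_le_iff₀ hε] at ht
    have := (hlev t).2
    have : ((N : ℤ) : ℝ) ≤ (levOf a (X t) : ℝ) := by push_cast; linarith
    exact_mod_cast this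
  set t := Nat.find hex
  have ht : (N : ℤ) ≤ levOf a (X t) := Nat.find_spec hex
  have hbefore : ∀ k < t, levOf a (X k) < N := fun k hk => lt_of_not_ge (Nat.find_min hex hk)
  have hN : levOf a (X t) = N := by
    refine le_antisymm ?_ ht
    rcases Nat.eq_zero_or_pos t with h | h
    · rw [h, h0]; simp
    · obtain ⟨e, he⟩ := hs (t - 1)
      rw [Nat.sub_add_cancel h] at he
      have h1 := hbefore (t - 1) (by omega)
      have h2 := abs_le.mp (ha e.1)
      rw [he, map_add, levOf_move]
      split_ifs <;> omega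
  obtain ⟨γ, hγ, hfol, hdisp⟩ := exists_follow h0 hs t
  have hend : disp γ = X t := by rw [← hdisp t le_rfl, List.take_of_length_le hγ.le]
  refine ⟨γ, fun k hk => ?_, by rw [hend, hN], hfol, ?_, by rw [hγ, hend]⟩
  · rw [hdisp k (by omega), hend, hN]
    exact ⟨(hlev k).1, hbefore k (by omega)⟩
  · rw [hγ]
    rcases Nat.eq_zero_or_pos t with h | h
    · rw [h]; simp; positivity
    · have h1 := (hlev (t - 1)).2
      have h2 : (levOf a (X (t - 1)) : ℝ) ≤ N := by exact_mod_cast (hbefore (t - 1) (by omega)).le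
      rw [Nat.cast_sub h] at h1
      push_cast at h1
      nlinarith

/-- The height of a block. -/
noncomputable def hgt {lev : Site d →+ ℤ} (b : Blk lev) : ℕ := (lev (disp b.1)).toNat

omit [NeZero d] in
lemma one_le_hgt {lev : Site d →+ ℤ} (b : Blk lev) : 1 ≤ hgt b := by
  have := b.2.2.1.pos b.2.1
  simp only [hgt]; omega

omit [NeZero d] in
lemma hgt_flat {lev : Site d →+ ℤ} (L : List (Blk lev)) :
    lev (disp (flat lev L)) = ((L.map hgt).sum : ℕ) := by
  induction L with
  | nil => simp
  | cons b L ih =>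
    have := b.2.2.1.nonneg
    simp only [flat_cons, disp_append, map_add, ih, List.map_cons, List.sum_cons]
    simp only [hgt]; omega

omit [NeZero d] in
lemma reachMass_eq (lev : Site d →+ ℤ) (N : ℕ) (P : List (Step d) → Prop)
    [DecidablePred P] : reachMass μ lev N P = ∑' n, avg (bw lev μ) n fun L =>
      if (L.map hgt).sum = N ∧ P (flat lev L) then 1 else 0 := by
  classical
  rw [reachMass]
  refine ((tsum_congr fun γ => ?_).trans (tsum_reach μ fun γ =>
    if lev (disp γ) = (N : ℤ) ∧ P γ then (1 : ℝ≥0∞) else 0)).trans ?_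
  · by_cases hc : lev (disp γ.1) = (N : ℤ) ∧ P γ.1 <;> simp [hc]
  · refine tsum_congr fun n => congrArg _ (funext fun L => ?_)
    rw [hgt_flat]
    simp only [Nat.cast_inj]

lemma avg_map_sum {α : Type*} {w : α → ℝ≥0∞} (hw : ∑' a, w a = 1) (f : α → ℕ) (n : ℕ) :
    avg w n (fun L => ((L.map f).sum : ℝ≥0∞)) = n * ∑' a, w a * (f a : ℝ≥0∞) := by
  induction n with
  | zero => simp
  | succ n ih =>
    simp only [avg_succ, List.map_cons, List.sum_cons, Nat.cast_add, avg_fun_add, ih,
      avg_const hw, mul_add, ENNReal.tsum_add, ENNReal.tsum_mul_right, hw]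
    push_cast; ring

lemma avg_pow_sum {α : Type*} {w : α → ℝ≥0∞} (f : α → ℕ) (x : ℝ≥0∞) (n : ℕ) :
    avg w n (fun L => x ^ (L.map f).sum) = (∑' a, w a * x ^ f a) ^ n := by
  induction n with
  | zero => simp
  | succ n ih =>
    simp only [avg_succ, List.map_cons, List.sum_cons, pow_add, avg_const_mul, ih,
      ← mul_assoc, ENNReal.tsum_mul_right]
    ring

lemma exists_short {α : Type*} {w : α → ℝ≥0∞} (hw : ∑' a, w a = 1) (len : α → ℕ)
    (hinf : ∑' a, w a * (len a : ℝ≥0∞) = ⊤) (L : ℕ) :
    ∃ x : ℝ, 0 < x ∧ x < 1 ∧ ∑' a, w a * ENNReal.ofReal x ^ len a ≤ ENNReal.ofReal x ^ L := by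
  classical
  obtain ⟨F, hF⟩ : ∃ F : Finset α, ((L : ℝ≥0∞) + 1) < ∑ a ∈ F, w a * (len a : ℝ≥0∞) := by
    rw [ENNReal.tsum_eq_iSup_sum] at hinf
    exact lt_iSup_iff.mp (by rw [hinf]; exact ENNReal.add_lt_top.mpr ⟨ENNReal.natCast_lt_top _,
      ENNReal.one_lt_top⟩)
  have hwt : ∀ a, w a ≠ ⊤ := fun a =>
    ne_top_of_le_ne_top ENNReal.one_ne_top (hw ▸ ENNReal.le_tsum a)
  set M := F.sup len
  have hev : ∀ᶠ x in 𝓝[<] (1 : ℝ), (L : ℝ) < ((L : ℝ) + 1) * x ^ M :=
    Tendsto.eventually_const_lt (show (L : ℝ) < ((L : ℝ) + 1) * 1 ^ M by simp)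
      (((continuous_pow M).const_mul ((L : ℝ) + 1)).tendsto 1 |>.mono_left nhdsWithin_le_nhds)
  obtain ⟨x, hxM, hx0, hx1⟩ := (hev.and (Ioo_mem_nhdsLT (show (0 : ℝ) < 1 by norm_num))).exists
  refine ⟨x, hx0, hx1, ?_⟩
  have hS : ((L : ℝ) + 1) ≤ ∑ a ∈ F, (w a).toReal * len a := by
    have := ENNReal.toReal_mono (ENNReal.sum_ne_top.mpr fun a _ =>
      ENNReal.mul_ne_top (hwt a) (ENNReal.natCast_ne_top _)) hF.le
    simpa [ENNReal.toReal_sum, ENNReal.toReal_mul, hwt, ENNReal.mul_ne_top,
      ENNReal.toReal_add] using this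
  have hdrop : (L : ℝ) * (1 - x) ≤ ∑ a ∈ F, (w a).toReal * (1 - x ^ len a) := by
    calc (L : ℝ) * (1 - x) ≤ ((L : ℝ) + 1) * x ^ M * (1 - x) :=
          mul_le_mul_of_nonneg_right hxM.le (by linarith)
      _ ≤ (∑ a ∈ F, (w a).toReal * len a) * x ^ M * (1 - x) := by
          have : 0 ≤ x ^ M * (1 - x) := mul_nonneg (by positivity) (by linarith)
          nlinarith
      _ ≤ _ := by
          rw [Finset.sum_mul, Finset.sum_mul]
          refine Finset.sum_le_sum fun a ha => ?_
          rw [mul_assoc, mul_assoc]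
          refine mul_le_mul_of_nonneg_left ?_ ENNReal.toReal_nonneg
          have h1 : x ^ M ≤ x ^ len a := pow_le_pow_of_le_one hx0.le hx1.le (Finset.le_sup ha)
          have h2 : ∀ n : ℕ, (n : ℝ) * x ^ n * (1 - x) ≤ 1 - x ^ n := by
            intro n
            induction n with
            | zero => simp
            | succ n ih =>
              have : x * ((n : ℝ) * x ^ n * (1 - x)) ≤ (n : ℝ) * x ^ n * (1 - x) :=
                mul_le_of_le_one_left (mul_nonneg (by positivity) (by linarith)) hx1.le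
              have h4 : x * x ^ n * (1 - x) ≤ x ^ n * (1 - x) := by
                have : 0 ≤ x ^ n * (1 - x) := mul_nonneg (by positivity) (by linarith)
                nlinarith
              push_cast
              rw [pow_succ]
              nlinarith
          refine le_trans ?_ (h2 (len a))
          refine (le_of_eq ?_).trans (mul_le_mul_of_nonneg_right
            (mul_le_mul_of_nonneg_left h1 (Nat.cast_nonneg _)) (by linarith))
          ring
  have hb : 1 - (L : ℝ) * (1 - x) ≤ x ^ L := by
    have := one_add_mul_le_pow (show (-2 : ℝ) ≤ x - 1 by linarith) L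
    rw [show 1 + (x - 1) = x by ring] at this
    linarith
  have hsplit : ∑' a, w a * ENNReal.ofReal x ^ len a +
      ∑ a ∈ F, w a * ENNReal.ofReal (1 - x ^ len a) ≤ 1 := by
    rw [← hw, show (∑ a ∈ F, w a * ENNReal.ofReal (1 - x ^ len a))
      = ∑' a, (if a ∈ F then w a * ENNReal.ofReal (1 - x ^ len a) else 0) by
        rw [tsum_eq_sum (s := F) fun a ha => if_neg ha]
        exact Finset.sum_congr rfl fun a ha => (if_pos ha).symm, ← ENNReal.tsum_add]
    refine ENNReal.tsum_le_tsum fun a => ?_
    rw [← ENNReal.ofReal_pow hx0.le]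
    split_ifs
    · rw [← mul_add, ← ENNReal.ofReal_add (by positivity)
        (sub_nonneg.mpr (pow_le_one₀ hx0.le hx1.le))]
      simp
    · simpa using mul_le_mul' le_rfl (ENNReal.ofReal_le_one.mpr (pow_le_one₀ hx0.le hx1.le))
  have hne : ∑' a, w a * ENNReal.ofReal x ^ len a ≠ ⊤ :=
    ne_top_of_le_ne_top ENNReal.one_ne_top (le_self_add.trans hsplit)
  rw [← ENNReal.ofReal_pow hx0.le, ← ENNReal.ofReal_toReal hne]
  refine ENNReal.ofReal_le_ofReal ?_
  have hfin : ∑ a ∈ F, w a * ENNReal.ofReal (1 - x ^ len a) ≠ ⊤ :=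
    ne_top_of_le_ne_top ENNReal.one_ne_top (le_add_self.trans hsplit)
  have h3 := ENNReal.toReal_mono ENNReal.one_ne_top hsplit
  rw [ENNReal.toReal_add hne hfin, ENNReal.toReal_sum (fun a _ =>
    ENNReal.mul_ne_top (hwt a) ENNReal.ofReal_ne_top), ENNReal.toReal_one] at h3
  rw [Finset.sum_congr rfl (g := fun a => (w a).toReal * (1 - x ^ len a)) (fun a _ => by
    rw [ENNReal.toReal_mul, ENNReal.toReal_ofReal (sub_nonneg.mpr (pow_le_one₀ hx0.le hx1.le))])]
    at h3
  linarith

/-- Reaching every level in linear time with positive chance bounds the mean length. -/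
lemma mean_length_finite {α : Type*} {w : α → ℝ≥0∞} (hw : ∑' a, w a = 1) (h len : α → ℕ)
    (h1 : ∀ a, 1 ≤ h a) (hG : ∑' a, w a * (h a : ℝ≥0∞) ≠ ⊤) {g : ℝ≥0∞} (hg : g ≠ 0) (C : ℕ)
    (hlo : ∀ N, 1 ≤ N → g ≤ ∑' n, avg w n fun L =>
      if (L.map h).sum = N ∧ (L.map len).sum ≤ C * N then 1 else 0) :
    ∑' a, w a * (len a : ℝ≥0∞) ≠ ⊤ := by
  intro hinf
  set G := ∑' a, w a * (h a : ℝ≥0∞)
  obtain ⟨m, hm0, hm⟩ : ∃ m : ℕ, 0 < m ∧ G / m < g / 2 := by
    rcases eq_or_ne g ⊤ with rfl | hgt
    · exact ⟨1, one_pos, by simp [ENNReal.top_div_of_ne_top, hG, Ne.lt_top]⟩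
    have hg2 : g / 2 ≠ 0 := ENNReal.div_ne_zero.mpr ⟨hg, by norm_num⟩
    obtain ⟨m, hm0, hm⟩ := ENNReal.exists_nat_pos_mul_gt hg2 hG
    refine ⟨m, hm0, ?_⟩
    exact ENNReal.div_lt_of_lt_mul' hm
  obtain ⟨x, hx0, hx1, hφ⟩ := exists_short hw len hinf (m * (C + 2))
  set X := ENNReal.ofReal x
  set φ := ∑' a, w a * X ^ len a
  have hXpos : X ≠ 0 := by simp [X, hx0]
  have hX1 : X ≤ 1 := ENNReal.ofReal_le_one.mpr hx1.le
  have hφ1 : φ ≤ 1 := hφ.trans (pow_le_one' hX1 _)
  have key : ∀ N, (C + 2) * m ≤ N → 1 ≤ N →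
      g ≤ G / m + ((N : ℝ≥0∞) + 1) * X ^ N := by
    intro N hN hN1
    refine (hlo N hN1).trans ?_
    rw [← Summable.sum_add_tsum_nat_add' (k := N / m) ENNReal.summable]
    refine add_le_add ?_ ?_
    · set k := N / m
      calc ∑ n ∈ Finset.range k, avg w n (fun L =>
              if (L.map h).sum = N ∧ (L.map len).sum ≤ C * N then 1 else 0)
          ≤ ∑ n ∈ Finset.range k, avg w k (fun L =>
              if ((L.take n).map h).sum = N then (1 : ℝ≥0∞) else 0) := by
            refine Finset.sum_le_sum fun n hn => ?_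
            rw [avg_take hw (Finset.mem_range.mp hn).le
              (fun L => if (L.map h).sum = N then (1 : ℝ≥0∞) else 0)]
            exact avg_mono fun L => by split_ifs <;> simp_all
        _ ≤ avg w k (fun L => (N : ℝ≥0∞)⁻¹ * ((L.map h).sum : ℝ≥0∞)) := by
            rw [← avg_sum]
            refine avg_mono_of_length fun L hL => ?_
            have hmono : ∀ i j, i < j → j ≤ L.length →
                ((L.take i).map h).sum < ((L.take j).map h).sum := by
              intro i j hij hj
              obtain ⟨r, rfl⟩ := Nat.exists_eq_add_of_lt hij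
              rw [show i + r + 1 = i + (r + 1) from rfl, List.take_add, List.map_append,
                List.sum_append]
              have hne : (L.drop i).take (r + 1) ≠ [] := by simp; omega
              obtain ⟨b, l, hbl⟩ := List.exists_cons_of_ne_nil hne
              rw [hbl]; have := h1 b; simp; omega
            by_cases hex : ∃ i ∈ Finset.range k, ((L.take i).map h).sum = N
            · obtain ⟨i, hi, hiN⟩ := hex
              rw [Finset.sum_eq_single_of_mem i hi fun j hj hji => if_neg fun hjN => ?_, if_pos hiN]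
              · rw [mul_comm, ← div_eq_mul_inv, ENNReal.le_div_iff_mul_le (Or.inl (by simp; omega))
                  (Or.inl (ENNReal.natCast_ne_top N)), one_mul, Nat.cast_le, ← hiN]
                conv_rhs => rw [← List.take_append_drop i L, List.map_append, List.sum_append]
                exact Nat.le_add_right _ _
              · have := Finset.mem_range.mp hi
                have := Finset.mem_range.mp hj
                rcases lt_or_gt_of_ne hji with h' | h'
                · have := hmono j i h' (by omega); omega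
                · have := hmono i j h' (by omega); omega
            · rw [Finset.sum_eq_zero fun i hi => if_neg fun hiN => hex ⟨i, hi, hiN⟩]
              exact zero_le
        _ ≤ G / m := by
            rw [avg_const_mul, avg_map_sum hw, ← mul_assoc, div_eq_mul_inv, mul_comm G]
            refine mul_le_mul' ?_ le_rfl
            rw [mul_comm, ← div_eq_mul_inv, ENNReal.div_le_iff_le_mul (Or.inl (by simp; omega))
              (Or.inl (ENNReal.natCast_ne_top N)), mul_comm, ← div_eq_mul_inv,
              ENNReal.le_div_iff_mul_le (Or.inl (by simp; omega))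
                (Or.inl (ENNReal.natCast_ne_top m))]
            exact_mod_cast Nat.div_mul_le_self N m
    · rw [tsum_eq_sum (s := Finset.range (N + 1)) fun n hn => ?_]
      · refine (Finset.sum_le_card_nsmul _ _ (X ^ N) fun n _ => ?_).trans (by simp)
        have hle : avg w (n + N / m) (fun L =>
            if (L.map h).sum = N ∧ (L.map len).sum ≤ C * N then 1 else 0) * X ^ (C * N)
            ≤ φ ^ (n + N / m) := by
          rw [← avg_mul_const, ← avg_pow_sum len X]
          refine avg_mono fun L => ?_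
          split_ifs with hL
          · rw [one_mul]; exact pow_le_pow_right_of_le_one' hX1 hL.2
          · simp
        have hexp : C * N + N ≤ m * (C + 2) * (N / m) := by
          have := Nat.div_add_mod N m
          have := Nat.mod_lt N hm0
          nlinarith
        have h2 : φ ^ (n + N / m) ≤ X ^ N * X ^ (C * N) := by
          rw [← pow_add]
          calc φ ^ (n + N / m) ≤ φ ^ (N / m) := pow_le_pow_right_of_le_one' hφ1 (by omega)
            _ ≤ (X ^ (m * (C + 2))) ^ (N / m) := pow_le_pow_left' hφ _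
            _ ≤ _ := by rw [← pow_mul]; exact pow_le_pow_right_of_le_one' hX1 (by omega)
        exact (ENNReal.mul_le_mul_iff_left (pow_ne_zero _ hXpos)
          (ENNReal.pow_ne_top ENNReal.ofReal_ne_top)).mp (hle.trans h2)
      · refine le_antisymm ((avg_mono_of_length (G := fun _ => 0 * 1) fun L hL => ?_).trans
          (by rw [avg_const_mul]; simp)) zero_le
        rw [if_neg fun h' => ?_]
        · simp
        have hge : L.length ≤ (L.map h).sum := by
          have := List.card_nsmul_le_sum (L.map h) 1 fun y hy => by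
            obtain ⟨z, _, rfl⟩ := List.mem_map.mp hy; exact h1 z
          simpa using this
        simp at hn
        generalize N / m = q at hL
        omega
  have hlim : Tendsto (fun N : ℕ => G / m + ((N : ℝ≥0∞) + 1) * X ^ N) atTop (𝓝 (G / m + 0)) := by
    refine tendsto_const_nhds.add ?_
    have h2 : Tendsto (fun N : ℕ => ((N : ℝ) + 1) * x ^ N) atTop (𝓝 0) := by
      have h3 := (tendsto_self_mul_const_pow_of_lt_one hx0.le hx1).add
        (tendsto_pow_atTop_nhds_zero_of_lt_one hx0.le hx1)
      rw [add_zero] at h3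
      exact h3.congr fun N => by ring
    rw [← ENNReal.ofReal_zero]
    refine (ENNReal.tendsto_ofReal h2).congr fun N => ?_
    rw [ENNReal.ofReal_mul (by positivity), ENNReal.ofReal_pow hx0.le,
      ENNReal.ofReal_add (Nat.cast_nonneg N) zero_le_one, ENNReal.ofReal_natCast,
      ENNReal.ofReal_one]
  have hle := ge_of_tendsto hlim ((eventually_ge_atTop ((C + 2) * m + 1)).mono fun N hN =>
    key N (by omega) (by omega))
  rw [add_zero] at hle
  exact absurd hm (not_lt.mpr (le_trans ENNReal.half_le_self hle))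

/-- The blocks of a walk with a velocity of positive level component. -/
theorem blocks_of_vel (hrow : ∀ᵐ p ∂μ, GoodRow p) {a : Fin d → ℤ} (ha : ∀ i, |a i| ≤ 1)
    {v : Fin d → ℝ} (hv : 0 < ∑ i, (a i : ℝ) * v i) (hP : annealed μ (vel v) ≠ 0) :
    ∑' b, bw (levOf a) μ b = 1 ∧
    ∑' b, bw (levOf a) μ b * (hgt b : ℝ≥0∞) ≠ ⊤ ∧
    ∑' b, bw (levOf a) μ b * (b.1.length : ℝ≥0∞) ≠ ⊤ ∧
    ∃ g : ℝ≥0∞, g ≠ 0 ∧ ∀ N, g ≤ renew (bw (levOf a) μ) hgt N := by
  classical
  obtain ⟨B, hB⟩ := exists_climb hrow a hv hP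
  set ε := (∑ i, (a i : ℝ) * v i) / 2
  have hε : 0 < ε := by positivity
  set g := annealed μ (climb a ε B v)
  obtain ⟨C, hC⟩ := exists_nat_ge ((1 + (B : ℝ)) / ε + 1)
  have hmass : ∀ N, g ≤ ∑' n, avg (bw (levOf a) μ) n fun L => if (L.map hgt).sum = N ∧
      ((1 ≤ N → (flat (levOf a) L).length ≤ C * N)) then 1 else 0 := by
    intro N
    rw [← reachMass_eq (μ := μ) (levOf a) N fun γ => 1 ≤ N → γ.length ≤ C * N]
    refine le_reachMass hrow _ _ _ _ fun X hX h0 hs => ?_
    obtain ⟨γ, h1, h2, h3, h4, -⟩ := climb_reach ha hε hX h0 hs N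
    refine ⟨γ, h1, h2, fun hN => ?_, h3⟩
    have hN' : (1 : ℝ) ≤ N := by exact_mod_cast hN
    have hC' : 1 + (B : ℝ) + ε ≤ C * ε := by
      have h5 := mul_le_mul_of_nonneg_right hC hε.le
      rw [add_mul, div_mul_cancel₀ _ hε.ne', one_mul] at h5
      linarith
    have : (γ.length : ℝ) ≤ ((C * N : ℕ) : ℝ) := by
      push_cast
      refine le_of_mul_le_mul_left ?_ hε
      nlinarith
    exact_mod_cast this
  have hlo : ∀ N, g ≤ renew (bw (levOf a) μ) hgt N := fun N => (hmass N).trans
    (ENNReal.tsum_le_tsum fun n => avg_mono fun L => by split_ifs <;> simp_all)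
  have hhi : ∀ N, renew (bw (levOf a) μ) hgt N ≤ 1 := fun N => by
    refine le_trans (le_of_eq ?_) (reachMass_le_one hrow (levOf a) N fun _ => True)
    rw [reachMass_eq]; simp [renew]
  have hgt' : g ≠ ⊤ := measure_ne_top _ _
  obtain ⟨hw, hG⟩ := renewal one_le_hgt (g := g.toReal) (ENNReal.toReal_pos hB hgt')
    (fun N => by rw [ENNReal.ofReal_toReal hgt']; exact hlo N) hhi
  have hG' := ne_top_of_le_ne_top ENNReal.ofReal_ne_top hG
  refine ⟨hw, hG', ?_, g, hB, hlo⟩
  refine mean_length_finite hw hgt (fun b => b.1.length) one_le_hgt hG' hB C fun N hN =>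
    (hmass N).trans (le_of_eq (tsum_congr fun n => congrArg _ (funext fun L => ?_)))
  simp [hN, flat, List.length_flatten]

end Vale.Agent.P147.Velocity
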