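import Mathlib
import Vale.Agent.P147.Velocity.Speed

/-!
P147: all velocities with positive level component coincide, by the strong law for blocks.
-/

open MeasureTheory Filter ProbabilityTheory
open scoped ENNReal Topology

namespace Vale.Agent.P147.Velocity

section law

variable {α : Type*} [Countable α] [MeasurableSpace α] [DiscreteMeasurableSpace α]
  {w : α → ℝ≥0∞}

/-- The first `n` letters of a sequence. -/
def firstLetters (n : ℕ) (ξ : ℕ → α) : List α := (List.range n).map ξ

omit [Countable α] [MeasurableSpace α] [DiscreteMeasurableSpace α] in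
lemma lw_eq_prod_range (L : List α) :
    lw w L = ∏ k ∈ Finset.range L.length, (L[k]?.map w).getD 1 := by
  induction L with
  | nil => simp [lw]
  | cons a L ih =>
    rw [List.length_cons, Finset.prod_range_succ', lw, List.map_cons, List.prod_cons, mul_comm]
    change (lw w L) * w a = _
    rw [ih]
    simp

omit [Countable α] [MeasurableSpace α] [DiscreteMeasurableSpace α] in
lemma firstLetters_succ (n : ℕ) (ξ : ℕ → α) :
    firstLetters (n + 1) ξ = firstLetters n ξ ++ [ξ n] := by
  simp [firstLetters, List.range_succ]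

omit [Countable α] [MeasurableSpace α] [DiscreteMeasurableSpace α] in
lemma firstLetters_fiber (n : ℕ) (L : List α) (hL : L.length = n) :
    {ξ : ℕ → α | firstLetters n ξ = L} = Set.pi (Finset.range n : Set ℕ)
      (fun k => if h : k < L.length then {L[k]} else Set.univ) := by
  subst hL
  ext ξ
  simp only [Set.mem_ofPred_eq, Set.mem_pi, Finset.coe_range, Set.mem_Iio]
  constructor
  · intro h k hk
    rw [dif_pos hk, Set.mem_singleton_iff]
    simpa [firstLetters, hk] using congrArg (fun l => l[k]?) h
  · intro h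
    refine List.ext_getElem (by simp [firstLetters]) fun k _ hk => ?_
    have := h k hk
    rw [dif_pos hk, Set.mem_singleton_iff] at this
    simp [firstLetters, this]

omit [Countable α] in
lemma measurableSet_fiber (n : ℕ) (L : List α) :
    MeasurableSet {ξ : ℕ → α | firstLetters n ξ = L} := by
  by_cases hL : L.length = n
  · rw [firstLetters_fiber n L hL]
    exact MeasurableSet.pi (Finset.countable_toSet _) fun k _ => MeasurableSet.of_discrete
  · convert MeasurableSet.empty
    ext ξ
    simp only [Set.mem_ofPred_eq, Set.mem_empty_iff_false, iff_false]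
    rintro rfl
    simp [firstLetters] at hL

lemma measurable_firstLetters {β : Type*} [MeasurableSpace β] (n : ℕ) (F : List α → β) :
    Measurable fun ξ : ℕ → α => F (firstLetters n ξ) := by
  intro s _
  have h : (fun ξ : ℕ → α => F (firstLetters n ξ)) ⁻¹' s =
      ⋃ L : {L : List α // F L ∈ s}, {ξ : ℕ → α | firstLetters n ξ = L.1} := by
    ext ξ; simp
  rw [h]
  exact MeasurableSet.iUnion fun L => measurableSet_fiber n L.1

variable (w) in
/-- The weights as a probability mass function. -/
noncomputable def letterPMF (hw : ∑' a, w a = 1) : PMF α := ⟨w, hw ▸ ENNReal.summable.hasSum⟩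

variable (w) in
/-- The law of one letter. -/
noncomputable def letterLaw (hw : ∑' a, w a = 1) : Measure α := (letterPMF w hw).toMeasure

instance (hw : ∑' a, w a = 1) : IsProbabilityMeasure (letterLaw w hw) := by
  unfold letterLaw; infer_instance

omit [Countable α] in
lemma letterLaw_singleton (hw : ∑' a, w a = 1) (a : α) : letterLaw w hw {a} = w a := by
  rw [letterLaw, PMF.toMeasure_apply_singleton _ _ (MeasurableSet.of_discrete)]
  rfl

/-- An average over lists is an integral over sequences. -/
lemma avg_eq_lintegral (hw : ∑' a, w a = 1) (n : ℕ) (F : List α → ℝ≥0∞) :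
    avg w n F = ∫⁻ ξ, F (firstLetters n ξ) ∂Measure.infinitePi (fun _ : ℕ => letterLaw w hw) := by
  have hcover : (⋃ L : {L : List α // L.length = n}, {ξ : ℕ → α | firstLetters n ξ = L.1})
      = Set.univ := by
    ext ξ
    simp only [Set.mem_iUnion, Set.mem_ofPred_eq, Set.mem_univ, iff_true]
    exact ⟨⟨firstLetters n ξ, by simp [firstLetters]⟩, rfl⟩
  conv_rhs => rw [← setLIntegral_univ, ← hcover]
  rw [lintegral_iUnion (fun L => measurableSet_fiber n L.1)
    (fun L L' hne => Set.disjoint_left.2 fun ξ h h' => hne (Subtype.ext (h.symm.trans h'))),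
    avg_eq_tsum]
  refine tsum_congr fun L => ?_
  rw [setLIntegral_congr_fun (g := fun _ => F L.1) (measurableSet_fiber n L.1)
    (fun ξ hξ => congrArg F hξ), setLIntegral_const, mul_comm]
  congr 1
  rw [firstLetters_fiber n L.1 L.2, Measure.infinitePi_pi _ fun k _ => MeasurableSet.of_discrete,
    lw_eq_prod_range]
  conv_lhs => rw [L.2]
  refine Finset.prod_congr rfl fun k hk => ?_
  rw [Finset.mem_range] at hk
  have hk' : k < L.1.length := by rw [L.2]; exact hk
  rw [dif_pos hk', List.getElem?_eq_getElem hk', Option.map_some, Option.getD_some,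
    letterLaw_singleton]

/-- At most one block count reaches a given height; a positive drift excludes the bad event. -/
lemma renew_event_tendsto (hw : ∑' a, w a = 1) (h : α → ℕ) (h1 : ∀ a, 1 ≤ h a) (κ : α → ℝ)
    (hκ : ∑' a, w a * ENNReal.ofReal |κ a| ≠ ⊤) (hpos : 0 < ∑' a, (w a).toReal * κ a) :
    Tendsto (fun N => ∑' n, avg w n fun L =>
      if (L.map h).sum = N ∧ (L.map κ).sum ≤ 0 then 1 else 0) atTop (𝓝 0) := by
  classical
  set P := Measure.infinitePi (fun _ : ℕ => letterLaw w hw) with hP
  have hm : Measurable κ := Measurable.of_discrete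
  have hpres : ∀ i, MeasurePreserving (fun ξ : ℕ → α => ξ i) P (letterLaw w hw) := fun i =>
    ⟨measurable_pi_apply i, Measure.infinitePi_map_eval _ i⟩
  have hint : Integrable κ (letterLaw w hw) := by
    refine ⟨hm.aestronglyMeasurable, ?_⟩
    rw [hasFiniteIntegral_iff_enorm, lintegral_countable', lt_top_iff_ne_top]
    simpa [letterLaw_singleton, mul_comm, Real.enorm_eq_ofReal_abs] using hκ
  have hmean : ∫ ξ, κ (ξ 0) ∂P = ∑' a, (w a).toReal * κ a := by
    rw [← integral_map (measurable_pi_apply 0).aemeasurable hm.aestronglyMeasurable,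
      (hpres 0).map_eq, integral_countable hint]
    simp [measureReal_def, letterLaw_singleton]
  have hindep : iIndepFun (fun i (ξ : ℕ → α) => κ (ξ i)) P :=
    iIndepFun_infinitePi (X := fun _ => κ) fun _ => hm
  have hslln := strong_law_ae_real (fun i (ξ : ℕ → α) => κ (ξ i))
    ((hpres 0).integrable_comp_of_integrable hint) (fun i j hij => hindep.indepFun hij)
    (fun i => IdentDistrib.comp
      ⟨(measurable_pi_apply i).aemeasurable, (measurable_pi_apply 0).aemeasurable,
        (hpres i).map_eq.trans (hpres 0).map_eq.symm⟩ hm)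
  have hsum : ∀ n ξ, ((firstLetters n ξ).map κ).sum = ∑ i ∈ Finset.range n, κ (ξ i) := by
    intro n ξ
    induction n with
    | zero => simp [firstLetters]
    | succ n ih => simp [firstLetters_succ, Finset.sum_range_succ, ih]
  set A : ℕ → Set (ℕ → α) := fun m =>
    ⋃ n : {n // m ≤ n}, {ξ | ((firstLetters n.1 ξ).map κ).sum ≤ 0} with hA
  have hAm : ∀ m, MeasurableSet (A m) := fun m => MeasurableSet.iUnion fun n =>
    measurableSet_le (measurable_firstLetters n.1 fun L => (L.map κ).sum) measurable_const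
  have hAanti : Antitone A := fun m m' hmm ξ hξ => by
    obtain ⟨⟨n, hn⟩, hξ'⟩ := Set.mem_iUnion.1 hξ
    exact Set.mem_iUnion.2 ⟨⟨n, hmm.trans hn⟩, hξ'⟩
  have hnull : P (⋂ m, A m) = 0 := by
    refine measure_eq_zero_iff_ae_notMem.2 ?_
    filter_upwards [hslln] with ξ hξ hin
    rw [hmean] at hξ
    obtain ⟨m, hm'⟩ := eventually_atTop.1
      ((hξ.eventually (lt_mem_nhds hpos)).and (eventually_gt_atTop 0))
    obtain ⟨⟨n, hn⟩, hξ'⟩ := Set.mem_iUnion.1 (Set.mem_iInter.1 hin m)
    obtain ⟨h2, h3⟩ := hm' n hn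
    simp only [Set.mem_ofPred_eq, hsum] at hξ'
    exact absurd h2 (not_lt.2 (div_nonpos_of_nonpos_of_nonneg hξ' (Nat.cast_nonneg n)))
  have hAlim : Tendsto (fun m => P (A m)) atTop (𝓝 0) := by
    have := tendsto_measure_iInter_atTop (μ := P) (fun m => (hAm m).nullMeasurableSet) hAanti
      ⟨0, measure_ne_top _ _⟩
    rwa [hnull] at this
  rw [ENNReal.tendsto_nhds_zero]
  intro ε hε
  have hε2 : 0 < ε / 2 := ENNReal.half_pos hε.ne'
  obtain ⟨m, hm'⟩ := (hAlim.eventually (ge_mem_nhds hε2)).exists
  have hhead : Tendsto (fun N => ∑ n ∈ Finset.range m, avg w n fun L =>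
      if (L.map h).sum = N then 1 else 0) atTop (𝓝 0) := by
    rw [show 𝓝 (0 : ℝ≥0∞) = 𝓝 (∑ n ∈ Finset.range m, (0 : ℝ≥0∞)) by simp]
    refine tendsto_finsetSum _ fun n _ => ENNReal.tendsto_atTop_zero_of_tsum_ne_top ?_
    rw [← avg_tsum]
    rw [avg_congr_of_length (G := fun _ => 1) fun L _ => by
      rw [tsum_eq_single (L.map h).sum fun N hN => if_neg (Ne.symm hN), if_pos rfl],
      avg_const hw]
    exact ENNReal.one_ne_top
  filter_upwards [hhead.eventually (ge_mem_nhds hε2)] with N hN
  set G : ℕ → List α → ℝ≥0∞ := fun n L =>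
    if m ≤ n ∧ (L.map h).sum = N ∧ (L.map κ).sum ≤ 0 then 1 else 0 with hG
  calc ∑' n, avg w n (fun L => if (L.map h).sum = N ∧ (L.map κ).sum ≤ 0 then 1 else 0)
      ≤ ∑' n, ((if n ∈ Finset.range m then avg w n (fun L =>
          if (L.map h).sum = N then 1 else 0) else 0) + avg w n (G n)) := by
        refine ENNReal.tsum_le_tsum fun n => ?_
        by_cases hn : n < m
        · rw [if_pos (Finset.mem_range.2 hn)]
          refine le_trans (avg_mono fun L => ?_) le_self_add
          split_ifs <;> simp_all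
        · rw [if_neg (by simpa using hn), zero_add]
          refine avg_mono fun L => ?_
          simp [hG, not_lt.1 hn]
    _ = (∑ n ∈ Finset.range m, avg w n fun L => if (L.map h).sum = N then 1 else 0) +
        ∫⁻ ξ, ∑' n, G n (firstLetters n ξ) ∂P := by
        rw [ENNReal.tsum_add, lintegral_tsum fun n => (measurable_firstLetters n (G n)).aemeasurable]
        congr 1
        · rw [tsum_eq_sum fun n hn => if_neg hn]
          exact Finset.sum_congr rfl fun n hn => if_pos hn
        · exact tsum_congr fun n => avg_eq_lintegral hw n _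
    _ ≤ ε / 2 + ε / 2 := by
        refine add_le_add hN (le_trans (lintegral_mono fun ξ => ?_)
          ((lintegral_indicator_one (hAm m)).trans_le hm'))
        by_cases hex : ∃ n, m ≤ n ∧ ((firstLetters n ξ).map h).sum = N ∧
            ((firstLetters n ξ).map κ).sum ≤ 0
        · obtain ⟨n, hn⟩ := hex
          have hinj : StrictMono fun j => ((firstLetters j ξ).map h).sum :=
            strictMono_nat_of_lt_succ fun j => by
              have := h1 (ξ j)
              simp [firstLetters_succ]; omega
          rw [tsum_eq_single n fun j hj => if_neg fun hjN =>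
            hj (hinj.injective (hjN.2.1.trans hn.2.1.symm))]
          simp only [if_pos hn]
          rw [Set.indicator_of_mem (Set.mem_iUnion.2 ⟨⟨n, hn.1⟩, hn.2.2⟩)]
          simp
        · refine le_trans (le_of_eq ?_) zero_le
          exact ENNReal.tsum_eq_zero.2 fun n => if_neg fun hn => hex ⟨n, hn⟩
    _ = ε := ENNReal.add_halves ε

end law

variable {d : ℕ}

lemma abs_disp_le (γ : List (Step d)) (i : Fin d) : |disp γ i| ≤ γ.length := by
  induction γ with
  | nil => simp
  | cons e γ ih =>
    have h1 : |move e i| ≤ 1 := by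
      rcases eq_or_ne i e.1 with rfl | hne
      · rcases e with ⟨j, b⟩; cases b <;> simp [move]
      · simp [move, Pi.single_eq_of_ne hne]
    simp only [disp_cons, Pi.add_apply, List.length_cons, Nat.cast_add, Nat.cast_one]
    have := abs_add_le (move e i) (disp γ i)
    linarith

lemma levOf_disp_le {a : Fin d → ℤ} (ha : ∀ i, |a i| ≤ 1) (γ : List (Step d)) :
    levOf a (disp γ) ≤ γ.length := by
  induction γ with
  | nil => simp
  | cons e γ ih =>
    have := abs_le.1 (ha e.1)
    rw [disp_cons, map_add, levOf_move, List.length_cons, Nat.cast_add, Nat.cast_one]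
    split_ifs <;> omega

lemma disp_flat {lev : Site d →+ ℤ} (L : List (Blk lev)) :
    disp (flat lev L) = (L.map fun b => disp b.1).sum := by
  induction L with
  | nil => simp
  | cons b L ih => simp [flat_cons, disp_append, ih]

variable [NeZero d] {μ : Measure (Step d → ℝ)} [IsProbabilityMeasure μ]

/-- The drift of the blocks against a velocity vanishes. -/
lemma drift_eq_zero (hrow : ∀ᵐ p ∂μ, GoodRow p) {a : Fin d → ℤ} (ha : ∀ i, |a i| ≤ 1)
    {v : Fin d → ℝ} (hv : 0 < ∑ i, (a i : ℝ) * v i) (hP : annealed μ (vel v) ≠ 0) (i : Fin d) :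
    ∑' b, (bw (levOf a) μ b).toReal * ((disp b.1 i : ℝ) - v i * (b.1.length : ℝ)) = 0 := by
  classical
  obtain ⟨hw, -, hlen, -⟩ := blocks_of_vel hrow ha hv hP
  set w := bw (levOf a) μ
  set e := ∑' b, (w b).toReal * ((disp b.1 i : ℝ) - v i * (b.1.length : ℝ)) with he
  by_contra he0
  have hwt : ∀ b, w b ≠ ⊤ := fun b =>
    ne_top_of_le_ne_top ENNReal.one_ne_top (hw ▸ ENNReal.le_tsum b)
  have hS : Summable fun b => (w b).toReal * (b.1.length : ℝ) := by
    simpa [ENNReal.toReal_mul] using ENNReal.summable_toReal hlen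
  set Lm := ∑' b, (w b).toReal * (b.1.length : ℝ)
  have hLm : 0 ≤ Lm := tsum_nonneg fun b => by positivity
  set η := |e| / (2 * (Lm + 1)) with hη
  have hη0 : 0 < η := by positivity
  set s : ℝ := if 0 ≤ e then 1 else -1 with hs
  have hs1 : |s| = 1 := by rw [hs]; split_ifs <;> simp
  have hse : s * e = |e| := by
    rw [hs]; split_ifs with h
    · simp [abs_of_nonneg h]
    · simp [abs_of_neg (not_le.1 h)]
  set κ : Blk (levOf a) → ℝ := fun b =>
    s * ((disp b.1 i : ℝ) - v i * (b.1.length : ℝ)) - η * (b.1.length : ℝ) with hκ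
  have hbd : ∀ b : Blk (levOf a),
      |(disp b.1 i : ℝ) - v i * (b.1.length : ℝ)| ≤ (1 + |v i|) * (b.1.length : ℝ) := by
    intro b
    have h1 : |(disp b.1 i : ℝ)| ≤ (b.1.length : ℝ) := by exact_mod_cast abs_disp_le b.1 i
    refine (abs_sub _ _).trans ?_
    rw [abs_mul, Nat.abs_cast]
    linarith
  have hκbd : ∀ b, |κ b| ≤ (1 + |v i| + η) * (b.1.length : ℝ) := by
    intro b
    refine (abs_sub _ _).trans ?_
    rw [abs_mul, hs1, one_mul, abs_of_nonneg (show 0 ≤ η * (b.1.length : ℝ) by positivity)]
    linarith [hbd b]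
  have hSf : Summable fun b => (w b).toReal * ((disp b.1 i : ℝ) - v i * (b.1.length : ℝ)) :=
    (hS.mul_left (1 + |v i|)).of_norm_bounded fun b => by
      rw [Real.norm_eq_abs, abs_mul, abs_of_nonneg ENNReal.toReal_nonneg,
        mul_left_comm (1 + |v i|)]
      exact mul_le_mul_of_nonneg_left (hbd b) ENNReal.toReal_nonneg
  have hmean : ∑' b, (w b).toReal * κ b = |e| - η * Lm := by
    rw [show (fun b => (w b).toReal * κ b) = fun b =>
      s * ((w b).toReal * ((disp b.1 i : ℝ) - v i * (b.1.length : ℝ))) -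
        η * ((w b).toReal * (b.1.length : ℝ)) by funext b; simp only [hκ]; ring,
      (hSf.mul_left s).tsum_sub (hS.mul_left η), tsum_mul_left, tsum_mul_left, ← he, hse]
  have hpos : 0 < ∑' b, (w b).toReal * κ b := by
    have : η * Lm < |e| := by
      rw [hη, div_mul_eq_mul_div, div_lt_iff₀ (by positivity)]
      nlinarith [abs_pos.2 he0]
    linarith
  have hκfin : ∑' b, w b * ENNReal.ofReal |κ b| ≠ ⊤ := by
    refine ne_top_of_le_ne_top ?_ (ENNReal.tsum_le_tsum fun b =>
      mul_le_mul' le_rfl (ENNReal.ofReal_le_ofReal (hκbd b)))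
    simp only [ENNReal.ofReal_mul (show 0 ≤ 1 + |v i| + η by positivity), ENNReal.ofReal_natCast,
      mul_left_comm (w _), ENNReal.tsum_mul_left]
    exact ENNReal.mul_ne_top ENNReal.ofReal_ne_top hlen
  let _ : MeasurableSpace (Blk (levOf a)) := ⊤
  have : DiscreteMeasurableSpace (Blk (levOf a)) := ⟨fun _ => trivial⟩
  have hlim := renew_event_tendsto hw hgt one_le_hgt κ hκfin hpos
  -- climbing paths stay close to the velocity after some time
  obtain ⟨B, hB⟩ := exists_climb hrow a hv hP
  set ε := (∑ i, (a i : ℝ) * v i) / 2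
  set S : ℕ → Set (Path d) := fun M =>
    climb a ε B v ∩ {X | ∀ t ≥ M, |(X t i : ℝ) - v i * t| ≤ η * t} with hSdef
  obtain ⟨M, hM⟩ : ∃ M, annealed μ (S M) ≠ 0 := by
    by_contra hall
    push Not at hall
    refine hB (measure_mono_null (fun X hX => ?_) (measure_iUnion_null hall))
    obtain ⟨M, hM⟩ := eventually_atTop.1
      (((hX.2 i).eventually (Metric.closedBall_mem_nhds (v i) hη0)).and (eventually_gt_atTop 0))
    refine Set.mem_iUnion.2 ⟨M, hX, fun t ht => ?_⟩
    obtain ⟨h1, h2⟩ := hM t ht
    have ht0 : (0 : ℝ) < t := by exact_mod_cast h2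
    rw [Real.dist_eq] at h1
    calc |(X t i : ℝ) - v i * t| = |(X t i : ℝ) / t - v i| * t := by
          rw [← abs_of_pos ht0, ← abs_mul, abs_of_pos ht0, sub_mul, div_mul_cancel₀ _ ht0.ne']
      _ ≤ η * t := mul_le_mul_of_nonneg_right h1 ht0.le
  refine hM (le_antisymm (ge_of_tendsto hlim ((eventually_ge_atTop M).mono fun N hN => ?_)) zero_le)
  have hε : 0 < ε := by positivity
  refine (le_reachMass hrow (levOf a) N
    (fun γ => |(disp γ i : ℝ) - v i * (γ.length : ℝ)| ≤ η * (γ.length : ℝ)) (S M)
    fun X hX h0 hsX => ?_).trans ?_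
  · obtain ⟨γ, g1, g2, g3, -, g5⟩ := climb_reach ha hε hX.1 h0 hsX N
    refine ⟨γ, g1, g2, ?_, g3⟩
    have hlenγ := levOf_disp_le ha γ
    rw [g2] at hlenγ
    have h3 := hX.2 γ.length (by omega)
    rwa [g5] at h3
  · rw [reachMass_eq]
    refine ENNReal.tsum_le_tsum fun n => avg_mono fun L => ?_
    split_ifs with h1 h2
    · exact le_rfl
    · refine absurd ⟨h1.1, ?_⟩ h2
      have hsum : (L.map κ).sum = s * ((disp (flat (levOf a) L) i : ℝ) -
          v i * ((flat (levOf a) L).length : ℝ)) - η * ((flat (levOf a) L).length : ℝ) := by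
        clear h1 h2
        induction L with
        | nil => simp
        | cons b L ih =>
          rw [List.map_cons, List.sum_cons, ih]
          simp only [flat_cons, disp_append, Pi.add_apply, List.length_append, Int.cast_add,
            Nat.cast_add, hκ]
          ring
      rw [hsum]
      have h3 := h1.2
      have h4 : s * ((disp (flat (levOf a) L) i : ℝ) - v i * ((flat (levOf a) L).length : ℝ)) ≤
          |(disp (flat (levOf a) L) i : ℝ) - v i * ((flat (levOf a) L).length : ℝ)| :=
        (le_abs_self _).trans (by rw [abs_mul, hs1, one_mul])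
      linarith
    · exact zero_le
    · exact le_rfl

/-- At most one velocity has a positive level component. -/
theorem vel_unique (hrow : ∀ᵐ p ∂μ, GoodRow p) {a : Fin d → ℤ} (ha : ∀ i, |a i| ≤ 1)
    {v v' : Fin d → ℝ} (hv : 0 < ∑ i, (a i : ℝ) * v i) (hv' : 0 < ∑ i, (a i : ℝ) * v' i)
    (hP : annealed μ (vel v) ≠ 0) (hP' : annealed μ (vel v') ≠ 0) : v = v' := by
  funext i
  obtain ⟨hw, -, hlen, -⟩ := blocks_of_vel hrow ha hv hP
  set w := bw (levOf a) μ
  have h1 := drift_eq_zero hrow ha hv hP i
  have h2 := drift_eq_zero hrow ha hv' hP' i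
  have hwt : ∀ b, w b ≠ ⊤ := fun b =>
    ne_top_of_le_ne_top ENNReal.one_ne_top (hw ▸ ENNReal.le_tsum b)
  have hS : Summable fun b => (w b).toReal * (b.1.length : ℝ) := by
    simpa [ENNReal.toReal_mul] using ENNReal.summable_toReal hlen
  have hS0 : Summable fun b => (w b).toReal := ENNReal.summable_toReal (by rw [hw]; simp)
  have hpos : 1 ≤ ∑' b, (w b).toReal * (b.1.length : ℝ) := by
    refine le_trans (le_of_eq ?_) (hS0.tsum_le_tsum (fun b => ?_) hS)
    · rw [← ENNReal.tsum_toReal_eq hwt, hw, ENNReal.toReal_one]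
    · refine le_mul_of_one_le_right ENNReal.toReal_nonneg ?_
      exact_mod_cast List.length_pos_iff.2 b.2.1
  have hsum : ∀ c : ℝ,
      Summable fun b => (w b).toReal * ((disp b.1 i : ℝ) - c * (b.1.length : ℝ)) := fun c =>
    (hS.mul_left (1 + |c|)).of_norm_bounded fun b => by
      have h3 : |(disp b.1 i : ℝ)| ≤ (b.1.length : ℝ) := by exact_mod_cast abs_disp_le b.1 i
      rw [Real.norm_eq_abs, abs_mul, abs_of_nonneg ENNReal.toReal_nonneg, mul_left_comm (1 + |c|)]
      refine mul_le_mul_of_nonneg_left ((abs_sub _ _).trans ?_) ENNReal.toReal_nonneg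
      rw [abs_mul, Nat.abs_cast]
      linarith
  have h3 : (v' i - v i) * ∑' b, (w b).toReal * (b.1.length : ℝ) = 0 := by
    have h4 := (hsum (v i)).tsum_sub (hsum (v' i))
    rw [h1, h2, sub_zero] at h4
    rw [← h4, ← tsum_mul_left]
    exact tsum_congr fun b => by ring
  rcases mul_eq_zero.1 h3 with h | h <;> linarith

end Vale.Agent.P147.Velocity
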