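import Vale.Agent.P147.Velocity.Opposite
import Vale.Agent.P147.Velocity.Unique

/-!
P147: in every dimension at least three there is at most one nonzero velocity.
-/

open MeasureTheory Filter
open scoped Topology

namespace Vale.Agent.P147.Velocity

variable {d : ℕ} [NeZero d] {μ : Measure (Step d → ℝ)} [IsProbabilityMeasure μ]

/-- In every dimension at least three an iid uniformly elliptic walk has at most one nonzero
velocity. -/
theorem at_most_one_velocity (hd : 3 ≤ d) (hrow : ∀ᵐ p ∂μ, GoodRow p) {κ : ℝ} (hκ : 0 < κ)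
    (hell : ∀ᵐ p ∂μ, ∀ e, κ ≤ p e) {v w : Fin d → ℝ} (hv : v ≠ 0) (hw : w ≠ 0)
    (hv' : annealed μ (vel v) ≠ 0) (hw' : annealed μ (vel w) ≠ 0) : v = w := by
  have hop : ∀ i, 0 ≤ v i * w i := by
    intro i
    by_contra hneg
    rw [not_le] at hneg
    rcases mul_neg_iff.mp hneg with ⟨h1, h2⟩ | ⟨h1, h2⟩
    · exact no_opposite hrow hκ hell hd h1 h2 hv' hw'
    · exact no_opposite hrow hκ hell hd h2 h1 hw' hv'
  let sgn : ℝ → ℤ := fun r => if 0 < r then 1 else -1
  have hsgn : ∀ r, |sgn r| ≤ 1 := fun r => by simp only [sgn]; split_ifs <;> simp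
  have hpos : ∀ r : ℝ, r ≠ 0 → 0 < (sgn r : ℝ) * r := fun r hr => by
    simp only [sgn]
    split_ifs with h
    · simpa using h
    · push_cast; linarith [lt_of_le_of_ne (not_lt.mp h) hr]
  obtain ⟨i, hi⟩ := Function.ne_iff.mp hv
  obtain ⟨j, hj⟩ := Function.ne_iff.mp hw
  rw [Pi.zero_apply] at hi hj
  have hdot : ∀ (a : Fin d → ℤ) (u : Fin d → ℝ) (i : Fin d), (∀ l, l ≠ i → (a l : ℝ) * u l = 0) →
      ∑ l, (a l : ℝ) * u l = (a i : ℝ) * u i := fun a u i h =>
    Finset.sum_eq_single i (fun l _ hl => h l hl) (by simp)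
  by_cases hboth : ∃ l, v l ≠ 0 ∧ w l ≠ 0
  · obtain ⟨l, hvl, hwl⟩ := hboth
    have hb : ∀ m, |(Pi.single l (sgn (v l)) : Fin d → ℤ) m| ≤ 1 := fun m => by
      by_cases hm : m = l
      · subst hm; simpa using hsgn (v m)
      · simp [hm]
    refine vel_unique hrow hb ?_ ?_ hv' hw'
    · rw [hdot _ v l fun m hm => by simp [hm]]
      simpa using hpos _ hvl
    · rw [hdot _ w l fun m hm => by simp [hm]]
      have h1 := hpos _ hvl
      have h2 := hop l
      simp only [Pi.single_eq_same]
      by_contra h3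
      rcases lt_trichotomy (w l) 0 with h | h | h
      · nlinarith [mul_pos h1 (neg_pos.mpr h)]
      · exact hwl h
      · nlinarith [mul_pos h1 h]
  · push Not at hboth
    set a : Fin d → ℤ := fun l =>
      if l = i then sgn (v i) else if l = j then sgn (w j) else 0 with ha
    have hb : ∀ m, |a m| ≤ 1 := fun m => by
      simp only [ha]; split_ifs <;> simp [hsgn]
    have hij : i ≠ j := fun h => hj (h ▸ hboth i hi)
    refine vel_unique hrow hb ?_ ?_ hv' hw'
    · rw [hdot a v i fun m hm => ?_]
      · simpa [ha] using hpos _ hi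
      · by_cases hmj : m = j
        · subst hmj
          have : v m = 0 := by by_contra h; exact hj (hboth m h)
          simp [this]
        · simp [ha, hm, hmj]
    · rw [hdot a w j fun m hm => ?_]
      · simpa [ha, hij.symm] using hpos _ hj
      · by_cases hmi : m = i
        · subst hmi
          simp [hboth m hi]
        · simp [ha, hm, hmi]

end Vale.Agent.P147.Velocity
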