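import Vale.Agent.P147.Velocity.ListAvg

/-!
P147: hitting weights and windows of beams.
-/

open scoped ENNReal

namespace Vale.Agent.P147.Velocity.Beam

variable {α : Type*} (B : Beam α)

/-- Every displacement `(1, s, t)` with `s, t ∈ {-1, 0, 1}` has positive weight. -/
def Atoms : Prop :=
  ∀ s t : ℤ, |s| ≤ 1 → |t| ≤ 1 → ∃ a, B.w a ≠ 0 ∧ B.disp a = (1, s, t)

lemma rev_atoms (h : B.Atoms) : B.rev.Atoms := h

/-- The chance that `n` blocks end at `x`. -/
noncomputable def hit (n : ℕ) (x : Pt) : ℝ≥0∞ :=
  B.avg n fun L => if B.total L = x then 1 else 0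

/-- The largest chance that `n` blocks end at a given site of level `h`. -/
noncomputable def hitSup (n : ℕ) (h : ℤ) : ℝ≥0∞ := ⨆ u : ℤ × ℤ, B.hit n (h, u)

/-- A bound on the expected visits to a site of level `m` by the blocks with index in `[a, b)`. -/
noncomputable def load (a b : ℕ) (m : ℤ) : ℝ≥0∞ :=
  ∑ j ∈ Finset.Ico a b, ∑' c, B.w c * ((B.sites c).map fun s => B.hitSup j (m - s.1)).sum

/-- The sites of the blocks from index `a` on. -/
def window (a : ℕ) (L : List α) : List Pt :=
  (B.trace (L.drop a)).map (B.total (L.take a) + ·)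

end Vale.Agent.P147.Velocity.Beam
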