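import Mathlib
import Vale.Agent.P147.Velocity.BeamDefs

/-!
P147: a beam visits each level once, and spreads laterally like a walk in two dimensions.
-/

open scoped ENNReal
open Finset

namespace Vale.Agent.P147.Velocity.Beam

/-- Number of sign sequences of length `k` with sum `s`. -/
def steps : ℕ → ℤ → ℕ
  | 0, s => if s = 0 then 1 else 0
  | k + 1, s => steps k (s - 1) + steps k (s + 1)

lemma steps_le : ∀ (k : ℕ) (s : ℤ),
    steps k s ≤ k.choose (((k : ℤ) + s) / 2).toNat ∧ (s < -(k : ℤ) → steps k s = 0)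
  | 0, s => by
    by_cases h : s = 0
    · subst h; simp [steps]
    · simp [steps, h]
  | k + 1, s => by
    obtain ⟨h1, h1'⟩ := steps_le k (s - 1)
    obtain ⟨h2, h2'⟩ := steps_le k (s + 1)
    refine ⟨?_, fun h => ?_⟩
    · rcases lt_or_ge (((k : ℤ) + 1 + s) / 2) 1 with hj | hj
      · have e : steps k (s - 1) = 0 := h1' (by omega)
        rw [steps, e, zero_add]
        rcases lt_or_ge (s + 1) (-(k : ℤ)) with h | h
        · simp [h2' h]
        · refine h2.trans ?_
          rw [show (((k : ℤ) + (s + 1)) / 2).toNat = 0 by omega,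
            show ((((k + 1 : ℕ) : ℤ) + s) / 2).toNat = 0 by omega]
          simp
      · obtain ⟨j, hj'⟩ : ∃ j : ℕ, ((k : ℤ) + 1 + s) / 2 = (j : ℤ) + 1 :=
          ⟨(((k : ℤ) + 1 + s) / 2 - 1).toNat, by omega⟩
        rw [steps, show ((((k + 1 : ℕ) : ℤ) + s) / 2).toNat = j + 1 by omega, Nat.choose_succ_succ]
        refine add_le_add ?_ ?_
        · rwa [show (((k : ℤ) + (s - 1)) / 2).toNat = j by omega] at h1
        · rwa [show (((k : ℤ) + (s + 1)) / 2).toNat = j + 1 by omega] at h2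
    · rw [steps, h1' (by omega), h2' (by omega)]

lemma centralBinom_sq_le (m : ℕ) : m.centralBinom ^ 2 * (2 * m + 1) ≤ 16 ^ m := by
  induction m with
  | zero => simp
  | succ m ih =>
    have h := Nat.succ_mul_centralBinom_succ m
    refine le_of_mul_le_mul_left ?_ (show 0 < (m + 1) ^ 2 by positivity)
    calc (m + 1) ^ 2 * ((m + 1).centralBinom ^ 2 * (2 * (m + 1) + 1))
        = ((m + 1) * (m + 1).centralBinom) ^ 2 * (2 * m + 3) := by ring
      _ = m.centralBinom ^ 2 * (2 * m + 1) * (4 * ((2 * m + 1) * (2 * m + 3))) := by rw [h]; ring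
      _ ≤ 16 ^ m * (16 * (m + 1) ^ 2) := Nat.mul_le_mul ih (by nlinarith)
      _ = (m + 1) ^ 2 * 16 ^ (m + 1) := by ring

lemma choose_half_sq_le (k : ℕ) : (k.choose (k / 2)) ^ 2 * (k + 1) ≤ 4 ^ k := by
  rcases Nat.even_or_odd' k with ⟨m, rfl | rfl⟩
  · rw [Nat.mul_div_cancel_left m two_pos, pow_mul]
    exact centralBinom_sq_le m
  · have h : (2 * m + 1).choose m * 2 = (m + 1).centralBinom := by
      rw [Nat.centralBinom, show 2 * (m + 1) = 2 * m + 1 + 1 by ring, Nat.choose_succ_succ,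
        Nat.choose_symm_half]
      ring
    have h2 := centralBinom_sq_le (m + 1)
    rw [← h, mul_pow, pow_succ 16 m] at h2
    rw [show (2 * m + 1) / 2 = m by omega,
      show (4 : ℕ) ^ (2 * m + 1) = 4 * 16 ^ m by rw [pow_succ, pow_mul]; norm_num; ring]
    nlinarith

lemma steps_mul_le (k : ℕ) (s t : ℤ) : steps k s * steps k t * (k + 1) ≤ 4 ^ k := by
  refine le_trans ?_ (choose_half_sq_le k)
  rw [sq]
  gcongr <;> exact (steps_le k _).1.trans (Nat.choose_le_middle _ _)

/-- The chance that `k` uniform corners `(1, ±1, ±1)` sum to `x`. -/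
noncomputable def cor (k : ℕ) (x : Pt) : ℝ≥0∞ :=
  if x.1 = k then ((steps k x.2.1 * steps k x.2.2 : ℕ) : ℝ≥0∞) / 4 ^ k else 0

lemma cor_le (k : ℕ) (x : Pt) : cor k x ≤ if x.1 = k then ((k : ℝ≥0∞) + 1)⁻¹ else 0 := by
  unfold cor
  split_ifs
  · rw [ENNReal.div_le_iff (by simp) (by simp), ← ENNReal.div_eq_inv_mul,
      ENNReal.le_div_iff_mul_le (Or.inl (by simp)) (Or.inl (by simp))]
    exact_mod_cast steps_mul_le k x.2.1 x.2.2
  · exact le_rfl

lemma cor_succ (k : ℕ) (x : Pt) :
    cor (k + 1) x = (cor k (x - (1, 1, 1)) + cor k (x - (1, 1, -1)) + cor k (x - (1, -1, 1)) +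
      cor k (x - (1, -1, -1))) / 4 := by
  have e : ∀ s t : ℤ, (x - (1, s, t)).1 = (k : ℤ) ↔ x.1 = ((k + 1 : ℕ) : ℤ) := by
    intro s t; simp only [Prod.fst_sub]; push_cast; omega
  unfold cor
  simp only [e]
  split_ifs
  · simp only [Prod.snd_sub, Prod.fst_sub, sub_neg_eq_add, steps, ← ENNReal.add_div,
      div_eq_mul_inv, pow_succ, ENNReal.mul_inv (Or.inl (by simp : (4 : ℝ≥0∞) ^ k ≠ 0))
        (Or.inl (by simp : (4 : ℝ≥0∞) ^ k ≠ ⊤))]
    push_cast
    ring
  · simp

/-- Binomial expectation. -/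
noncomputable def binE (p q : ℝ≥0∞) : ℕ → (ℕ → ℝ≥0∞) → ℝ≥0∞
  | 0, f => f 0
  | n + 1, f => p * binE p q n (fun c => f (c + 1)) + q * binE p q n f

variable {p q : ℝ≥0∞}

lemma binE_mono (n : ℕ) : ∀ {f g : ℕ → ℝ≥0∞}, (∀ c, f c ≤ g c) →
    binE p q n f ≤ binE p q n g := by
  induction n with
  | zero => intro f g h; exact h 0
  | succ n ih =>
    intro f g h
    exact add_le_add (mul_le_mul' le_rfl (ih fun c => h _)) (mul_le_mul' le_rfl (ih h))

lemma binE_add (n : ℕ) : ∀ f g : ℕ → ℝ≥0∞,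
    binE p q n (fun c => f c + g c) = binE p q n f + binE p q n g := by
  induction n with
  | zero => intro f g; rfl
  | succ n ih => intro f g; simp only [binE, ih]; ring

lemma binE_const (h : p + q = 1) (n : ℕ) (a : ℝ≥0∞) : binE p q n (fun _ => a) = a := by
  induction n with
  | zero => rfl
  | succ n ih => simp only [binE, ih, ← add_mul, h, one_mul]

lemma binE_identity (n : ℕ) : ∀ k : ℕ,
    p * (n + 1) * binE p q n (fun c => ((k : ℝ≥0∞) + c + 1)⁻¹) =
      binE p q (n + 1) fun c => (c : ℝ≥0∞) * ((k : ℝ≥0∞) + c)⁻¹ := by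
  induction n with
  | zero => intro k; simp [binE]
  | succ n ih =>
    intro k
    have e : (fun c : ℕ => ((c + 1 : ℕ) : ℝ≥0∞) * ((k : ℝ≥0∞) + ((c + 1 : ℕ) : ℝ≥0∞))⁻¹) =
        fun c : ℕ => (c : ℝ≥0∞) * (((k + 1 : ℕ) : ℝ≥0∞) + c)⁻¹ + ((k : ℝ≥0∞) + c + 1)⁻¹ := by
      funext c
      push_cast
      rw [add_mul, one_mul, show (k : ℝ≥0∞) + 1 + c = k + (c + 1) by ring,
        show (k : ℝ≥0∞) + c + 1 = k + (c + 1) by ring]
    have e2 : (fun c : ℕ => ((k : ℝ≥0∞) + ((c + 1 : ℕ) : ℝ≥0∞) + 1)⁻¹) =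
        fun c : ℕ => (((k + 1 : ℕ) : ℝ≥0∞) + c + 1)⁻¹ := by
      funext c; congr 1; push_cast; ring
    conv_rhs => rw [binE]
    rw [e, binE_add, ← ih (k + 1), ← ih k]
    conv_lhs => rw [binE, e2]
    conv_rhs => rw [show binE p q (n + 1) (fun c => ((k : ℝ≥0∞) + c + 1)⁻¹) =
      p * binE p q n (fun c => (((k + 1 : ℕ) : ℝ≥0∞) + c + 1)⁻¹) +
        q * binE p q n (fun c => ((k : ℝ≥0∞) + c + 1)⁻¹) by rw [binE, e2]]
    push_cast
    ring

lemma binE_inv_le (h : p + q = 1) (hp : p ≠ 0) (hp' : p ≠ ⊤) (n : ℕ) :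
    binE p q n (fun c => ((c : ℝ≥0∞) + 1)⁻¹) ≤ p⁻¹ / ((n : ℝ≥0∞) + 1) := by
  have h1 : p * (n + 1) * binE p q n (fun c => ((c : ℝ≥0∞) + 1)⁻¹) ≤ 1 := by
    have h0 := binE_identity (p := p) (q := q) n 0
    simp only [Nat.cast_zero, zero_add] at h0
    rw [h0]
    refine (binE_mono (n + 1) fun c => ?_).trans (binE_const h (n + 1) 1).le
    exact ENNReal.mul_inv_le_one _
  have hn0 : ((n : ℝ≥0∞) + 1) ≠ 0 := by simp
  have hnt : ((n : ℝ≥0∞) + 1) ≠ ⊤ := by simp
  rw [ENNReal.le_div_iff_mul_le (Or.inl hn0) (Or.inl hnt), ENNReal.le_inv_iff_mul_le]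
  calc binE p q n (fun c => ((c : ℝ≥0∞) + 1)⁻¹) * ((n : ℝ≥0∞) + 1) * p
      = p * (n + 1) * binE p q n (fun c => ((c : ℝ≥0∞) + 1)⁻¹) := by ring
    _ ≤ 1 := h1

variable {α : Type*} (B : Beam α)

lemma avg_level (j : ℕ) (f : ℤ → ℝ≥0∞) :
    B.avg j (fun L => f (B.total L).1) = ∑' m : ℤ, f m * ∑' u : ℤ × ℤ, B.hit j (m, u) := by
  calc B.avg j (fun L => f (B.total L).1)
      = B.avg j (fun L => ∑' x : Pt, f x.1 * if B.total L = x then 1 else 0) := by
        refine avg_congr_of_length fun L _ => ?_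
        rw [tsum_eq_single (B.total L) fun x hx => by simp [Ne.symm hx]]
        simp
    _ = ∑' x : Pt, f x.1 * B.hit j x := by simp only [avg_tsum, avg_const_mul, hit]
    _ = ∑' m : ℤ, ∑' u : ℤ × ℤ, f m * B.hit j (m, u) :=
        ENNReal.tsum_prod' (f := fun x : Pt => f x.1 * B.hit j x)
    _ = _ := by simp only [ENNReal.tsum_mul_left]

lemma level_take_lt {L : List α} {i j : ℕ} (hij : i < j) (hj : j ≤ L.length) :
    (B.total (L.take i)).1 < (B.total (L.take j)).1 := by
  obtain ⟨M, hM⟩ : L.take i <+: L.take j := List.take_prefix_take_left hij.le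
  have hlen := congrArg List.length hM
  simp only [List.length_append, List.length_take] at hlen
  have hM' := B.length_le_total M
  rw [← hM, total_append, Prod.fst_add]
  omega

/-- A beam is at a given level at most once. -/
lemma sum_hit_le_one (N : ℕ) (m : ℤ) : ∑ j ∈ Finset.range N, ∑' u : ℤ × ℤ, B.hit j (m, u) ≤ 1 := by
  have h : ∀ j ∈ Finset.range N, ∑' u : ℤ × ℤ, B.hit j (m, u) =
      B.avg N fun L => if (B.total (L.take j)).1 = m then 1 else 0 := by
    intro j hj
    refine Eq.trans ?_ (Eq.trans (B.avg_level j fun z => if z = m then 1 else 0).symm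
      (avg_take B.sum_w (Finset.mem_range.1 hj).le
        fun L => if (B.total L).1 = m then 1 else 0).symm)
    rw [tsum_eq_single m fun z hz => by simp [hz]]
    simp
  rw [Finset.sum_congr rfl h, ← avg_sum]
  refine avg_le_const B.sum_w fun L hL => ?_
  rw [Finset.sum_boole]
  refine Nat.cast_le_one.2 (Finset.card_le_one.2 fun i hi j hj => ?_)
  simp only [Finset.mem_filter, Finset.mem_range] at hi hj
  rcases lt_trichotomy i j with h | h | h
  · exact absurd (hi.2.trans hj.2.symm) (B.level_take_lt h (by omega)).ne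
  · exact h
  · exact absurd (hj.2.trans hi.2.symm) (B.level_take_lt h (by omega)).ne

lemma exists_corner_split (h : B.Atoms) :
    ∃ (p q : ℝ≥0∞) (r : α → ℝ≥0∞) (c : Fin 4 → α), p ≠ 0 ∧ p ≠ ⊤ ∧ p + q = 1 ∧ ∑' a, r a = q ∧
      B.disp (c 0) = (1, 1, 1) ∧ B.disp (c 1) = (1, 1, -1) ∧ B.disp (c 2) = (1, -1, 1) ∧
      B.disp (c 3) = (1, -1, -1) ∧
      ∀ G : α → ℝ≥0∞, ∑' a, B.w a * G a = p / 4 * ∑ i, G (c i) + ∑' a, r a * G a := by
  classical
  obtain ⟨a, ha, ha'⟩ := h 1 1 (by simp) (by simp)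
  obtain ⟨b, hb, hb'⟩ := h 1 (-1) (by simp) (by simp)
  obtain ⟨c, hc, hc'⟩ := h (-1) 1 (by simp) (by simp)
  obtain ⟨e, he, he'⟩ := h (-1) (-1) (by simp) (by simp)
  set f : Fin 4 → α := ![a, b, c, e] with hf
  have hinj : Function.Injective f := by
    refine Function.Injective.of_comp (f := B.disp) ?_
    intro i j hij
    fin_cases i <;> fin_cases j <;> simp [hf, ha', hb', hc', he'] at hij ⊢
  set δ := Finset.univ.inf' Finset.univ_nonempty fun i => B.w (f i) with hδ
  have hw : ∀ x, B.w x ≠ ⊤ := fun x => ne_top_of_le_ne_top (b := 1) (by simp)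
    (B.sum_w ▸ ENNReal.le_tsum x)
  have hδle : ∀ i, δ ≤ B.w (f i) := fun i => Finset.inf'_le _ (Finset.mem_univ i)
  obtain ⟨i0, -, hi0⟩ := Finset.exists_mem_eq_inf' Finset.univ_nonempty fun i => B.w (f i)
  rw [← hδ] at hi0
  have hδ0 : δ ≠ 0 := by rw [hi0]; fin_cases i0 <;> simp [hf, ha, hb, hc, he]
  set g : α → ℝ≥0∞ := fun x => ∑ i, if f i = x then δ else 0 with hg
  have hgle : ∀ x, g x ≤ B.w x := by
    intro x
    by_cases hx : ∃ i, f i = x
    · obtain ⟨i, rfl⟩ := hx
      refine le_trans (le_of_eq ?_) (hδle i)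
      simp only [hg]
      rw [Finset.sum_eq_single i (fun j _ hj => if_neg fun e => hj (hinj e))
        (fun h => absurd (Finset.mem_univ i) h), if_pos rfl]
    · push Not at hx
      simp [hg, hx]
  have hsplit : ∀ G : α → ℝ≥0∞, ∑' x, B.w x * G x =
      δ * ∑ i, G (f i) + ∑' x, (B.w x - g x) * G x := by
    intro G
    calc ∑' x, B.w x * G x = ∑' x, (g x * G x + (B.w x - g x) * G x) :=
          tsum_congr fun x => by rw [← add_mul, add_tsub_cancel_of_le (hgle x)]
      _ = _ := by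
          rw [ENNReal.tsum_add, Finset.mul_sum]
          congr 1
          simp only [hg, Finset.sum_mul]
          rw [Summable.tsum_finsetSum fun _ _ => ENNReal.summable]
          refine Finset.sum_congr rfl fun i _ => ?_
          rw [tsum_eq_single (f i) fun x hx => by simp [Ne.symm hx]]
          simp
  refine ⟨4 * δ, ∑' x, (B.w x - g x), fun x => B.w x - g x, f, ?_, ?_, ?_, rfl,
    ha', hb', hc', he', fun G => ?_⟩
  · simp [hδ0]
  · exact ENNReal.mul_ne_top (by simp) (hi0 ▸ hw _)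
  · have := hsplit fun _ => 1
    simp only [mul_one, B.sum_w, Finset.sum_const, Finset.card_univ, Fintype.card_fin,
      nsmul_eq_mul] at this
    rw [this, mul_comm]
    norm_num
  · rw [hsplit G, mul_comm 4 δ, mul_div_assoc, ENNReal.div_self (by simp) (by simp), mul_one]

/-- The largest chance to reach a site of level `m` by `n` blocks and `k` corners. -/
noncomputable def mixSup (n k : ℕ) (m : ℤ) : ℝ≥0∞ :=
  ⨆ u : ℤ × ℤ, B.avg n fun L => cor k ((m, u) - B.total L)

lemma hitSup_eq_mixSup (n : ℕ) (m : ℤ) : B.hitSup n m = B.mixSup n 0 m := by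
  refine iSup_congr fun u => avg_congr_of_length fun L _ => ?_
  by_cases h : B.total L = (m, u)
  · simp [cor, steps, h]
  · rw [if_neg h, cor]
    split_ifs with h0
    · simp only [Prod.fst_sub, Nat.cast_zero, sub_eq_zero] at h0
      by_cases h1 : ((m, u) - B.total L).2.1 = 0
      · by_cases h2 : ((m, u) - B.total L).2.2 = 0
        · simp only [Prod.snd_sub, Prod.fst_sub, sub_eq_zero] at h1 h2
          exact absurd (Prod.ext h0.symm (Prod.ext h1.symm h2.symm)) h
        · rw [steps, steps, if_neg h2]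
          simp
      · rw [steps, steps, if_neg h1]
        simp
    · rfl

/-- Lateral spreading. -/
theorem spread (h : B.Atoms) :
    ∃ K : ℝ≥0∞, K ≠ ⊤ ∧ ∀ n, ∑' m : ℤ, B.hitSup n m ≤ K / ((n : ℝ≥0∞) + 1) := by
  obtain ⟨p, q, r, c, hp, hp', hpq, hr, h0, h1, h2, h3, hsplit⟩ := B.exists_corner_split h
  refine ⟨p⁻¹, by simp [hp], fun n => ?_⟩
  have key : ∀ n k : ℕ, ∑' m : ℤ, B.mixSup n k m ≤
      binE p q n fun i => ((k : ℝ≥0∞) + i + 1)⁻¹ := by
    intro n
    induction n with
    | zero =>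
      intro k
      calc ∑' m : ℤ, B.mixSup 0 k m
          ≤ ∑' m : ℤ, if m = (k : ℤ) then ((k : ℝ≥0∞) + 1)⁻¹ else 0 := by
            refine ENNReal.tsum_le_tsum fun m => iSup_le fun u => ?_
            simpa using cor_le k ((m, u) - B.total [])
        _ = _ := by rw [tsum_ite_eq]; simp [binE]
    | succ n ih =>
      intro k
      have hrec : ∀ m, B.mixSup (n + 1) k m ≤
          p * B.mixSup n (k + 1) m + ∑' a, r a * B.mixSup n k (m - (B.disp a).1) := by
        intro m
        refine iSup_le fun u => ?_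
        simp only [avg, avg_succ, total_cons]
        rw [hsplit]
        refine add_le_add ?_ (ENNReal.tsum_le_tsum fun a => mul_le_mul' le_rfl ?_)
        · refine le_trans (le_of_eq ?_) (mul_le_mul' le_rfl (le_iSup _ u))
          simp only [Fin.sum_univ_four, h0, h1, h2, h3, ← avg_fun_add, ← avg_const_mul]
          refine avg_congr_of_length fun L _ => ?_
          rw [cor_succ]
          simp only [div_eq_mul_inv, sub_sub, add_comm _ (B.total L)]
          ring
        · refine le_iSup_of_le (u - (B.disp a).2) (le_of_eq (avg_congr_of_length fun L _ => ?_))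
          rw [sub_add_eq_sub_sub]
          rfl
      calc ∑' m : ℤ, B.mixSup (n + 1) k m
          ≤ ∑' m : ℤ, (p * B.mixSup n (k + 1) m + ∑' a, r a * B.mixSup n k (m - (B.disp a).1)) :=
            ENNReal.tsum_le_tsum hrec
        _ = p * ∑' m : ℤ, B.mixSup n (k + 1) m +
            ∑' a, r a * ∑' m : ℤ, B.mixSup n k (m - (B.disp a).1) := by
            rw [ENNReal.tsum_add, ENNReal.tsum_mul_left, ENNReal.tsum_comm]
            simp only [ENNReal.tsum_mul_left]
        _ = p * ∑' m : ℤ, B.mixSup n (k + 1) m + q * ∑' m : ℤ, B.mixSup n k m := by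
            rw [← hr, ← ENNReal.tsum_mul_right]
            congr 1
            exact tsum_congr fun a =>
              congrArg _ ((Equiv.subRight (B.disp a).1).tsum_eq fun m => B.mixSup n k m)
        _ ≤ p * binE p q n (fun i => (((k + 1 : ℕ) : ℝ≥0∞) + i + 1)⁻¹) +
            q * binE p q n (fun i => ((k : ℝ≥0∞) + i + 1)⁻¹) := by
            gcongr
            · exact ih (k + 1)
            · exact ih k
        _ = _ := by
            rw [binE]
            congr 3
            funext i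
            congr 1
            push_cast
            ring
  simp only [hitSup_eq_mixSup]
  refine (key n 0).trans ?_
  simp only [Nat.cast_zero, zero_add]
  exact binE_inv_le hpq hp hp' n

end Vale.Agent.P147.Velocity.Beam
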