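import Mathlib
import Vale.Agent.P147.Velocity.Spread
import Vale.Agent.P147.Velocity.Speed

/-!
P147: sums of independent letters spread in `2 j` lateral coordinates like a walk in as many dimensions.
-/

open scoped ENNReal
open Finset

namespace Vale.Agent.P147.Velocity

lemma binE_mul_count (p q : ℝ≥0∞) (n : ℕ) : ∀ g : ℕ → ℝ≥0∞,
    p * (n + 1) * Beam.binE p q n (fun c => g (c + 1))
      = Beam.binE p q (n + 1) fun c => (c : ℝ≥0∞) * g c := by
  induction n with
  | zero => intro g; simp [Beam.binE]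
  | succ n ih =>
    intro g
    conv_rhs => rw [Beam.binE]
    rw [show (fun c : ℕ => ((c + 1 : ℕ) : ℝ≥0∞) * g (c + 1))
        = fun c : ℕ => (c : ℝ≥0∞) * g (c + 1) + g (c + 1) from
      funext fun c => by push_cast; ring, Beam.binE_add, ← ih fun c => g (c + 1), ← ih g]
    conv_lhs => rw [Beam.binE]
    conv_rhs => rw [show Beam.binE p q (n + 1) (fun c => g (c + 1)) =
      p * Beam.binE p q n (fun c => g (c + 1 + 1)) + q * Beam.binE p q n (fun c => g (c + 1)) by
        rw [Beam.binE]]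
    push_cast
    ring

lemma binE_const_mul (p q : ℝ≥0∞) (m : ℕ) (a : ℝ≥0∞) : ∀ f : ℕ → ℝ≥0∞,
    Beam.binE p q m (fun c => a * f c) = a * Beam.binE p q m f := by
  induction m with
  | zero => intro f; rfl
  | succ m ih => intro f; simp only [Beam.binE, ih]; ring

/-- The inverse of `(c + 1) (c + 2) ⋯ (c + j)`. -/
noncomputable def invRise : ℕ → ℕ → ℝ≥0∞
  | 0, _ => 1
  | j + 1, c => ((c : ℝ≥0∞) + 1)⁻¹ * invRise j (c + 1)

lemma pow_inv_le_invRise : ∀ (j q c : ℕ), j ≤ q →
    ((((c : ℝ≥0∞) + 1) * q) ^ j)⁻¹ ≤ invRise j c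
  | 0, q, c, _ => by simp [invRise]
  | j + 1, q, c, hj => by
    have key : ∀ j i, i + j ≤ q → ((((c : ℝ≥0∞) + 1) * q) ^ j)⁻¹ ≤ invRise j (c + i) := by
      intro j
      induction j with
      | zero => intro i _; simp [invRise]
      | succ j ih =>
        intro i hi
        rw [invRise, pow_succ', ENNReal.mul_inv (Or.inr
          (ENNReal.pow_ne_top (ENNReal.mul_ne_top (by simp) (by simp)))) (Or.inr ?_)]
        · refine mul_le_mul' (ENNReal.inv_le_inv.2 ?_) (ih (i + 1) (by omega))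
          have : c + i + 1 ≤ (c + 1) * q := by nlinarith
          exact_mod_cast this
        · refine pow_ne_zero _ (mul_ne_zero (by simp) ?_)
          simp; omega
    simpa using key (j + 1) 0 (by omega)

lemma binE_invRise_le {p q : ℝ≥0∞} (h : p + q = 1) : ∀ (j n : ℕ),
    p ^ j * ((n : ℝ≥0∞) + 1) ^ j * Beam.binE p q n (invRise j) ≤ 1
  | 0, n => by simp [invRise, Beam.binE_const h]
  | j + 1, n => by
    set g : ℕ → ℝ≥0∞ := fun c => (c : ℝ≥0∞)⁻¹ * invRise j c
    have h1 := binE_mul_count p q n g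
    have e : (fun c => g (c + 1)) = invRise (j + 1) := by funext c; simp [g, invRise]
    rw [e] at h1
    calc p ^ (j + 1) * ((n : ℝ≥0∞) + 1) ^ (j + 1) * Beam.binE p q n (invRise (j + 1))
        = p ^ j * ((n : ℝ≥0∞) + 1) ^ j *
            (p * (n + 1) * Beam.binE p q n (invRise (j + 1))) := by ring
      _ = p ^ j * ((n : ℝ≥0∞) + 1) ^ j * Beam.binE p q (n + 1) (fun c => (c : ℝ≥0∞) * g c) := by
          rw [h1]
      _ ≤ p ^ j * (((n + 1 : ℕ) : ℝ≥0∞) + 1) ^ j * Beam.binE p q (n + 1) (invRise j) := by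
          refine mul_le_mul' (mul_le_mul' le_rfl (pow_le_pow_left' ?_ j))
            (Beam.binE_mono _ fun c => ?_)
          · push_cast; exact le_self_add
          · simp only [g]
            rw [← mul_assoc]
            exact mul_le_of_le_one_left' (ENNReal.mul_inv_le_one _)
      _ ≤ 1 := binE_invRise_le h j (n + 1)

lemma binE_inv_pow_le {p q : ℝ≥0∞} (h : p + q = 1) (hp : p ≠ 0) (hp' : p ≠ ⊤) {j : ℕ} (hj : 1 ≤ j)
    (n : ℕ) : Beam.binE p q n (fun c => (((c : ℝ≥0∞) + 1) ^ j)⁻¹)
      ≤ (j : ℝ≥0∞) ^ j * (p ^ j)⁻¹ / ((n : ℝ≥0∞) + 1) ^ j := by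
  have hj0 : (j : ℝ≥0∞) ^ j ≠ 0 := pow_ne_zero _ (by simp; omega)
  have hjt : (j : ℝ≥0∞) ^ j ≠ ⊤ := by simp
  refine le_trans (Beam.binE_mono n (g := fun c => (j : ℝ≥0∞) ^ j * invRise j c) fun c => ?_) ?_
  · refine le_trans (le_of_eq ?_) (mul_le_mul' le_rfl (pow_inv_le_invRise j j c le_rfl))
    rw [mul_pow, ENNReal.mul_inv (Or.inr hjt) (Or.inr hj0), mul_left_comm,
      ENNReal.mul_inv_cancel hj0 hjt, mul_one]
  rw [binE_const_mul, mul_div_assoc]
  refine mul_le_mul' le_rfl ?_
  have h5 := binE_invRise_le h j n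
  rw [ENNReal.le_div_iff_mul_le (Or.inl (by simp)) (Or.inl (by simp)),
    ENNReal.le_inv_iff_mul_le]
  refine le_trans (le_of_eq ?_) h5
  ring

variable {d : ℕ} {α : Type*} (w : α → ℝ≥0∞) (D : α → Site d) (lev : Site d →+ ℤ)

/-- The total displacement of a list. -/
def tot (L : List α) : Site d := (L.map D).sum

/-- The chance that `n` letters end at `x`. -/
noncomputable def hit (n : ℕ) (x : Site d) : ℝ≥0∞ :=
  avg w n fun L => if tot D L = x then 1 else 0

/-- The largest chance that `n` letters end at a given site of level `m`. -/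
noncomputable def hitTop (n : ℕ) (m : ℤ) : ℝ≥0∞ :=
  ⨆ x : {x : Site d // lev x = m}, hit w D n x.1

@[simp] lemma tot_nil : tot D ([] : List α) = 0 := rfl

@[simp] lemma tot_cons (a : α) (L : List α) : tot D (a :: L) = D a + tot D L := by simp [tot]

lemma tot_append (L M : List α) : tot D (L ++ M) = tot D L + tot D M := by simp [tot]

variable {w D lev}

/-- The chance that `k` uniform corners end at `x`, read in `2 j` coordinates. -/
noncomputable def cor4 {j : ℕ} (lev : Site d →+ ℤ) (ι : Fin (2 * j) → Fin d)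
    (σ : Fin (2 * j) → ℤ) (b : Site d) (h : ℤ) (k : ℕ) (x : Site d) : ℝ≥0∞ :=
  ((∏ r, Beam.steps k (2 * (σ r * (x (ι r) - k * b (ι r))) - k) : ℕ) : ℝ≥0∞) / (4 ^ j) ^ k *
    if lev x = k * h then 1 else 0

lemma prod_steps_le {j : ℕ} (k : ℕ) (s : Fin (2 * j) → ℤ) :
    (∏ r, Beam.steps k (s r)) * (k + 1) ^ j ≤ (4 ^ j) ^ k := by
  have h1 : ∀ r, Beam.steps k (s r) ≤ k.choose (k / 2) := fun r =>
    (Beam.steps_le k _).1.trans (Nat.choose_le_middle _ _)
  refine (Nat.mul_le_mul (Finset.prod_le_prod' fun r _ => h1 r) le_rfl).trans ?_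
  rw [Finset.prod_const, Finset.card_univ, Fintype.card_fin, pow_mul, ← mul_pow, ← pow_mul,
    mul_comm j, pow_mul]
  exact Nat.pow_le_pow_left (Beam.choose_half_sq_le k) j

lemma cor4_le {j : ℕ} (ι : Fin (2 * j) → Fin d) (σ : Fin (2 * j) → ℤ) (b : Site d) (h : ℤ) (k : ℕ)
    (x : Site d) :
    cor4 lev ι σ b h k x ≤ if lev x = k * h then (((k : ℝ≥0∞) + 1) ^ j)⁻¹ else 0 := by
  unfold cor4
  split_ifs
  · rw [mul_one, ENNReal.div_le_iff (by simp) (by simp), ← ENNReal.div_eq_inv_mul,
      ENNReal.le_div_iff_mul_le (Or.inl (by simp)) (Or.inl (by simp))]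
    exact_mod_cast prod_steps_le k _
  · simp

lemma cor4_succ {j : ℕ} (ι : Fin (2 * j) → Fin d) (σ : Fin (2 * j) → ℤ) (b : Site d) (h : ℤ)
    (hσ : ∀ r, σ r * σ r = 1) (E : (Fin (2 * j) → Bool) → Site d)
    (hι : ∀ s r, E s (ι r) = b (ι r) + if s r then σ r else 0) (hlev : ∀ s, lev (E s) = h)
    (k : ℕ) (x : Site d) :
    cor4 lev ι σ b h (k + 1) x = (4 ^ j : ℝ≥0∞)⁻¹ * ∑ s, cor4 lev ι σ b h k (x - E s) := by
  set y : Fin (2 * j) → ℤ := fun r => σ r * (x (ι r) - ((k + 1 : ℕ) : ℤ) * b (ι r)) with hy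
  have e : ∀ s, (lev (x - E s) = (k : ℤ) * h) = (lev x = ((k + 1 : ℕ) : ℤ) * h) := fun s => by
    refine propext ?_
    rw [map_sub, hlev]; push_cast; constructor <;> intro e <;> linarith
  have e2 : ∀ s r, Beam.steps k (2 * (σ r * ((x - E s) (ι r) - (k : ℤ) * b (ι r))) - k)
      = Beam.steps k (if s r then (2 * y r - (k + 1 : ℕ)) - 1
          else (2 * y r - (k + 1 : ℕ)) + 1) := by
    intro s r
    congr 1
    simp only [Pi.sub_apply, hι, hy]
    cases s r
    · simp only [Bool.false_eq_true, if_false]; push_cast; ring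
    · have := hσ r
      simp only [if_true]; push_cast; linear_combination -2 * this
  have e3 : ∏ r, Beam.steps (k + 1) (2 * y r - (k + 1 : ℕ)) = ∑ s : Fin (2 * j) → Bool, ∏ r,
      Beam.steps k (if s r then (2 * y r - (k + 1 : ℕ)) - 1 else (2 * y r - (k + 1 : ℕ)) + 1) :=
    (Finset.prod_congr rfl fun r _ => by rw [Fintype.sum_bool]; simp [Beam.steps]).trans
      (Fintype.prod_sum fun r (β : Bool) => Beam.steps k
        (if β then (2 * y r - (k + 1 : ℕ)) - 1 else (2 * y r - (k + 1 : ℕ)) + 1))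
  unfold cor4
  simp only [e, e2]
  rw [← Finset.sum_mul, ← mul_assoc]
  congr 1
  simp only [div_eq_mul_inv]
  rw [← Finset.sum_mul, ← Nat.cast_sum, ← e3, pow_succ,
    ENNReal.mul_inv (Or.inl (by simp)) (Or.inl (by simp))]
  simp only [hy]
  ring

/-- Lateral spreading in `2 j` coordinates, for letters with a cube of atoms. -/
theorem spread_cube (hw : ∑' a, w a = 1) {j : ℕ} (hj : 1 ≤ j) (ι : Fin (2 * j) → Fin d)
    (σ : Fin (2 * j) → ℤ) (b : Site d) (h : ℤ) (c : (Fin (2 * j) → Bool) → α) (hc : ∀ s, w (c s) ≠ 0) (hσ : ∀ r, σ r * σ r = 1)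
    (hι : ∀ s r, D (c s) (ι r) = b (ι r) + if s r then σ r else 0)
    (hlev : ∀ s, lev (D (c s)) = h) :
    ∃ K : ℝ≥0∞, K ≠ ⊤ ∧ ∀ n, ∑' m : ℤ, hitTop w D lev n m ≤ K / ((n : ℝ≥0∞) + 1) ^ j := by
  classical
  have hinj : Function.Injective c := by
    intro s t e
    funext r
    have e1 := hι s r
    rw [e, hι t r] at e1
    have := hσ r
    cases hs : s r <;> cases ht : t r <;> simp_all
  set δ := Finset.univ.inf' Finset.univ_nonempty fun s => w (c s) with hδ
  have hwt : ∀ x, w x ≠ ⊤ := fun x => ne_top_of_le_ne_top (b := 1) (by simp)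
    (hw ▸ ENNReal.le_tsum x)
  obtain ⟨s0, -, hs0⟩ := Finset.exists_mem_eq_inf' Finset.univ_nonempty fun s => w (c s)
  rw [← hδ] at hs0
  have hδ0 : δ ≠ 0 := hs0 ▸ hc s0
  set g : α → ℝ≥0∞ := fun x => ∑ s, if c s = x then δ else 0 with hg
  have hgle : ∀ x, g x ≤ w x := by
    intro x
    by_cases hx : ∃ s, c s = x
    · obtain ⟨s, rfl⟩ := hx
      refine le_trans (le_of_eq ?_) (Finset.inf'_le (fun s => w (c s)) (Finset.mem_univ s))
      simp only [hg]
      rw [Finset.sum_eq_single s (fun j _ hj => if_neg fun e => hj (hinj e))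
        (fun h => absurd (Finset.mem_univ s) h), if_pos rfl]
    · push Not at hx
      simp [hg, hx]
  set rest : α → ℝ≥0∞ := fun x => w x - g x with hrest
  have hsplit : ∀ G : α → ℝ≥0∞, ∑' x, w x * G x = δ * ∑ s, G (c s) + ∑' x, rest x * G x := by
    intro G
    calc ∑' x, w x * G x = ∑' x, (g x * G x + rest x * G x) :=
          tsum_congr fun x => by rw [← add_mul, hrest, add_tsub_cancel_of_le (hgle x)]
      _ = _ := by
          rw [ENNReal.tsum_add, Finset.mul_sum]
          congr 1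
          simp only [hg, Finset.sum_mul]
          rw [Summable.tsum_finsetSum fun _ _ => ENNReal.summable]
          refine Finset.sum_congr rfl fun i _ => ?_
          rw [tsum_eq_single (c i) fun x hx => by simp [Ne.symm hx]]
          simp
  set p : ℝ≥0∞ := 4 ^ j * δ with hp_def
  set q : ℝ≥0∞ := ∑' x, rest x with hq_def
  have hp : p ≠ 0 := by simp [hp_def, hδ0]
  have hp' : p ≠ ⊤ := ENNReal.mul_ne_top (by simp) (hs0 ▸ hwt _)
  have hpq : p + q = 1 := by
    have := hsplit fun _ => 1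
    simp only [mul_one, hw, Finset.sum_const, Finset.card_univ, Fintype.card_fun,
      Fintype.card_bool, Fintype.card_fin, nsmul_eq_mul] at this
    rw [hp_def, hq_def, this, mul_comm]
    norm_num [pow_mul]
  set C := cor4 lev ι σ b h with hC
  have hsucc : ∀ k x, C (k + 1) x = (4 ^ j : ℝ≥0∞)⁻¹ * ∑ s, C k (x - D (c s)) :=
    fun k x => cor4_succ ι σ b h hσ (fun s => D (c s)) hι hlev k x
  set mix : ℕ → ℕ → ℤ → ℝ≥0∞ := fun n k m =>
    ⨆ x : {x : Site d // lev x = m}, avg w n fun L => C k (x.1 - tot D L) with hmix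
  set f : ℕ → ℝ≥0∞ := fun k => (((k : ℝ≥0∞) + 1) ^ j)⁻¹ with hf
  have key : ∀ n k : ℕ, ∑' m : ℤ, mix n k m ≤ Beam.binE p q n fun i => f (k + i) := by
    intro n
    induction n with
    | zero =>
      intro k
      calc ∑' m : ℤ, mix 0 k m ≤ ∑' m : ℤ, if m = (k : ℤ) * h then f k else 0 := by
            refine ENNReal.tsum_le_tsum fun m => iSup_le fun x => ?_
            simp only [avg_zero, tot_nil, sub_zero]
            refine (cor4_le ι σ b h k x.1).trans (le_of_eq ?_)
            simp only [x.2, hf]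
        _ = _ := by rw [tsum_ite_eq]; simp [Beam.binE]
    | succ n ih =>
      intro k
      have hrec : ∀ m, mix (n + 1) k m ≤
          p * mix n (k + 1) m + ∑' a, rest a * mix n k (m - lev (D a)) := by
        intro m
        refine iSup_le fun x => ?_
        simp only [avg_succ, tot_cons]
        rw [hsplit]
        refine add_le_add ?_ (ENNReal.tsum_le_tsum fun a => mul_le_mul' le_rfl ?_)
        · refine le_trans (le_of_eq ?_) (mul_le_mul' le_rfl (le_iSup _ x))
          rw [← avg_sum, ← avg_const_mul, ← avg_const_mul]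
          refine avg_congr_of_length fun L _ => ?_
          rw [hsucc, ← mul_assoc, hp_def, mul_comm (4 ^ j : ℝ≥0∞) δ, mul_assoc δ,
            ENNReal.mul_inv_cancel (by simp) (by simp), mul_one]
          exact congrArg _ (Finset.sum_congr rfl fun s _ => by congr 1; abel)
        · refine le_iSup_of_le ⟨x.1 - D a, by rw [map_sub, x.2]⟩
            (le_of_eq (avg_congr_of_length fun L _ => ?_))
          rw [sub_sub]
      calc ∑' m : ℤ, mix (n + 1) k m
          ≤ ∑' m : ℤ, (p * mix n (k + 1) m + ∑' a, rest a * mix n k (m - lev (D a))) :=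
            ENNReal.tsum_le_tsum hrec
        _ = p * ∑' m : ℤ, mix n (k + 1) m +
            ∑' a, rest a * ∑' m : ℤ, mix n k (m - lev (D a)) := by
            rw [ENNReal.tsum_add, ENNReal.tsum_mul_left, ENNReal.tsum_comm]
            simp only [ENNReal.tsum_mul_left]
        _ = p * ∑' m : ℤ, mix n (k + 1) m + q * ∑' m : ℤ, mix n k m := by
            rw [hq_def, ← ENNReal.tsum_mul_right]
            congr 1
            exact tsum_congr fun a =>
              congrArg _ ((Equiv.subRight (lev (D a))).tsum_eq fun m => mix n k m)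
        _ ≤ p * Beam.binE p q n (fun i => f (k + 1 + i)) +
            q * Beam.binE p q n (fun i => f (k + i)) := by
            gcongr
            · exact ih (k + 1)
            · exact ih k
        _ = _ := by
            rw [Beam.binE]
            congr 3
            funext i
            rw [Nat.add_right_comm, Nat.add_assoc]
  refine ⟨(j : ℝ≥0∞) ^ j * (p ^ j)⁻¹, ENNReal.mul_ne_top (by simp) (by simp [hp]), fun n => ?_⟩
  calc ∑' m : ℤ, hitTop w D lev n m ≤ ∑' m : ℤ, mix n 0 m := by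
        refine ENNReal.tsum_le_tsum fun m => iSup_mono fun x => avg_mono fun L => ?_
        split_ifs with hL
        · simp [hL, hC, cor4, Beam.steps]
        · exact zero_le
    _ ≤ Beam.binE p q n f := by simpa using key n 0
    _ ≤ _ := binE_inv_pow_le hpq hp hp' hj n

end Vale.Agent.P147.Velocity
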