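import Mathlib
import Vale.Agent.P147.Velocity.Spread4
import Vale.Agent.P147.Velocity.Unique

/-!
P147: climbing lists of blocks with linearly growing heights visit a given site of level `h` with chance
polynomially small in `h`, and all sites of one level boundedly often, in mean.
-/

open MeasureTheory Filter ProbabilityTheory
open scoped ENNReal Topology

namespace Vale.Agent.P147.Velocity

variable {d : ℕ}

section letters

variable {α : Type*} (w : α → ℝ≥0∞) (D : α → Site d) (lev : Site d →+ ℤ)

/-- Groups of `q` letters. -/
abbrev Group (q : ℕ) (α : Type*) := {L : List α // L.length = q}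

lemma avg_group (q n : ℕ) : ∀ F : List α → ℝ≥0∞,
    avg (fun g : Group q α => lw w g.1) n (fun Q => F (Q.map (fun g => g.1)).flatten)
      = avg w (q * n) F := by
  induction n with
  | zero => intro F; simp
  | succ n ih =>
    intro F
    rw [avg_succ, show q * (n + 1) = q + q * n by ring, avg_append, avg_eq_tsum q]
    refine tsum_congr fun g => congrArg _ ?_
    simpa using ih fun M => F (g.1 ++ M)

lemma tot_group {q : ℕ} (Q : List (Group q α)) :
    tot (fun g : Group q α => tot D g.1) Q = tot D (Q.map (fun g => g.1)).flatten := by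
  induction Q with
  | nil => rfl
  | cons g Q ih => simp [ih, tot_append]

lemma hitTop_group (q n : ℕ) (m : ℤ) :
    hitTop (fun g : Group q α => lw w g.1) (fun g : Group q α => tot D g.1) lev n m
      = hitTop w D lev (q * n) m := by
  refine iSup_congr fun x => ?_
  simp only [hit, tot_group]
  exact avg_group w q n fun L => if tot D L = x.1 then 1 else 0

variable {w D lev}

lemma hit_add (J l : ℕ) (y : Site d) :
    hit w D (J + l) y = avg w J fun L => hit w D l (y - tot D L) := by
  simp only [hit, avg_append, tot_append]
  refine avg_congr_of_length fun L _ => avg_congr_of_length fun M _ => ?_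
  simp only [eq_sub_iff_add_eq, add_comm (tot D L)]

lemma avg_tot (n : ℕ) (F : Site d → ℝ≥0∞) :
    avg w n (fun L => F (tot D L)) = ∑' x, F x * hit w D n x := by
  calc avg w n (fun L => F (tot D L))
      = avg w n (fun L => ∑' x, F x * if tot D L = x then 1 else 0) := by
        refine avg_congr_of_length fun L _ => ?_
        rw [tsum_eq_single (tot D L) fun x hx => by simp [Ne.symm hx]]
        simp
    _ = _ := by simp only [avg_tsum, avg_const_mul, hit]

variable (hw : ∑' a, w a = 1) (h1 : ∀ a, 1 ≤ lev (D a))
include hw h1

lemma level_lt {L : List α} {i j : ℕ} (hij : i < j) (hj : j ≤ L.length) :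
    lev (tot D (L.take i)) < lev (tot D (L.take j)) := by
  induction L generalizing i j with
  | nil => simp at hj; omega
  | cons a L ih =>
    obtain ⟨j, rfl⟩ : ∃ j', j = j' + 1 := ⟨j - 1, by omega⟩
    cases i with
    | zero =>
      have hnn : ∀ M : List α, 0 ≤ lev (tot D M) := fun M => by
        induction M with
        | nil => simp
        | cons b M ihM => have := h1 b; simp only [tot_cons, map_add]; omega
      have := h1 a
      have := hnn (L.take j)
      simp only [List.take_zero, tot_nil, map_zero, List.take_succ_cons, tot_cons, map_add]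
      omega
    | succ i =>
      have := ih (i := i) (j := j) (by omega) (by simpa using hj)
      simp only [List.take_succ_cons, tot_cons, map_add]
      omega

/-- A function of the level, summed over the times, is at most its sum over all levels. -/
lemma sum_level_le (M : ℕ) (T : ℤ → ℝ≥0∞) :
    ∑ l ∈ Finset.range M, avg w l (fun L => T (lev (tot D L))) ≤ ∑' m, T m := by
  have h : ∀ l ∈ Finset.range M, avg w l (fun L => T (lev (tot D L))) =
      avg w M fun L => T (lev (tot D (L.take l))) :=
    fun l hl => (avg_take hw (Finset.mem_range.1 hl).le fun L => T (lev (tot D L))).symm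
  rw [Finset.sum_congr rfl h, ← avg_sum]
  refine avg_le_const hw fun L hL => ?_
  have hinj : Set.InjOn (fun l => lev (tot D (L.take l))) (Finset.range M : Set ℕ) := by
    intro i hi j hj e
    simp only [Finset.coe_range, Set.mem_Iio] at hi hj
    rcases lt_trichotomy i j with h | h | h
    · exact absurd e (level_lt hw h1 h (by omega)).ne
    · exact h
    · exact absurd e.symm (level_lt hw h1 h (by omega)).ne
  classical
  calc ∑ l ∈ Finset.range M, T (lev (tot D (L.take l)))
      = ∑ m ∈ (Finset.range M).image (fun l => lev (tot D (L.take l))), T m :=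
        (Finset.sum_image hinj).symm
    _ ≤ _ := ENNReal.sum_le_tsum _

/-- After `J` letters a given site is hit with chance at most the spread of `J` letters. -/
lemma sum_hit_le (J N : ℕ) (y : Site d) :
    ∑ i ∈ Finset.Ico J N, hit w D i y ≤ ∑' m, hitTop w D lev J m := by
  rw [Finset.sum_Ico_eq_sum_range]
  calc ∑ l ∈ Finset.range (N - J), hit w D (J + l) y
      ≤ ∑ l ∈ Finset.range (N - J),
          avg w l (fun M => hitTop w D lev J (lev y - lev (tot D M))) := by
        refine Finset.sum_le_sum fun l _ => ?_
        rw [add_comm J l, hit_add]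
        exact avg_mono fun M => le_iSup (fun x : {x : Site d // lev x = lev y - lev (tot D M)} =>
          hit w D J x.1) ⟨y - tot D M, by rw [map_sub]⟩
    _ ≤ ∑' m, hitTop w D lev J (lev y - m) :=
        sum_level_le hw h1 _ fun m => hitTop w D lev J (lev y - m)
    _ = _ := (Equiv.subLeft (lev y)).tsum_eq fun m => hitTop w D lev J m

/-- The sites of one level are hit at most once. -/
lemma sum_hit_level_le (N : ℕ) (y : Site d) (Z : Finset (Site d)) (hZ : ∀ z ∈ Z, lev z = 0) :
    ∑ i ∈ Finset.range N, ∑ z ∈ Z, hit w D i (y - z) ≤ 1 := by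
  classical
  calc ∑ i ∈ Finset.range N, ∑ z ∈ Z, hit w D i (y - z)
      ≤ ∑ i ∈ Finset.range N, avg w i (fun L => if lev (tot D L) = lev y then 1 else 0) := by
        refine Finset.sum_le_sum fun i _ => ?_
        simp only [hit, ← avg_sum]
        refine avg_mono fun L => ?_
        by_cases hL : lev (tot D L) = lev y
        · rw [if_pos hL, Finset.sum_boole]
          refine Nat.cast_le_one.2 (Finset.card_le_one.2 fun z hz z' hz' => ?_)
          simp only [Finset.mem_filter] at hz hz'
          exact sub_right_injective (hz.2.symm.trans hz'.2)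
        · rw [if_neg hL, Finset.sum_eq_zero fun z hz => if_neg fun e => hL ?_]
          rw [e, map_sub, hZ z hz, sub_zero]
    _ ≤ ∑' m : ℤ, if m = lev y then (1 : ℝ≥0∞) else 0 :=
        sum_level_le hw h1 N fun m => if m = lev y then 1 else 0
    _ = 1 := tsum_ite_eq _ _

end letters

section blocks

lemma visits_getElem (γ : List (Step d)) : ∀ (z : Site d) (k : ℕ) (h : k < (visits z γ).length),
    (visits z γ)[k] = z + disp (γ.take k) := by
  induction γ with
  | nil => intro z k h; simp [visits] at h
  | cons e γ ih =>
    intro z k h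
    cases k with
    | zero => simp [visits]
    | succ k => simp [visits, ih, add_assoc]

variable (lev : Site d →+ ℤ)

/-- The displacement of a block. -/
def bdisp (b : Blk lev) : Site d := disp b.1

variable {lev}

lemma tot_bdisp (L : List (Blk lev)) : tot (bdisp lev) L = disp (flat lev L) := by
  induction L with
  | nil => rfl
  | cons b L ih => simp [bdisp, disp_append, ih]

lemma one_le_bdisp (b : Blk lev) : 1 ≤ lev (bdisp lev b) := b.2.2.1.pos b.2.1

/-- The first `j` blocks have total height at most `c (j + 1)`. -/
def Linear (c : ℕ) (L : List (Blk lev)) : Prop :=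
  ∀ j ≤ L.length, ((L.take j).map hgt).sum ≤ c * (j + 1)

/-- The word is made of blocks whose heights grow linearly. -/
def LinWord (lev : Site d →+ ℤ) (c : ℕ) (γ : List (Step d)) : Prop :=
  ∀ L : List (Blk lev), flat lev L = γ → Linear c L

/-- The word stays above its start and climbs at least like the `p`-th root of the time. -/
def ClimbWord (lev : Site d →+ ℤ) (C p : ℕ) (γ : List (Step d)) : Prop :=
  ∀ k ≤ γ.length, 0 ≤ lev (disp (γ.take k)) ∧ (k : ℤ) ≤ C * (lev (disp (γ.take k)) + 1) ^ p

lemma length_flat (L : List (Blk lev)) :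
    (flat lev L).length = (L.map fun b => b.1.length).sum := by
  simp [flat, List.length_flatten, Function.comp_def]

/-- Every visit lies in one of the blocks. -/
lemma count_visits_flat (L : List (Blk lev)) (x : Site d) :
    ∀ z, (visits z (flat lev L)).count x =
      ∑ i ∈ Finset.range L.length, (visits (z + tot (bdisp lev) (L.take i))
        ((L[i]?.map fun b => b.1).getD [])).count x := by
  induction L with
  | nil => intro z; simp [visits]
  | cons b L ih =>
    intro z
    rw [flat_cons, visits_append, List.count_append, ih (z + disp b.1), List.length_cons,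
      Finset.sum_range_succ', add_comm]
    simp [bdisp, add_assoc]

variable [NeZero d] (μ : Measure (Step d → ℝ))

/-- The expected length of a block cut at `T`. -/
noncomputable def meanCut (lev : Site d →+ ℤ) (T : ℕ) : ℝ≥0∞ :=
  ∑' b, bw lev μ b * ((min T b.1.length : ℕ) : ℝ≥0∞)

variable {μ}

/-- An early visit to `x` by blocks with index at least `J`, on average over `N` blocks. -/
lemma avg_late_visits (hw : ∑' b, bw lev μ b = 1) (T N J : ℕ) (x : Site d) :
    avg (bw lev μ) N (fun L => ∑ i ∈ Finset.Ico J N, ((((visits (tot (bdisp lev) (L.take i))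
        ((L[i]?.map fun b => b.1).getD [])).take T).count x : ℕ) : ℝ≥0∞))
      = ∑' b, bw lev μ b *
          (((visits 0 b.1).take T).map fun s => ∑ i ∈ Finset.Ico J N, hit (bw lev μ) (bdisp lev) i (x - s)).sum := by
  rw [avg_sum]
  have e : ∀ i ∈ Finset.Ico J N, avg (bw lev μ) N (fun L => ((((visits (tot (bdisp lev) (L.take i))
      ((L[i]?.map fun b => b.1).getD [])).take T).count x : ℕ) : ℝ≥0∞))
      = ∑' b, bw lev μ b * (((visits 0 b.1).take T).map fun s => hit (bw lev μ) (bdisp lev) i (x - s)).sum := by
    intro i hi
    obtain ⟨hi1, hi2⟩ := Finset.mem_Ico.1 hi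
    set G : List (Blk lev) → ℝ≥0∞ := fun L => ((((visits (tot (bdisp lev) (L.take i))
      ((L[i]?.map fun b => b.1).getD [])).take T).count x : ℕ) : ℝ≥0∞)
    calc avg (bw lev μ) N G = avg (bw lev μ) (i + 1) G := by
          rw [← avg_take hw (show i + 1 ≤ N by omega) G]
          refine avg_congr_of_length fun L hL => ?_
          simp [G, List.take_take, List.getElem?_take]
      _ = avg (bw lev μ) i (fun L => ∑' b, bw lev μ b *
            (((visits 0 b.1).take T).map fun s => if tot (bdisp lev) L = x - s then (1 : ℝ≥0∞) else 0).sum) := by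
          rw [avg_snoc]
          refine avg_congr_of_length fun L hL => tsum_congr fun b => congrArg _ ?_
          simp only [G, List.take_left' hL, List.getElem?_append_right hL.le, hL, Nat.sub_self,
            List.getElem?_cons_zero, Option.map_some, Option.getD_some]
          have := visits_translate b.1 0 (tot (bdisp lev) L)
          rw [zero_add] at this
          rw [this, ← List.map_take]
          clear * -
          induction (visits 0 b.1).take T with
          | nil => simp
          | cons s l ih =>
            have e3 : (s + tot (bdisp lev) L = x) ↔ (tot (bdisp lev) L = x - s) := by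
              rw [eq_sub_iff_add_eq, add_comm]
            rw [List.map_cons, List.count_cons, List.map_cons, List.sum_cons, Nat.cast_add, ih,
              add_comm]
            congr 1
            by_cases h : s + tot (bdisp lev) L = x
            · simp [h, e3.1 h]
            · simp [h, mt e3.2 h]
      _ = _ := by
          rw [avg_tsum]
          refine tsum_congr fun b => ?_
          rw [avg_const_mul]
          congr 1
          induction (visits 0 b.1).take T with
          | nil => simpa using avg_const_mul (w := bw lev μ) i 0 fun _ => 1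
          | cons s l ih => simp only [List.map_cons, List.sum_cons, avg_fun_add, ih]; rfl
  rw [Finset.sum_congr rfl e, ← Summable.tsum_finsetSum fun _ _ => ENNReal.summable]
  refine tsum_congr fun b => ?_
  rw [← Finset.mul_sum]
  congr 1
  induction (visits 0 b.1).take T with
  | nil => simp
  | cons s l ih => simp only [List.map_cons, List.sum_cons, Finset.sum_add_distrib, ih]

lemma sum_map_sites_le (T : ℕ) (F : Site d → ℝ≥0∞) {K : ℝ≥0∞} (hF : ∀ s, F s ≤ K) :
    ∑' b, bw lev μ b * (((visits 0 b.1).take T).map F).sum ≤ meanCut μ lev T * K := by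
  rw [meanCut, ← ENNReal.tsum_mul_right]
  refine ENNReal.tsum_le_tsum fun b => ?_
  rw [mul_assoc]
  refine mul_le_mul' le_rfl ?_
  have h := List.sum_le_card_nsmul (((visits 0 b.1).take T).map F) K fun y hy => by
    obtain ⟨s, -, rfl⟩ := List.mem_map.1 hy; exact hF s
  simpa [length_visits, nsmul_eq_mul] using h

variable [IsProbabilityMeasure μ]

/-- A statistic of the lists reaching height `N` is bounded by one of lists of `N` blocks. -/
lemma renew_avg_le (hw : ∑' b, bw lev μ b = 1) (N : ℕ) (F S : List (Blk lev) → ℝ≥0∞)
    (hF : ∀ L, L.length = N → ∀ n ≤ N, ((L.take n).map hgt).sum = N → F (L.take n) ≤ S L) :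
    ∑' n, avg (bw lev μ) n (fun L => if (L.map hgt).sum = N then F L else 0)
      ≤ avg (bw lev μ) N S := by
  classical
  set G : List (Blk lev) → ℝ≥0∞ := fun L => if (L.map hgt).sum = N then F L else 0 with hG
  have hzero : ∀ n, N < n → avg (bw lev μ) n G = 0 := fun n hn => by
    refine le_antisymm ((avg_mono_of_length (G := fun _ => 0) fun L hL => ?_).trans
      (avg_const hw n 0).le) zero_le
    have := List.card_nsmul_le_sum (L.map hgt) 1 fun y hy => by
      obtain ⟨b, -, rfl⟩ := List.mem_map.1 hy; exact one_le_hgt b
    simp at this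
    simp only [hG]
    rw [if_neg (by omega)]
  rw [tsum_eq_sum (s := Finset.range (N + 1)) fun n hn => hzero n (by simpa using hn),
    Finset.sum_congr rfl fun n hn =>
      (avg_take hw (Nat.lt_succ_iff.1 (Finset.mem_range.1 hn)) G).symm, ← avg_sum]
  refine avg_mono_of_length fun L hL => ?_
  by_cases hex : ∃ n ∈ Finset.range (N + 1), ((L.take n).map hgt).sum = N
  swap
  · push Not at hex
    rw [Finset.sum_eq_zero fun n hn => if_neg (hex n hn)]; exact zero_le
  obtain ⟨n, hn, hne⟩ := hex
  have hn' : n ≤ N := by simp at hn; omega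
  rw [Finset.sum_eq_single_of_mem n hn fun j hj hjn => if_neg fun h => ?_]
  · simp only [hG, if_pos hne]
    exact hF L hL n hn' hne
  have key : lev (tot (bdisp lev) (L.take j)) = lev (tot (bdisp lev) (L.take n)) := by
    rw [tot_bdisp, tot_bdisp, hgt_flat, hgt_flat, h, hne]
  have hj' : j ≤ N := by simp at hj; omega
  rcases lt_or_gt_of_ne hjn with hlt | hlt
  · exact (level_lt hw one_le_bdisp hlt (by omega)).ne key
  · exact (level_lt hw one_le_bdisp hlt (by omega)).ne key.symm

omit [NeZero d] [IsProbabilityMeasure μ] in
/-- A visit of a climbing list at level `h` is an early visit of a block of index at least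
`h / c - 2`. -/
lemma visit_index {c C p T : ℕ} {L : List (Blk lev)} (hL : Linear c L)
    (hclimb : ClimbWord lev C p (flat lev L)) {x : Site d} (hx : x ∈ visits 0 (flat lev L))
    (hT : ∀ k : ℕ, (k : ℤ) ≤ C * (lev x + 1) ^ p → k < T) :
    ∃ i < L.length, lev x ≤ (c * (i + 2) : ℕ) ∧
      0 < ((visits (tot (bdisp lev) (L.take i)) ((L[i]?.map fun b => b.1).getD [])).take T).count x := by
  have hpos : 0 < (visits 0 (flat lev L)).count x := List.count_pos_iff.2 hx
  rw [count_visits_flat] at hpos
  obtain ⟨i, hi, hi'⟩ := Finset.exists_ne_zero_of_sum_ne_zero hpos.ne'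
  rw [zero_add] at hi'
  have hi2 : i < L.length := Finset.mem_range.1 hi
  have hget : L[i]? = some L[i] := List.getElem?_eq_getElem hi2
  rw [hget, Option.map_some, Option.getD_some] at hi'
  obtain ⟨k, hk, hxk⟩ := mem_visits.1 (List.count_pos_iff.1 (Nat.pos_of_ne_zero hi'))
  have hsplit : flat lev L = flat lev (L.take i) ++ ((L[i]).1 ++ flat lev (L.drop (i + 1))) := by
    conv_lhs => rw [← List.take_append_drop i L, List.drop_eq_getElem_cons hi2]
    rw [flat_append, flat_cons]
  have htake : (flat lev L).take ((flat lev (L.take i)).length + k)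
      = flat lev (L.take i) ++ (L[i]).1.take k := by
    rw [hsplit, List.take_length_add_append, List.take_append_of_le_length hk.le]
  have hlen : (flat lev (L.take i)).length + k ≤ (flat lev L).length := by
    rw [hsplit, List.length_append, List.length_append]; omega
  have hlev : lev (disp ((flat lev L).take ((flat lev (L.take i)).length + k))) = lev x := by
    rw [htake, disp_append, ← tot_bdisp, ← hxk]
  refine ⟨i, hi2, ?_, ?_⟩
  · have h3 : lev x ≤ lev (disp (flat lev (L.take (i + 1)))) := by
      rw [hxk, map_add, List.take_succ_eq_append_getElem hi2, flat_append, disp_append, map_add,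
        tot_bdisp]
      have := ((L[i]).2.2.1.le k).2
      simp only [flat_cons, flat_nil, List.append_nil]
      omega
    rw [hgt_flat] at h3
    refine h3.trans ?_
    exact_mod_cast hL (i + 1) hi2
  · have h4 := (hclimb _ hlen).2
    rw [hlev] at h4
    have hkT : k < T := lt_of_le_of_lt (Nat.le_add_left k _) (hT _ h4)
    rw [hget, Option.map_some, Option.getD_some]
    refine List.count_pos_iff.2 ?_
    have hk' : k < (visits (tot (bdisp lev) (L.take i)) (L[i]).1).length := by
      rw [length_visits]; exact hk
    refine List.mem_take_iff_getElem.2 ⟨k, by omega, ?_⟩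
    rw [visits_getElem]
    exact hxk.symm

omit [NeZero d] in
lemma count_late {c C p N J T n : ℕ} {L : List (Blk lev)} (hlin : Linear c (L.take n))
    (hclimb : ClimbWord lev C p (flat lev (L.take n))) (hn : n ≤ N) (hL : L.length = N) {x : Site d}
    (hx : x ∈ visits 0 (flat lev (L.take n))) (hJ : ∀ i, lev x ≤ (c * (i + 2) : ℕ) → J ≤ i)
    (hT : ∀ k : ℕ, (k : ℤ) ≤ C * (lev x + 1) ^ p → k < T) :
    (1 : ℝ≥0∞) ≤ ∑ i ∈ Finset.Ico J N, ((((visits (tot (bdisp lev) (L.take i))
      ((L[i]?.map fun b => b.1).getD [])).take T).count x : ℕ) : ℝ≥0∞) := by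
  obtain ⟨i, hi, hix, hpos⟩ := visit_index hlin hclimb hx hT
  rw [List.length_take, min_eq_left (show n ≤ L.length by omega)] at hi
  rw [List.take_take, min_eq_left hi.le, List.getElem?_take, if_pos hi] at hpos
  have hm : i ∈ Finset.Ico J N := Finset.mem_Ico.2 ⟨hJ i hix, by omega⟩
  rw [← Nat.cast_sum]
  exact_mod_cast hpos.trans_le (Finset.single_le_sum (f := fun i => ((visits (tot (bdisp lev)
    (L.take i)) ((L[i]?.map fun b => b.1).getD [])).take T).count x) (fun _ _ => Nat.zero_le _) hm)

variable (μ) in
/-- The weight of the good words through `x`. -/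
noncomputable def occ (lev : Site d →+ ℤ) (P : List (Step d) → Prop) (N : ℕ) (x : Site d) : ℝ≥0∞ :=
  reachMass μ lev N fun γ => P γ ∧ x ∈ visits 0 γ

/-- Good words through `x` visit it early in a block of index at least `J`. -/
lemma occ_le (hw : ∑' b, bw lev μ b = 1) {P : List (Step d) → Prop} {c C p : ℕ}
    (hP : ∀ γ, P γ → LinWord lev c γ) (hPC : ∀ γ, P γ → ClimbWord lev C p γ)
    (N J T : ℕ) (x : Site d) (hJ : ∀ i, lev x ≤ (c * (i + 2) : ℕ) → J ≤ i)
    (hT : ∀ k : ℕ, (k : ℤ) ≤ C * (lev x + 1) ^ p → k < T) :
    occ μ lev P N x ≤ avg (bw lev μ) N (fun L => ∑ i ∈ Finset.Ico J N,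
      ((((visits (tot (bdisp lev) (L.take i)) ((L[i]?.map fun b => b.1).getD [])).take T).count x : ℕ)
        : ℝ≥0∞)) := by
  classical
  set S : List (Blk lev) → ℝ≥0∞ := fun L => ∑ i ∈ Finset.Ico J N,
    ((((visits (tot (bdisp lev) (L.take i)) ((L[i]?.map fun b => b.1).getD [])).take T).count x : ℕ)
      : ℝ≥0∞) with hS
  set F : List (Blk lev) → ℝ≥0∞ := fun L =>
    if P (flat lev L) ∧ x ∈ visits 0 (flat lev L) then 1 else 0 with hF
  have key := renew_avg_le hw N F S fun L hL n hn _ => by
    simp only [hF]
    split_ifs with h
    swap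
    · exact zero_le
    exact count_late (hP _ h.1 _ rfl) (hPC _ h.1) hn hL h.2 hJ hT
  refine le_trans (le_of_eq ?_) key
  rw [occ, reachMass_eq]
  refine tsum_congr fun n => congrArg _ (funext fun L => ?_)
  by_cases h : (L.map hgt).sum = N <;> simp [h, hF]

end blocks

end Vale.Agent.P147.Velocity
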