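import Mathlib
import Vale.Agent.P147.Velocity.Occupy

/-!
P147: escape at least like the `p`-th root of the time gives, for every level, climbing words of
mass bounded below whose occupation of a site of level `h` is `O(h^(p-1-j))` and of a whole level
`O(h^(p-1))`, in dimension `2 j + 1` and more.
-/

open MeasureTheory Filter ProbabilityTheory
open scoped ENNReal Topology

namespace Vale.Agent.P147.Velocity

variable {d : ℕ}

lemma pow_le_qp {ω : Env d} {κ : ℝ} (hκ : ∀ x e, κ ≤ ω x e) (γ : List (Step d)) :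
    ∀ z, ENNReal.ofReal κ ^ γ.length ≤ qp ω z γ := by
  induction γ with
  | nil => intro z; simp [qp]
  | cons e γ ih =>
    intro z
    rw [List.length_cons, pow_succ', qp]
    exact mul_le_mul' (ENNReal.ofReal_le_ofReal (hκ z e)) (ih _)

lemma wt_ne_zero (μ : Measure (Step d → ℝ)) [IsProbabilityMeasure μ] {κ : ℝ} (hκ : 0 < κ)
    (hell : ∀ᵐ p ∂μ, ∀ e, κ ≤ p e) (γ : List (Step d)) : wt μ γ ≠ 0 := by
  have h : ENNReal.ofReal κ ^ γ.length ≤ wt μ γ := by
    refine le_trans (by simp) (lintegral_mono_ae (f := fun _ => ENNReal.ofReal κ ^ γ.length)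
      ((ae_forall_site μ hell).mono fun ω hω => pow_le_qp hω γ 0))
  exact fun h0 => absurd (h0 ▸ h) (not_le.2 (ENNReal.pow_pos (by simp [hκ]) _))

/-- The up step of the axis `i`. -/
def upStep (a : Fin d → ℤ) (i : Fin d) : Step d := (i, decide (0 ≤ a i))

lemma lev_upStep {a : Fin d → ℤ} (i : Fin d) :
    levOf a (move (upStep a i)) = |a i| := by
  rw [levOf_move]
  by_cases h : 0 ≤ a i
  · simp [upStep, h, abs_of_nonneg h]
  · simp [upStep, h, abs_of_neg (not_le.mp h)]

lemma exists_cube {q : ℕ} (hd : q + 1 ≤ d) {a : Fin d → ℤ} (ha : ∀ i, |a i| ≤ 1) (ha0 : ∃ i, a i ≠ 0) :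
    ∃ (ι : Fin q → Fin d) (σ : Fin q → ℤ) (u : Blk (levOf a)) (t : Fin q → Blk (levOf a)),
      Function.Injective ι ∧ (∀ r, σ r * σ r = 1) ∧
      (∀ r, bdisp (levOf a) u (ι r) = 0) ∧ levOf a (bdisp (levOf a) u) = 1 ∧
      ∀ l, levOf a (bdisp (levOf a) (t l)) = 1 ∧
        ∀ r, bdisp (levOf a) (t l) (ι r) = if l = r then σ r else 0 := by
  obtain ⟨j₀, hj₀⟩ := ha0
  have hone : ∀ i, a i ≠ 0 → |a i| = 1 := fun i hi =>
    le_antisymm (ha i) (Int.one_le_abs hi)
  have hcard : Fintype.card (Fin q) ≤ Fintype.card {i : Fin d // i ≠ j₀} := by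
    simp only [Fintype.card_fin, ne_eq, Fintype.card_subtype_compl, Fintype.card_subtype_eq]
    omega
  obtain ⟨emb⟩ := Function.Embedding.nonempty_of_card_le hcard
  set ι : Fin q → Fin d := fun r => (emb r).1
  have hι : Function.Injective ι := fun r r' h => emb.injective (Subtype.ext h)
  have hne : ∀ r, ι r ≠ j₀ := fun r => (emb r).2
  have hb1 : ∀ i, a i ≠ 0 → IsBlock (levOf a) [upStep a i] := by
    intro i hi
    refine ⟨by simp, fun k hk => ?_, fun k h1 h2 => by simp at h2; omega⟩
    simp at hk; subst hk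
    simp [lev_upStep, hone i hi]
  have hb2 : ∀ i, a i = 0 → IsBlock (levOf a) [upStep a i, upStep a j₀] := by
    intro i hi
    refine ⟨by simp, fun k hk => ?_, fun k h1 h2 hr _ => ?_⟩
    · simp at hk
      interval_cases k <;> simp [lev_upStep, hone j₀ hj₀, hi]
    · simp at h2
      have : k = 1 := by omega
      subst this
      have := (hr 0 (by simp)).2
      simp [lev_upStep, hi] at this
  set u : Blk (levOf a) := ⟨[upStep a j₀], hb1 j₀ hj₀⟩
  set t : Fin q → Blk (levOf a) := fun l =>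
    if h : a (ι l) = 0 then ⟨[upStep a (ι l), upStep a j₀], hb2 _ h⟩
    else ⟨[upStep a (ι l)], hb1 _ h⟩
  set σ : Fin q → ℤ := fun r => if 0 ≤ a (ι r) then 1 else -1
  refine ⟨ι, σ, u, t, hι, fun r => by simp only [σ]; split_ifs <;> norm_num, fun r => ?_, ?_,
    fun l => ?_⟩
  · simp [u, bdisp, move, upStep, hne r]
  · simp [u, bdisp, lev_upStep, hone j₀ hj₀]
  simp only [t]
  split_ifs with h
  · refine ⟨by simp [bdisp, lev_upStep, hone j₀ hj₀, h], fun r => ?_⟩
    by_cases hqr : l = r
    · subst hqr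
      simp [bdisp, move, upStep, hne l, σ, h]
    · have : ι r ≠ ι l := fun e => hqr (hι e).symm
      simp [bdisp, move, upStep, hne r, hqr, this]
  · refine ⟨by simp [bdisp, lev_upStep, hone _ h], fun r => ?_⟩
    by_cases hqr : l = r
    · subst hqr
      simp [bdisp, move, upStep, σ]
    · have : ι r ≠ ι l := fun e => hqr (hι e).symm
      simp [bdisp, move, upStep, hqr, this]

variable [NeZero d] {μ : Measure (Step d → ℝ)} [IsProbabilityMeasure μ]

/-- The chance that some initial stretch of blocks is too long tends to zero. -/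
lemma exists_linear {α : Type*} [Countable α] [MeasurableSpace α] [DiscreteMeasurableSpace α]
    {w : α → ℝ≥0∞} (hw : ∑' a, w a = 1) (len : α → ℕ)
    (hlen : ∑' a, w a * (len a : ℝ≥0∞) ≠ ⊤) {ε : ℝ≥0∞} (hε : ε ≠ 0) :
    ∃ c : ℕ, 1 ≤ c ∧ ∀ N, avg w N (fun L => if ∀ j ≤ L.length,
      ((L.take j).map len).sum ≤ c * (j + 1) then 0 else 1) ≤ ε := by
  classical
  set P := Measure.infinitePi (fun _ : ℕ => letterLaw w hw) with hP
  set κ : α → ℝ := fun a => (len a : ℝ)
  have hm : Measurable κ := Measurable.of_discrete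
  have hpres : ∀ i, MeasurePreserving (fun ξ : ℕ → α => ξ i) P (letterLaw w hw) := fun i =>
    ⟨measurable_pi_apply i, Measure.infinitePi_map_eval _ i⟩
  have hint : Integrable κ (letterLaw w hw) := by
    refine ⟨hm.aestronglyMeasurable, ?_⟩
    rw [hasFiniteIntegral_iff_enorm, lintegral_countable', lt_top_iff_ne_top]
    simpa [letterLaw_singleton, mul_comm, Real.enorm_eq_ofReal_abs, κ] using hlen
  have hindep : iIndepFun (fun i (ξ : ℕ → α) => κ (ξ i)) P :=
    iIndepFun_infinitePi (X := fun _ => κ) fun _ => hm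
  have hslln := strong_law_ae_real (fun i (ξ : ℕ → α) => κ (ξ i))
    ((hpres 0).integrable_comp_of_integrable hint) (fun i j hij => hindep.indepFun hij)
    (fun i => IdentDistrib.comp (f := fun ξ : ℕ → α => ξ i) (g := fun ξ : ℕ → α => ξ 0) (u := κ)
      ⟨(measurable_pi_apply i).aemeasurable, (measurable_pi_apply 0).aemeasurable,
        (hpres i).map_eq.trans (hpres 0).map_eq.symm⟩ hm)
  have hsum : ∀ n (ξ : ℕ → α), (((firstLetters n ξ).map len).sum : ℝ) =
      ∑ i ∈ Finset.range n, κ (ξ i) := by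
    intro n ξ
    induction n with
    | zero => simp [firstLetters]
    | succ n ih => simp [firstLetters_succ, Finset.sum_range_succ, ← ih, κ]
  set A : ℕ → Set (ℕ → α) := fun c => ⋃ j : ℕ,
    {ξ | (c + 1) * (j + 1) < ((firstLetters j ξ).map len).sum}
  have hAm : ∀ c, MeasurableSet (A c) := fun c => MeasurableSet.iUnion fun j =>
    measurableSet_lt measurable_const (measurable_firstLetters j fun L => (L.map len).sum)
  have hAanti : Antitone A := fun c c' hcc ξ hξ => by
    obtain ⟨j, hj⟩ := Set.mem_iUnion.1 hξ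
    exact Set.mem_iUnion.2 ⟨j, lt_of_le_of_lt (Nat.mul_le_mul_right _ (by omega)) hj⟩
  have hnull : P (⋂ c, A c) = 0 := by
    refine measure_eq_zero_iff_ae_notMem.2 ?_
    filter_upwards [hslln] with ξ hξ hin
    obtain ⟨B, hB⟩ := hξ.bddAbove_range
    obtain ⟨c, hc⟩ := exists_nat_ge B
    obtain ⟨j, hj⟩ := Set.mem_iUnion.1 (Set.mem_iInter.1 hin c)
    have hj' : ((c + 1) * (j + 1) : ℝ) < ((firstLetters j ξ).map len).sum := by exact_mod_cast hj
    have h2 : (∑ i ∈ Finset.range j, κ (ξ i)) / (j : ℝ) ≤ B := hB ⟨j, rfl⟩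
    rw [hsum] at hj'
    rcases Nat.eq_zero_or_pos j with rfl | hjpos
    · simp at hj'; linarith [Nat.cast_nonneg (α := ℝ) c]
    · rw [div_le_iff₀ (by exact_mod_cast hjpos)] at h2
      nlinarith [Nat.cast_nonneg (α := ℝ) c, Nat.cast_nonneg (α := ℝ) j]
  have hlim : Tendsto (fun c => P (A c)) atTop (𝓝 0) := by
    have := tendsto_measure_iInter_atTop (μ := P) (fun c => (hAm c).nullMeasurableSet) hAanti
      ⟨0, measure_ne_top _ _⟩
    rwa [hnull] at this
  obtain ⟨c, hc⟩ := (hlim.eventually (ge_mem_nhds (pos_iff_ne_zero.2 hε))).exists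
  refine ⟨c + 1, by omega, fun N => ?_⟩
  rw [avg_eq_lintegral hw]
  refine le_trans (lintegral_mono fun ξ => ?_) ((lintegral_indicator_one (hAm c)).trans_le hc)
  split_ifs with h
  · exact zero_le
  push Not at h
  obtain ⟨j, hj, hlt⟩ := h
  have hjN : j ≤ N := by simpa [firstLetters] using hj
  have e : (firstLetters N ξ).take j = firstLetters j ξ := by
    simp [firstLetters, ← List.map_take, List.take_range, min_eq_left hjN]
  rw [e] at hlt
  rw [Set.indicator_of_mem (show ξ ∈ A c from Set.mem_iUnion.2 ⟨j, hlt⟩)]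
  simp


/-- Paths staying above their start and climbing at least like the `p`-th root of the time. -/
def rise (a : Fin d → ℤ) (C p : ℕ) : Set (Path d) :=
  {X | ∀ t : ℕ, 0 ≤ levOf a (X t - X 0) ∧ (t : ℤ) ≤ C * (levOf a (X t - X 0) + 1) ^ p}

omit [NeZero d] in
lemma rise_reach {a : Fin d → ℤ} (ha : ∀ i, |a i| ≤ 1) {C p : ℕ} {X : Path d}
    (hX : X ∈ rise a C p) (h0 : X 0 = 0) (hs : ∀ k, ∃ e, X (k + 1) = X k + move e) (N : ℕ) :
    ∃ γ, IsReach (levOf a) γ ∧ levOf a (disp γ) = N ∧ ClimbWord (levOf a) C p γ ∧ X ∈ follow γ := by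
  have hlev : ∀ t, 0 ≤ levOf a (X t) ∧ (t : ℤ) ≤ C * (levOf a (X t) + 1) ^ p := fun t => by
    simpa [h0] using hX t
  have hex : ∃ t, (N : ℤ) ≤ levOf a (X t) := by
    refine ⟨C * (N + 1) ^ p + 1, ?_⟩
    by_contra h
    rw [not_le] at h
    have h1 := hlev (C * (N + 1) ^ p + 1)
    have h2 : (levOf a (X (C * (N + 1) ^ p + 1)) + 1) ^ p ≤ ((N : ℤ) + 1) ^ p :=
      pow_le_pow_left₀ (by linarith [h1.1]) (by linarith) p
    have h3 := mul_le_mul_of_nonneg_left h2 (Int.natCast_nonneg C)
    have h4 := h1.2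
    push_cast at h4
    linarith
  set t := Nat.find hex
  have ht : (N : ℤ) ≤ levOf a (X t) := Nat.find_spec hex
  have hbefore : ∀ k < t, levOf a (X k) < N := fun k hk => lt_of_not_ge (Nat.find_min hex hk)
  have hN : levOf a (X t) = N := by
    refine le_antisymm ?_ ht
    rcases Nat.eq_zero_or_pos t with h | h
    · rw [h, h0]; simp
    · obtain ⟨e, he⟩ := hs (t - 1)
      rw [Nat.sub_add_cancel h] at he
      have h1 := hbefore (t - 1) (by omega)
      have h2 := abs_le.mp (ha e.1)
      rw [he, map_add, levOf_move]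
      split_ifs <;> omega
  obtain ⟨γ, hγ, hfol, hdisp⟩ := exists_follow h0 hs t
  have hend : disp γ = X t := by rw [← hdisp t le_rfl, List.take_of_length_le hγ.le]
  refine ⟨γ, fun k hk => ?_, by rw [hend, hN], fun k hk => ?_, hfol⟩
  · rw [hdisp k (by omega), hend, hN]
    exact ⟨(hlev k).1, hbefore k (by omega)⟩
  · rw [hdisp k (by omega)]
    exact hlev k

lemma le_reachMass_climb (hrow : ∀ᵐ p ∂μ, GoodRow p) {a : Fin d → ℤ} (ha : ∀ i, |a i| ≤ 1)
    (C p N : ℕ) : annealed μ (rise a C p) ≤ reachMass μ (levOf a) N (ClimbWord (levOf a) C p) := by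
  refine le_reachMass hrow _ _ _ _ fun X hX h0 hs => ?_
  obtain ⟨γ, h1, h2, h3, h4⟩ := rise_reach ha hX h0 hs N
  exact ⟨γ, h1, h2, h3, h4⟩

/-- The blocks of a walk which rises with positive chance. -/
theorem blocks_of_rise (hrow : ∀ᵐ p ∂μ, GoodRow p) {a : Fin d → ℤ} (ha : ∀ i, |a i| ≤ 1)
    {C p : ℕ} (hP : annealed μ (rise a C p) ≠ 0) :
    ∑' b, bw (levOf a) μ b = 1 ∧ ∑' b, bw (levOf a) μ b * (hgt b : ℝ≥0∞) ≠ ⊤ := by
  classical
  set g := annealed μ (rise a C p)
  have hlo : ∀ N, g ≤ renew (bw (levOf a) μ) hgt N := fun N => by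
    refine (le_reachMass_climb hrow ha C p N).trans ?_
    rw [reachMass_eq]
    exact ENNReal.tsum_le_tsum fun n => avg_mono fun L => by split_ifs <;> simp_all
  have hhi : ∀ N, renew (bw (levOf a) μ) hgt N ≤ 1 := fun N => by
    refine le_trans (le_of_eq ?_) (reachMass_le_one hrow (levOf a) N fun _ => True)
    rw [reachMass_eq]; simp [renew]
  have hgt' : g ≠ ⊤ := measure_ne_top _ _
  obtain ⟨hw, hG⟩ := renewal one_le_hgt (g := g.toReal) (ENNReal.toReal_pos hP hgt')
    (fun N => by rw [ENNReal.ofReal_toReal hgt']; exact hlo N) hhi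
  exact ⟨hw, ne_top_of_le_ne_top ENNReal.ofReal_ne_top hG⟩

/-- The mean length of a block cut at `D N^p` is `O(N^(p-1))`. -/
lemma cut_mean_le (hrow : ∀ᵐ p ∂μ, GoodRow p) {a : Fin d → ℤ} (ha : ∀ i, |a i| ≤ 1) {C p : ℕ}
    (hp : 1 ≤ p) (hP : annealed μ (rise a C p) ≠ 0) (D : ℕ) (hD : 1 ≤ D) :
    ∃ M : ℝ≥0∞, M ≠ ⊤ ∧ ∀ N : ℕ, 1 ≤ N →
      meanCut μ (levOf a) (D * N ^ p) ≤ M * (N : ℝ≥0∞) ^ (p - 1) := by
  classical
  obtain ⟨hw, hG⟩ := blocks_of_rise hrow ha hP
  set lev := levOf a
  set g := annealed μ (rise a C p)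
  have hgt' : g ≠ ⊤ := measure_ne_top _ _
  have hg0 : 0 < g.toReal := ENNReal.toReal_pos hP hgt'
  set G := (∑' b, bw lev μ b * (hgt b : ℝ≥0∞)).toReal
  have hG0 : 0 ≤ G := ENNReal.toReal_nonneg
  set ε := min 1 (g.toReal / (4 * (G + 1))) with hε
  have hε0 : 0 < ε := lt_min one_pos (by positivity)
  set M' : ℝ := max ((D : ℝ) * (2 / ε))
    (4 * ((C : ℝ) * 2 ^ p + D * |Real.log (2 / g.toReal)|) / ε)
  refine ⟨ENNReal.ofReal M', ENNReal.ofReal_ne_top, fun N hN => ?_⟩
  have hN' : (1 : ℝ) ≤ N := by exact_mod_cast hN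
  have hM0 : 0 ≤ M' := le_trans (by positivity) (le_max_left _ _)
  set L := D * N ^ p with hL
  have hL1 : 1 ≤ L := Nat.one_le_iff_ne_zero.2 (Nat.mul_ne_zero (by omega)
    (pow_ne_zero _ (by omega)))
  have hmle : meanCut μ lev L ≤ (L : ℝ≥0∞) := by
    calc meanCut μ lev L ≤ ∑' b, bw lev μ b * (L : ℝ≥0∞) := ENNReal.tsum_le_tsum fun b =>
          mul_le_mul' le_rfl (Nat.cast_le.2 (min_le_left _ _))
      _ = _ := by rw [ENNReal.tsum_mul_right, hw, one_mul]
  have hpow : (N : ℝ) ^ p = N * (N : ℝ) ^ (p - 1) := by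
    rw [← pow_succ', Nat.sub_add_cancel hp]
  rw [← ENNReal.ofReal_natCast N, ← ENNReal.ofReal_pow (Nat.cast_nonneg N),
    ← ENNReal.ofReal_mul hM0]
  rcases lt_or_ge (ε * N) 2 with hsmall | hbig
  · refine hmle.trans ?_
    rw [← ENNReal.ofReal_natCast]
    refine ENNReal.ofReal_le_ofReal ?_
    simp only [hL, Nat.cast_mul, Nat.cast_pow, hpow]
    rw [← mul_assoc]
    refine mul_le_mul_of_nonneg_right (le_trans ?_ (le_max_left _ _)) (by positivity)
    refine mul_le_mul_of_nonneg_left ?_ (Nat.cast_nonneg D)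
    rw [le_div_iff₀ hε0]; linarith
  set J := ⌊ε * N⌋₊
  have hJle : (J : ℝ) ≤ ε * N := Nat.floor_le (by positivity)
  have hJge : ε * N / 2 ≤ J := by
    have := Nat.lt_floor_add_one (ε * N); linarith
  have hJN : J ≤ N := by
    have : (J : ℝ) ≤ N := hJle.trans (mul_le_of_le_one_left (by positivity) (min_le_left _ _))
    exact_mod_cast this
  set Q := C * (N + 1) ^ p with hQ
  set f : Blk lev → ℕ := fun b => min L b.1.length
  set E1 : List (Blk lev) → ℝ≥0∞ := fun U => if (N : ℕ) ≤ (U.map hgt).sum then 1 else 0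
  set E2 : List (Blk lev) → ℝ≥0∞ := fun U => if (U.map f).sum ≤ Q then 1 else 0
  have hmain : g ≤ avg (bw lev μ) J E1 + avg (bw lev μ) J E2 := by
    refine (le_reachMass_climb hrow ha C p N).trans ?_
    rw [reachMass_eq, ← avg_fun_add, ← avg_take hw hJN]
    refine le_trans (le_of_eq (tsum_congr fun n => congrArg _ (funext fun U => ?_)))
      (renew_avg_le hw N (fun U => if ClimbWord lev C p (flat lev U) then 1 else 0) _
        fun U hU n hn hsum => ?_)
    · by_cases h : (U.map hgt).sum = N <;> by_cases h' : ClimbWord lev C p (flat lev U) <;>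
        simp [h, h', lev]
    split_ifs with h
    swap
    · exact zero_le
    rcases lt_or_ge n J with hnJ | hnJ
    · refine le_trans ?_ le_self_add
      simp only [E1]
      rw [if_pos]
      refine hsum.symm.le.trans ?_
      have e : U.take n = (U.take J).take n := by rw [List.take_take, min_eq_left hnJ.le]
      rw [e, List.map_take, List.map_take]
      exact List.Sublist.sum_le_sum ((List.take_sublist _ _)) (fun _ _ => Nat.zero_le _)
    · refine le_trans ?_ le_add_self
      simp only [E2]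
      rw [if_pos]
      have hflat : (flat lev (U.take n)).length ≤ Q := by
        have h1 := (h _ le_rfl).2
        rw [List.take_length, show lev (disp (flat lev (U.take n))) = (N : ℤ) by
          rw [hgt_flat, hsum]] at h1
        simp only [Q]
        exact_mod_cast h1
      refine le_trans ?_ hflat
      rw [length_flat]
      refine le_trans (List.sum_le_sum fun b _ => min_le_right _ _) ?_
      have e : U.take J = (U.take n).take J := by rw [List.take_take, min_eq_left hnJ]
      rw [e]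
      exact ((List.take_sublist _ _).map _).sum_le_sum fun _ _ => Nat.zero_le _
  have hE1 : avg (bw lev μ) J E1 ≤ ENNReal.ofReal (g.toReal / 2) := by
    have h1 : (N : ℝ≥0∞) * avg (bw lev μ) J E1 ≤ J * ∑' b, bw lev μ b * (hgt b : ℝ≥0∞) := by
      rw [← avg_map_sum hw hgt J, ← avg_const_mul]
      refine avg_mono fun U => ?_
      simp only [E1]
      split_ifs with h
      · rw [mul_one]; exact_mod_cast h
      · simp
    rw [← ENNReal.ofReal_toReal hG, ← ENNReal.ofReal_natCast J, ← ENNReal.ofReal_natCast N,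
      ← ENNReal.ofReal_mul (Nat.cast_nonneg _)] at h1
    have h2 : (J : ℝ) * G ≤ (N : ℝ) * (g.toReal / 2) := by
      refine (mul_le_mul_of_nonneg_right hJle hG0).trans ?_
      have h3 : ε * G ≤ g.toReal / 2 := by
        refine (mul_le_mul_of_nonneg_right (min_le_right _ _) hG0).trans ?_
        rw [div_mul_eq_mul_div, div_le_iff₀ (by positivity)]
        nlinarith
      nlinarith
    have h4 := h1.trans (ENNReal.ofReal_le_ofReal h2)
    rw [ENNReal.ofReal_mul (Nat.cast_nonneg _)] at h4
    exact (ENNReal.mul_le_mul_iff_right (by simp; omega) ENNReal.ofReal_ne_top).1 h4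
  set m := (meanCut μ lev L).toReal
  have hmt : meanCut μ lev L ≠ ⊤ := ne_top_of_le_ne_top (ENNReal.natCast_ne_top _) hmle
  set s := ((L : ℝ))⁻¹
  have hLpos : (0 : ℝ) < L := by exact_mod_cast hL1
  have hs : 0 < s := by positivity
  have hφ : ∑' b, bw lev μ b * ENNReal.ofReal (Real.exp (-s)) ^ f b ≤
      ENNReal.ofReal (Real.exp (-(s / 2) * m)) := by
    have hsum : ∑' b, bw lev μ b * ENNReal.ofReal (Real.exp (-s)) ^ f b +
        ENNReal.ofReal (s / 2) * meanCut μ lev L ≤ 1 := by
      rw [meanCut, ← ENNReal.tsum_mul_left, ← ENNReal.tsum_add, ← hw]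
      refine ENNReal.tsum_le_tsum fun b => ?_
      rw [← ENNReal.ofReal_pow (Real.exp_pos _).le, ← ENNReal.ofReal_natCast,
        mul_left_comm, ← mul_add, ← ENNReal.ofReal_mul (by positivity),
        ← ENNReal.ofReal_add (by positivity) (by positivity)]
      refine mul_le_of_le_one_right' (ENNReal.ofReal_le_one.2 ?_)
      rw [← Real.exp_nat_mul]
      have h1 : s * f b ≤ 1 := by
        rw [inv_mul_le_iff₀ hLpos, mul_one]; exact_mod_cast min_le_left _ _
      have h2 : 0 ≤ s * f b := by positivity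
      have h3 : Real.exp ((f b : ℝ) * -s) ≤ 1 - s * f b / 2 := by
        have h4 := Real.add_one_le_exp (s * f b)
        have h5 : Real.exp ((f b : ℝ) * -s) = (Real.exp (s * f b))⁻¹ := by
          rw [← Real.exp_neg]; ring_nf
        rw [h5, inv_le_iff_one_le_mul₀ (Real.exp_pos _)]
        nlinarith
      change Real.exp ((f b : ℝ) * -s) + s / 2 * (f b : ℝ) ≤ 1
      linarith
    have hne : ∑' b, bw lev μ b * ENNReal.ofReal (Real.exp (-s)) ^ f b ≠ ⊤ :=
      ne_top_of_le_ne_top ENNReal.one_ne_top (le_self_add.trans hsum)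
    rw [← ENNReal.ofReal_toReal hne]
    refine ENNReal.ofReal_le_ofReal ?_
    have h1 := ENNReal.toReal_mono ENNReal.one_ne_top hsum
    rw [ENNReal.toReal_add hne (ENNReal.mul_ne_top ENNReal.ofReal_ne_top hmt), ENNReal.toReal_mul,
      ENNReal.toReal_ofReal (by positivity), ENNReal.toReal_one] at h1
    have h2 := Real.add_one_le_exp (-(s / 2) * m)
    linarith
  have hE2 : avg (bw lev μ) J E2 ≤ ENNReal.ofReal (Real.exp (s * Q - J * (s / 2 * m))) := by
    calc avg (bw lev μ) J E2 ≤ avg (bw lev μ) J (fun U => ENNReal.ofReal (Real.exp (s * Q)) *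
          ENNReal.ofReal (Real.exp (-s)) ^ (U.map f).sum) := by
          refine avg_mono fun U => ?_
          simp only [E2]
          split_ifs with h
          swap
          · exact zero_le
          rw [← ENNReal.ofReal_pow (Real.exp_pos _).le, ← ENNReal.ofReal_mul (Real.exp_pos _).le,
            ← ENNReal.ofReal_one, ← Real.exp_nat_mul, ← Real.exp_add]
          refine ENNReal.ofReal_le_ofReal (Real.one_le_exp ?_)
          have : ((U.map f).sum : ℝ) ≤ Q := by exact_mod_cast h
          nlinarith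
      _ ≤ ENNReal.ofReal (Real.exp (s * Q)) * ENNReal.ofReal (Real.exp (-(s / 2) * m)) ^ J := by
          rw [avg_const_mul, avg_pow_sum]
          exact mul_le_mul' le_rfl (pow_le_pow_left' hφ J)
      _ = _ := by
          rw [← ENNReal.ofReal_pow (Real.exp_pos _).le, ← ENNReal.ofReal_mul (Real.exp_pos _).le,
            ← Real.exp_nat_mul, ← Real.exp_add]
          ring_nf
  have hkey : g.toReal / 2 ≤ Real.exp (s * Q - J * (s / 2 * m)) := by
    have h1 := ENNReal.toReal_mono (ENNReal.add_ne_top.2 ⟨ENNReal.ofReal_ne_top,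
      ENNReal.ofReal_ne_top⟩) (hmain.trans (add_le_add hE1 hE2))
    rw [ENNReal.toReal_add ENNReal.ofReal_ne_top ENNReal.ofReal_ne_top,
      ENNReal.toReal_ofReal (by positivity), ENNReal.toReal_ofReal (Real.exp_pos _).le] at h1
    linarith
  have hlog : J * (m / 2) ≤ Q + L * |Real.log (2 / g.toReal)| := by
    have h1 := Real.log_le_log (by positivity) hkey
    rw [Real.log_exp, show g.toReal / 2 = (2 / g.toReal)⁻¹ by rw [inv_div], Real.log_inv] at h1
    have h3 : J * (s / 2 * m) - s * Q ≤ |Real.log (2 / g.toReal)| := by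
      have := le_abs_self (Real.log (2 / g.toReal)); linarith
    have h4 := mul_le_mul_of_nonneg_left h3 hLpos.le
    have h5 : (L : ℝ) * (J * (s / 2 * m) - s * Q) = J * (m / 2) - Q := by
      simp only [s]; field_simp
    linarith
  rw [← ENNReal.ofReal_toReal hmt]
  refine ENNReal.ofReal_le_ofReal ?_
  change m ≤ _
  refine le_trans ?_ (mul_le_mul_of_nonneg_right (le_max_right _ _) (by positivity))
  have hQle : (Q : ℝ) ≤ C * 2 ^ p * (N : ℝ) ^ p := by
    simp only [hQ]; push_cast
    rw [mul_assoc, ← mul_pow]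
    exact mul_le_mul_of_nonneg_left (pow_le_pow_left₀ (by positivity) (by linarith) p)
      (Nat.cast_nonneg C)
  have hLle : (L : ℝ) = D * (N : ℝ) ^ p := by simp [hL]
  have hm0 : 0 ≤ m := ENNReal.toReal_nonneg
  set Λ := |Real.log (2 / g.toReal)|
  have h6 : ε * N * m ≤ 4 * ((C : ℝ) * 2 ^ p + D * Λ) * (N : ℝ) ^ p := by
    rw [hLle] at hlog
    nlinarith [mul_le_mul_of_nonneg_right hJge hm0, hQle]
  rw [hpow] at h6
  rw [div_mul_eq_mul_div, le_div_iff₀ hε0]
  refine le_of_mul_le_mul_right ?_ (show (0 : ℝ) < N by linarith)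
  linarith

omit [NeZero d] [IsProbabilityMeasure μ] in
lemma occ_eq_zero {lev : Site d →+ ℤ} {P : List (Step d) → Prop} {N : ℕ} {x : Site d}
    (hx : lev x < 0) : occ μ lev P N x = 0 := by
  rw [occ, reachMass]
  refine ENNReal.tsum_eq_zero.2 fun γ => ?_
  rw [if_neg, mul_zero]
  rintro ⟨-, -, hmem⟩
  obtain ⟨k, hk, rfl⟩ := mem_visits.1 hmem
  rw [zero_add] at hx
  exact absurd (γ.2 k hk).1 (not_le.2 hx)

/-- Climbing words with linearly growing heights keep half of the chance to rise. -/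
theorem linear_mass (hrow : ∀ᵐ p ∂μ, GoodRow p) {a : Fin d → ℤ} (ha : ∀ i, |a i| ≤ 1) {C p : ℕ}
    (hP : annealed μ (rise a C p) ≠ 0) :
    ∃ c : ℕ, 1 ≤ c ∧ ∀ N, annealed μ (rise a C p) / 2 ≤ reachMass μ (levOf a) N
      (fun γ => ClimbWord (levOf a) C p γ ∧ LinWord (levOf a) c γ) := by
  classical
  set lev := levOf a with hlev_def
  obtain ⟨hw, hG⟩ := blocks_of_rise hrow ha hP
  set g := annealed μ (rise a C p)
  letI : MeasurableSpace (Blk lev) := ⊤
  haveI : DiscreteMeasurableSpace (Blk lev) := ⟨fun _ => trivial⟩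
  obtain ⟨c, hc1, hc⟩ := exists_linear hw hgt hG (ENNReal.half_pos hP).ne'
  set P : List (Step d) → Prop := fun γ => ClimbWord lev C p γ ∧ LinWord lev c γ
  have hmass : ∀ N, g / 2 ≤ reachMass μ lev N P := by
    intro N
    have h1 : g ≤ reachMass μ lev N (ClimbWord lev C p) := le_reachMass_climb hrow ha C p N
    have h2 : reachMass μ lev N (fun γ => ¬ LinWord lev c γ) ≤ g / 2 := by
      rw [reachMass_eq]
      refine le_trans (le_of_eq (tsum_congr fun n => congrArg _ (funext fun L => ?_)))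
        ((renew_avg_le hw N (fun L => if Linear c L then 0 else 1)
          (fun L => if ∀ j ≤ L.length, ((L.take j).map hgt).sum ≤ c * (j + 1)
            then 0 else 1) fun L hL n hn _ => ?_).trans (hc N))
      · have e : LinWord lev c (flat lev L) ↔ Linear c L :=
          ⟨fun h => h L rfl, fun h M hM => flat_injective hM ▸ h⟩
        by_cases h : (L.map hgt).sum = N <;> by_cases h' : Linear c L <;> simp [h, h', e]
      · split_ifs with h h' h'
        · exact le_rfl
        · exact zero_le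
        · exact absurd (fun j hj => by
            rw [List.take_take, min_eq_left (by simp at hj; omega)]
            exact h' j (by simp at hj; omega)) h
        · exact le_rfl
    have h3 : reachMass μ lev N (ClimbWord lev C p) ≤
        reachMass μ lev N P + reachMass μ lev N (fun γ => ¬ LinWord lev c γ) := by
      simp only [reachMass]
      rw [← ENNReal.tsum_add]
      refine ENNReal.tsum_le_tsum fun γ => ?_
      rw [← mul_add]
      refine mul_le_mul' le_rfl ?_
      by_cases hN : lev (disp γ.1) = (N : ℤ) <;> by_cases h' : ClimbWord lev C p γ.1 <;>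
        by_cases h'' : LinWord lev c γ.1 <;> simp [P, hN, h', h'']
    have h4 : g ≤ reachMass μ lev N P + g / 2 := h1.trans (h3.trans (add_le_add le_rfl h2))
    have hgt' : g ≠ ⊤ := measure_ne_top _ _
    rw [← ENNReal.add_halves g] at h4
    exact (ENNReal.add_le_add_iff_right (ne_top_of_le_ne_top hgt' ENNReal.half_le_self)).1
      (by simpa [ENNReal.add_halves] using h4)
  exact ⟨c, hc1, hmass⟩

/-- Climbing words of positive mass with occupation `O(h^(p-1-j))` per site and `O(h^(p-1))` per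
level, in dimension `2 j + 1` and more. -/
theorem climbers {p j : ℕ} (hp : 1 ≤ p) (hj : 1 ≤ j) (hd : 2 * j + 1 ≤ d) (hrow : ∀ᵐ p ∂μ, GoodRow p) {κ : ℝ}
    (hκ : 0 < κ) (hell : ∀ᵐ p ∂μ, ∀ e, κ ≤ p e) {a : Fin d → ℤ} (ha : ∀ i, |a i| ≤ 1)
    (ha0 : ∃ i, a i ≠ 0) {C : ℕ} (hP : annealed μ (rise a C p) ≠ 0) :
    ∃ (P : List (Step d) → Prop) (K ρ g : ℝ≥0∞), K ≠ ⊤ ∧ ρ ≠ ⊤ ∧ g ≠ 0 ∧
      (∀ γ, P γ → ClimbWord (levOf a) C p γ) ∧
      (∀ N, g ≤ reachMass μ (levOf a) N P) ∧
      (∀ N x, occ μ (levOf a) P N x ≤ K * (((levOf a x).toNat : ℝ≥0∞) + 1) ^ (p - 1) /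
        (((levOf a x).toNat : ℝ≥0∞) + 1) ^ j) ∧
      ∀ N (y : Site d) (Z : Finset (Site d)), (∀ z ∈ Z, levOf a z = 0) →
        ∑ z ∈ Z, occ μ (levOf a) P N (y - z) ≤
          ρ * (((levOf a y).toNat : ℝ≥0∞) + 1) ^ (p - 1) := by
  classical
  set lev := levOf a with hlev_def
  obtain ⟨hw, hG⟩ := blocks_of_rise hrow ha hP
  set g := annealed μ (rise a C p)
  obtain ⟨c, hc1, hmass⟩ := linear_mass hrow ha hP
  set P : List (Step d) → Prop := fun γ => ClimbWord lev C p γ ∧ LinWord lev c γ
  obtain ⟨ι, σ, u, t, -, hσ, hu0, hu1, ht⟩ := exists_cube (q := 2 * j) (by omega) ha ha0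
  let cq : (Fin (2 * j) → Bool) → Group (2 * j) (Blk lev) := fun s =>
    ⟨List.ofFn fun q => if s q then t q else u, by simp⟩
  have hlist : ∀ s, tot (bdisp lev) (cq s).1 = ∑ q, bdisp lev (if s q then t q else u) := fun s => by
    simp [cq, tot, List.map_ofFn, List.sum_ofFn, Function.comp_def]
  obtain ⟨K₀, hK₀, hspread⟩ := spread_cube
    (w := fun q : Group (2 * j) (Blk lev) => lw (bw lev μ) q.1)
    (D := fun q : Group (2 * j) (Blk lev) => tot (bdisp lev) q.1) (lev := lev)
    (by have := avg_eq_tsum (w := bw lev μ) (2 * j) fun _ => 1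
        rw [avg_const hw] at this
        simpa using this.symm)
    hj ι σ 0 ((2 * j : ℕ) : ℤ) cq (fun s => by
      simp only [lw, ne_eq, List.prod_eq_zero_iff, List.mem_map, not_exists, not_and]
      exact fun b _ => wt_ne_zero μ hκ hell b.1)
    hσ (fun s r => by
      rw [hlist, Finset.sum_apply, Pi.zero_apply, zero_add]
      rw [Finset.sum_eq_single r (fun q _ hq => by
        cases hs : s q
        · simp only [Bool.false_eq_true, if_false]; exact hu0 r
        · simp only [if_true]; exact ((ht q).2 r).trans (if_neg hq))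
        (fun h => absurd (Finset.mem_univ r) h)]
      cases hs : s r
      · simp only [Bool.false_eq_true, if_false]; exact hu0 r
      · simp only [if_true]; exact ((ht r).2 r).trans (if_pos rfl))
    (fun s => by
      rw [hlist, map_sum, Finset.sum_congr rfl fun q _ =>
        (show lev (bdisp lev (if s q then t q else u)) = 1 by
          cases hs : s q
          · simp only [Bool.false_eq_true, if_false]; exact hu1
          · simp only [if_true]; exact (ht q).1)]
      simp)
  obtain ⟨M, hMt, hcut⟩ := cut_mean_le hrow ha hp hP (C + 1) (by omega)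
  set cst : ℕ := (2 * j + 2) * c
  have hcut' : ∀ h : ℕ, meanCut μ lev ((C + 1) * (h + 1) ^ p) ≤ M * ((h : ℝ≥0∞) + 1) ^ (p - 1) :=
    fun h => by simpa using hcut (h + 1) (by omega)
  have hTk : ∀ (h : ℕ) (y : Site d), lev y = (h : ℤ) → ∀ k : ℕ,
      (k : ℤ) ≤ C * (lev y + 1) ^ p → k < (C + 1) * (h + 1) ^ p := by
    intro h y hy k hk
    rw [hy] at hk
    have h1 : k ≤ C * (h + 1) ^ p := by exact_mod_cast hk
    have h2 : 0 < (h + 1) ^ p := by positivity
    rw [add_mul, one_mul]; omega
  refine ⟨P, K₀ * (cst : ℝ≥0∞) ^ j * M, M, g / 2,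
    ENNReal.mul_ne_top (ENNReal.mul_ne_top hK₀ (ENNReal.pow_ne_top (ENNReal.natCast_ne_top _))) hMt,
    hMt, (ENNReal.half_pos hP).ne', fun γ h => h.1, hmass, fun N x => ?_, fun N y Z hZ => ?_⟩
  · rcases lt_or_ge (lev x) 0 with hneg | hnn
    · rw [occ_eq_zero hneg]; exact zero_le
    set h := (lev x).toNat
    have hh : lev x = (h : ℤ) := (Int.toNat_of_nonneg hnn).symm
    set n := (h / c - 2) / (2 * j)
    have hn1 : h + 1 ≤ cst * (n + 1) := by
      have h1 : h < c * (h / c + 1) := by
        rw [mul_add, mul_one]; exact Nat.lt_div_mul_add hc1 |>.trans_eq (by ring)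
      have h2 : h / c ≤ 2 * j * n + 2 * j + 1 := by
        have h5 := Nat.div_add_mod (h / c - 2) (2 * j)
        have := Nat.mod_lt (h / c - 2) (show 0 < 2 * j by omega)
        simp only [n]
        generalize h / c = q at *
        generalize 2 * j * ((q - 2) / (2 * j)) = u at *
        omega
      have h3 : c * (h / c + 1) ≤ c * ((2 * j + 2) * (n + 1)) := by
        refine Nat.mul_le_mul_left _ ?_
        nlinarith
      simp only [cst]
      nlinarith
    refine (occ_le hw (fun γ hγ => hγ.2) (fun γ hγ => hγ.1) N (2 * j * n)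
      ((C + 1) * (h + 1) ^ p) x (fun i hi => ?_) (hTk h x hh)).trans ?_
    · have h1 : h ≤ c * (i + 2) := Int.toNat_le.2 hi
      have h2 : h / c ≤ i + 2 := Nat.div_le_of_le_mul h1
      have h3 : 2 * j * n ≤ h / c - 2 := Nat.mul_div_le _ _
      generalize 2 * j * n = q at *
      omega
    rw [avg_late_visits hw]
    refine (sum_map_sites_le ((C + 1) * (h + 1) ^ p) _ (K := K₀ * (cst : ℝ≥0∞) ^ j
      / ((h : ℝ≥0∞) + 1) ^ j) fun s => ?_).trans ?_
    · refine ((sum_hit_le hw one_le_bdisp (2 * j * n) N (x - s)).trans ?_)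
      simp only [← hitTop_group]
      refine (hspread n).trans ?_
      rw [ENNReal.le_div_iff_mul_le (Or.inl (by simp)) (Or.inl (by simp)),
        ENNReal.mul_comm_div]
      refine mul_le_mul' le_rfl ?_
      rw [ENNReal.div_le_iff (by simp) (by simp), ← mul_pow]
      exact pow_le_pow_left' (by exact_mod_cast hn1) _
    · refine (mul_le_mul' (hcut' h) le_rfl).trans (le_of_eq ?_)
      rw [div_eq_mul_inv, div_eq_mul_inv]
      ring
  · rcases lt_or_ge (lev y) 0 with hneg | hnn
    · rw [Finset.sum_eq_zero fun z hz => occ_eq_zero (by rw [map_sub, hZ z hz, sub_zero]; exact hneg)]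
      exact zero_le
    set h := (lev y).toNat
    have hh : lev y = (h : ℤ) := (Int.toNat_of_nonneg hnn).symm
    set T := (C + 1) * (h + 1) ^ p
    calc ∑ z ∈ Z, occ μ lev P N (y - z)
        ≤ ∑ z ∈ Z, ∑' b, bw lev μ b * (((visits 0 b.1).take T).map fun s =>
            ∑ i ∈ Finset.Ico 0 N, hit (bw lev μ) (bdisp lev) i (y - z - s)).sum := by
          refine Finset.sum_le_sum fun z hz => ?_
          refine (occ_le hw (fun γ hγ => hγ.2) (fun γ hγ => hγ.1) N 0 T (y - z)
            (fun i _ => Nat.zero_le i) (hTk h (y - z) ?_)).trans ?_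
          · rw [map_sub, hZ z hz, sub_zero, hh]
          rw [avg_late_visits hw]
      _ = ∑' b, bw lev μ b * (((visits 0 b.1).take T).map fun s => ∑ z ∈ Z,
            ∑ i ∈ Finset.Ico 0 N, hit (bw lev μ) (bdisp lev) i (y - z - s)).sum := by
          rw [← Summable.tsum_finsetSum fun _ _ => ENNReal.summable]
          refine tsum_congr fun b => ?_
          rw [← Finset.mul_sum]
          congr 1
          induction (visits 0 b.1).take T with
          | nil => simp
          | cons s l ih => simp only [List.map_cons, List.sum_cons, Finset.sum_add_distrib, ih]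
      _ ≤ meanCut μ lev T * 1 := sum_map_sites_le T _ fun s => by
          rw [Finset.sum_comm]
          simp only [sub_right_comm y _ s, Nat.Ico_zero_eq_range]
          exact sum_hit_level_le hw one_le_bdisp N (y - s) Z hZ
      _ ≤ _ := by rw [mul_one]; exact hcut' h

end Vale.Agent.P147.Velocity
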