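import Mathlib
import Vale.Agent.P147.Velocity.Spread

/-!
P147: expected meetings of a window of a beam with a fixed set of sites.
-/

open scoped ENNReal

namespace Vale.Agent.P147.Velocity.Beam

variable {α : Type*} (B : Beam α)

lemma sum_map_le {γ : Type*} {l : List γ} {f g : γ → ℝ≥0∞} (h : ∀ x ∈ l, f x ≤ g x) :
    (l.map f).sum ≤ (l.map g).sum := by
  induction l with
  | nil => simp
  | cons x l ih =>
    simp only [List.map_cons, List.sum_cons]
    exact add_le_add (h x (by simp)) (ih fun y hy => h y (by simp [hy]))

lemma sum_map_const {γ : Type*} (l : List γ) (c : ℝ≥0∞) :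
    (l.map fun _ => c).sum = (l.length : ℝ≥0∞) * c := by
  induction l with
  | nil => simp
  | cons x l ih => simp [ih, add_mul, add_comm]

lemma avg_list_sum {γ : Type*} (n : ℕ) (l : List γ) (F : γ → List α → ℝ≥0∞) :
    B.avg n (fun L => (l.map fun x => F x L).sum) = (l.map fun x => B.avg n (F x)).sum := by
  induction l with
  | nil => simpa using avg_const_mul (w := B.w) n 0 fun _ => 1
  | cons x l ih => simp [avg, avg_fun_add, ← ih]

lemma cast_count (x : Pt) (l : List Pt) :
    ((l.count x : ℕ) : ℝ≥0∞) = (l.map fun y => if y = x then (1 : ℝ≥0∞) else 0).sum := by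
  induction l with
  | nil => simp
  | cons y l ih => by_cases h : y = x <;> simp [h, ih, add_comm]

lemma load_le_mass (a b : ℕ) (m : ℤ) : B.load a b m ≤ B.mass := by
  unfold load mass
  rw [← Summable.tsum_finsetSum fun _ _ => ENNReal.summable]
  refine ENNReal.tsum_le_tsum fun c => ?_
  rw [← Finset.mul_sum]
  refine mul_le_mul' le_rfl ?_
  induction B.sites c with
  | nil => simp
  | cons s l ih =>
    simp only [List.map_cons, List.sum_cons, List.length_cons, Nat.cast_add, Nat.cast_one,
      Finset.sum_add_distrib]
    rw [add_comm ((l.length : ℕ) : ℝ≥0∞) 1]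
    refine add_le_add (le_trans ?_ (B.sum_hit_le_one b (m - s.1))) ih
    refine (Finset.sum_le_sum_of_subset (fun j hj =>
      Finset.mem_range.2 (Finset.mem_Ico.1 hj).2)).trans (Finset.sum_le_sum fun j _ => ?_)
    exact iSup_le fun u => ENNReal.le_tsum u

lemma tsum_load_le {K : ℝ≥0∞} (hK : ∀ n, ∑' m : ℤ, B.hitSup n m ≤ K / ((n : ℝ≥0∞) + 1))
    (a b : ℕ) :
    ∑' m : ℤ, B.load a b m ≤
      B.mass * (K * ∑ j ∈ Finset.Ico a b, ((j : ℝ≥0∞) + 1)⁻¹) := by
  unfold load
  rw [Summable.tsum_finsetSum fun _ _ => ENNReal.summable, Finset.mul_sum, Finset.mul_sum]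
  refine Finset.sum_le_sum fun j _ => ?_
  rw [ENNReal.tsum_comm, mass, ← ENNReal.tsum_mul_right]
  refine ENNReal.tsum_le_tsum fun c => ?_
  rw [ENNReal.tsum_mul_left, mul_assoc]
  refine mul_le_mul' le_rfl ?_
  induction B.sites c with
  | nil => simp
  | cons s l ih =>
    simp only [List.map_cons, List.sum_cons, List.length_cons, Nat.cast_add, Nat.cast_one,
      ENNReal.tsum_add, add_mul, one_mul]
    rw [add_comm ((l.length : ℕ) * (K * _) : ℝ≥0∞)]
    refine add_le_add ?_ ih
    refine le_trans (le_of_eq ?_) ((hK j).trans_eq (div_eq_mul_inv _ _))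
    exact (Equiv.subRight s.1).tsum_eq fun m => B.hitSup j m

lemma window_snoc {a : ℕ} {L : List α} (h : a ≤ L.length) (c : α) :
    B.window a (L ++ [c]) = B.window a L ++ (B.sites c).map (B.total L + ·) := by
  unfold window
  rw [List.take_append_of_le_length h, List.drop_append_of_le_length h, trace_append,
    List.map_append, List.map_map]
  have e : B.total (L.take a) + B.total (L.drop a) = B.total L := by
    rw [← total_append, List.take_append_drop]
  simp [Function.comp_def, ← add_assoc, e]

lemma avg_window_count_le (a b : ℕ) (x o : Pt) :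
    B.avg b (fun L => ((((B.window a L).map (o + ·)).count x : ℕ) : ℝ≥0∞)) ≤
      B.load a b (x.1 - o.1) := by
  induction b with
  | zero => simp [avg, window]
  | succ b ih =>
    rcases le_or_gt a b with hab | hab
    swap
    · refine le_trans (le_of_eq ?_) zero_le
      refine (avg_congr_of_length (G := fun _ => (0 : ℝ≥0∞)) fun L hL => ?_).trans
        (avg_const B.sum_w _ _)
      simp [window, List.drop_eq_nil_of_le (show L.length ≤ a by omega)]
    · rw [avg, avg_snoc]
      calc Velocity.avg B.w b (fun L => ∑' c, B.w c *
            ((((B.window a (L ++ [c])).map (o + ·)).count x : ℕ) : ℝ≥0∞))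
          = Velocity.avg B.w b (fun L => ((((B.window a L).map (o + ·)).count x : ℕ) : ℝ≥0∞) +
              ∑' c, B.w c * ((B.sites c).map fun s =>
                if o + (B.total L + s) = x then (1 : ℝ≥0∞) else 0).sum) := by
            refine avg_congr_of_length fun L hL => ?_
            simp only [B.window_snoc (a := a) (L := L) (by omega), List.map_append,
              List.count_append, Nat.cast_add, mul_add, ENNReal.tsum_add, ENNReal.tsum_mul_right,
              B.sum_w, one_mul]
            congr 1
            refine tsum_congr fun c => congrArg _ ?_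
            rw [cast_count, List.map_map, List.map_map]
            rfl
        _ = Velocity.avg B.w b (fun L => ((((B.window a L).map (o + ·)).count x : ℕ) : ℝ≥0∞)) +
              ∑' c, B.w c * ((B.sites c).map fun s => B.hit b (x - o - s)).sum := by
            rw [avg_fun_add, avg_tsum]
            congr 1
            refine tsum_congr fun c => ?_
            rw [avg_const_mul]
            congr 1
            refine (B.avg_list_sum b (B.sites c) fun s L =>
              if o + (B.total L + s) = x then 1 else 0).trans ?_
            refine congrArg List.sum (List.map_congr_left fun s _ => avg_congr_of_length fun L _ => ?_)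
            refine if_congr ?_ rfl rfl
            constructor
            · intro h; rw [← h]; abel
            · intro h; rw [h]; abel
        _ ≤ B.load a b (x.1 - o.1) +
              ∑' c, B.w c * ((B.sites c).map fun s => B.hitSup b (x.1 - o.1 - s.1)).sum := by
            refine add_le_add ih (ENNReal.tsum_le_tsum fun c =>
              mul_le_mul' le_rfl (sum_map_le fun s _ => ?_))
            exact le_iSup (fun u : ℤ × ℤ => B.hit b (x.1 - o.1 - s.1, u)) (x - o - s).2
        _ = B.load a (b + 1) (x.1 - o.1) := by
            rw [load, load, Finset.sum_Ico_succ_top hab]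

/-- Expected meetings of a window with fixed sites. -/
lemma avg_window_meets_le (a b : ℕ) (P : List Pt) (o : Pt) :
    B.avg b (fun L => (meets P ((B.window a L).map (o + ·)) : ℝ≥0∞))
      ≤ (P.map fun x => B.load a b (x.1 - o.1)).sum := by
  refine le_trans (le_of_eq ?_) (sum_map_le fun x _ => B.avg_window_count_le a b x o)
  rw [← B.avg_list_sum]
  refine avg_congr_of_length fun L _ => ?_
  induction P with
  | nil => simp
  | cons x P ih => rw [meets_cons_left, Nat.cast_add, ih]; simp

lemma avg_trace_eq (n : ℕ) (F : ℤ → ℝ≥0∞) :
    B.avg n (fun L => ((B.trace L).map fun x => F x.1).sum) = ∑ j ∈ Finset.range n,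
      B.avg j (fun L => ∑' c, B.w c * ((B.sites c).map fun s => F ((B.total L).1 + s.1)).sum) := by
  induction n with
  | zero => simp [avg]
  | succ n ih =>
    rw [Finset.sum_range_succ, ← ih, avg, avg_snoc, ← avg_fun_add]
    refine avg_congr_of_length fun L _ => ?_
    simp only [trace_append, trace_cons, trace_nil, List.map_nil, List.append_nil, List.map_append,
      List.sum_append, List.map_map, Function.comp_def, Prod.fst_add, mul_add, ENNReal.tsum_add,
      ENNReal.tsum_mul_right, B.sum_w, one_mul]

/-- A beam puts at most `mass` sites on each level, on average. -/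
lemma avg_trace_le (n : ℕ) (F : ℤ → ℝ≥0∞) :
    B.avg n (fun L => ((B.trace L).map fun x => F x.1).sum) ≤ B.mass * ∑' m : ℤ, F m := by
  rw [avg_trace_eq]
  set G : ℤ → ℝ≥0∞ := fun z => ∑' c, B.w c * ((B.sites c).map fun s => F (z + s.1)).sum with hG
  calc ∑ j ∈ Finset.range n, B.avg j (fun L => G (B.total L).1)
      = ∑ j ∈ Finset.range n, ∑' m : ℤ, G m * ∑' u : ℤ × ℤ, B.hit j (m, u) :=
        Finset.sum_congr rfl fun j _ => B.avg_level j G
    _ = ∑' m : ℤ, G m * ∑ j ∈ Finset.range n, ∑' u : ℤ × ℤ, B.hit j (m, u) := by
        rw [← Summable.tsum_finsetSum fun _ _ => ENNReal.summable]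
        simp only [Finset.mul_sum]
    _ ≤ ∑' m : ℤ, G m := ENNReal.tsum_le_tsum fun m =>
        (mul_le_mul' le_rfl (B.sum_hit_le_one n m)).trans_eq (mul_one _)
    _ = B.mass * ∑' m : ℤ, F m := by
        rw [hG, ENNReal.tsum_comm, mass, ← ENNReal.tsum_mul_right]
        refine tsum_congr fun c => ?_
        rw [ENNReal.tsum_mul_left, mul_assoc]
        congr 1
        induction B.sites c with
        | nil => simp
        | cons s l ih =>
          simp only [List.map_cons, List.sum_cons, List.length_cons, Nat.cast_add, Nat.cast_one,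
            ENNReal.tsum_add, add_mul, one_mul, ih]
          rw [add_comm]
          congr 1
          exact (Equiv.addRight s.1).tsum_eq F

end Vale.Agent.P147.Velocity.Beam
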