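import Vale.Agent.P147.Velocity.Exit
import Vale.Agent.P147.Anisotropic

/-!
P147: with good escape tails, one nonzero velocity of positive chance has chance one and the
zero-one law holds in every direction.
-/

open MeasureTheory Filter
open scoped ENNReal Topology

namespace Vale.Agent.P147.Velocity

variable {d : ℕ}

lemma vel_theta (v : Fin d → ℝ) : theta ⁻¹' vel v = vel v := by
  ext X
  refine ⟨fun h i => ?_, fun h => ?_⟩
  · refine (tendsto_add_atTop_iff_nat 1).mp ?_
    have h2 := (h i).mul (tendsto_natCast_div_add_atTop (1 : ℝ))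
    rw [mul_one] at h2
    refine h2.congr' ?_
    filter_upwards [eventually_gt_atTop 0] with t ht
    have : (t : ℝ) ≠ 0 := by positivity
    simp only [theta]
    push_cast
    field_simp
  · have h2 := vel_shift h 1 0
    simp only [add_zero] at h2
    exact h2

lemma vel_translate (v : Fin d → ℝ) (z : Site d) :
    (fun (X : Path d) k => X k - z) ⁻¹' vel v = vel v := by
  ext X
  refine ⟨fun h => ?_, fun h => ?_⟩
  · simpa using vel_shift h 0 z
  · simpa [sub_eq_add_neg] using vel_shift h 0 (-z)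

lemma escape_translate (ℓ : Fin d → ℝ) (z : Site d) :
    (fun (X : Path d) k => X k - z) ⁻¹' escape ℓ = escape ℓ := by
  ext X
  have h : (fun n => ∑ i, ℓ i * ((X n - z) i : ℝ)) =
      fun n => ∑ i, ℓ i * (X n i : ℝ) + -∑ i, ℓ i * (z i : ℝ) := by
    funext n
    simp only [Pi.sub_apply, Int.cast_sub, mul_sub, Finset.sum_sub_distrib]
    ring
  simp only [escape, Set.mem_preimage, Set.mem_ofPred_eq, h]
  refine ⟨fun hX => ?_, fun hX => tendsto_atTop_add_const_right _ _ hX⟩
  have := tendsto_atTop_add_const_right _ (∑ i, ℓ i * (z i : ℝ)) hX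
  simpa using this

lemma vel_dot {v : Fin d → ℝ} {X : Path d} (h : X ∈ vel v) (ℓ : Fin d → ℝ) :
    Tendsto (fun t : ℕ => (∑ i, ℓ i * (X t i : ℝ)) / t) atTop (𝓝 (∑ i, ℓ i * v i)) := by
  have := tendsto_finsetSum (Finset.univ : Finset (Fin d)) fun i _ => (h i).const_mul (ℓ i)
  refine this.congr fun t => ?_
  simp [Finset.sum_div, mul_div_assoc]

variable [NeZero d] {μ : Measure (Step d → ℝ)} [IsProbabilityMeasure μ]

/-- An invariant event meeting the paths of a velocity holds with positive chance without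
backtracking. -/
lemma stayUp_pos (hrow : ∀ᵐ p ∂μ, GoodRow p) {a : Fin d → ℤ} {v : Fin d → ℝ}
    (hv : 0 < ∑ i, (a i : ℝ) * v i) {E : Set (Path d)} (hE : MeasurableSet E)
    (hshift : theta ⁻¹' E = E) (htr : ∀ z, (fun (X : Path d) k => X k - z) ⁻¹' E = E)
    (hP : annealed μ (vel v ∩ E) ≠ 0) : annealed μ (stayUp a ∩ E) ≠ 0 := by
  intro h0
  refine hP ?_
  have hB : MeasurableSet (stayUp a ∩ E) := (measurableSet_stayUp a).inter hE
  have hz : ∀ᵐ ω ∂iidLaw μ, ∀ z : Site d, law ω z (stayUp a ∩ E) = 0 := by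
    refine ae_all_iff.mpr fun z => ?_
    refine (lintegral_eq_zero_iff (measurable_law z hB)).mp ?_
    rw [lintegral_law_translate hrow hB (fun y => ?_) z, h0]
    rw [Set.preimage_inter, stayUp_translate, htr y]
  refine measure_mono_null (t := ⋃ n : ℕ, theta^[n] ⁻¹' (stayUp a ∩ E)) ?_
    (measure_iUnion_null fun n => ?_)
  · rintro X ⟨hX, hXE⟩
    obtain ⟨p, hp⟩ := Set.mem_iUnion.mp (vel_subset a hv hX)
    refine Set.mem_iUnion.mpr ⟨p.1, fun t => (hp.1 t).1, ?_⟩
    rw [← preimage_iterate_theta hshift p.1] at hXE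
    exact hXE
  rw [annealed_apply μ ((measurable_theta.iterate n) hB)]
  refine (lintegral_congr_ae ?_).trans lintegral_zero
  filter_upwards [hz, ae_forall_site μ hrow] with ω h1 hω
  suffices h : ∀ m z, law ω z (theta^[m] ⁻¹' (stayUp a ∩ E)) = 0 from h _ _
  intro m
  induction m with
  | zero => exact h1
  | succ m ih =>
    intro z
    rw [Function.iterate_succ, Set.preimage_comp, law_theta hω z ((measurable_theta.iterate m) hB)]
    exact Finset.sum_eq_zero fun e _ => by rw [ih, mul_zero]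

/-- One nonzero velocity of positive chance has chance one and forces the zero-one law in every
direction, given the escape tails. -/
theorem ballistic_zero_one (hrow : ∀ᵐ p ∂μ, GoodRow p) {κ : ℝ} (hκ : 0 < κ)
    (hell : ∀ᵐ p ∂μ, ∀ e, κ ≤ p e) {v : Fin d → ℝ} (hv : v ≠ 0)
    (hP : annealed μ (vel v) ≠ 0)
    (hT : ∀ a : Fin d → ℤ, (∀ i, |a i| ≤ 1) → 0 < ∑ i, (a i : ℝ) * v i → EscapeTail μ a) :
    annealed μ (vel v) = 1 ∧ ∀ ℓ : Fin d → ℝ, ∃ c : ℝ≥0∞, (c = 0 ∨ c = 1) ∧
      (0 < ∑ i, ℓ i * v i → c = 1) ∧ (∑ i, ℓ i * v i < 0 → c = 0) ∧ annealed μ (escape ℓ) = c ∧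
      ∀ᵐ ω ∂iidLaw μ, Good ω ∧ ∀ x, law ω x (escape ℓ) = c := by
  have ha := abs_signs_le v
  have hva := signs_dot_pos hv
  have hsup := ae_sup_signs hrow hκ hell hv hT
  have key : ∀ E : Set (Path d), MeasurableSet E → theta ⁻¹' E = E →
      (∀ z, (fun (X : Path d) k => X k - z) ⁻¹' E = E) → annealed μ (vel v ∩ E) ≠ 0 →
      annealed μ E = 1 := fun E hE hs htr hne =>
    invariant_trivial hrow ha hsup hE hs htr (stayUp_pos hrow hva hE hs htr hne)
  have hone : annealed μ (vel v) = 1 :=
    key _ (measurableSet_vel v) (vel_theta v) (vel_translate v) (by rwa [Set.inter_self])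
  refine ⟨hone, fun ℓ => ?_⟩
  have hA := measurableSet_escape (d := d) ℓ
  by_cases h0 : annealed μ (escape ℓ) = 0
  · refine ⟨0, Or.inl rfl, fun hpos => ?_, fun _ => rfl, h0,
      zero_one_projection_quenched μ hrow ℓ (Or.inl rfl) h0⟩
    have hsub : vel v ⊆ escape ℓ := fun X hX => by
      refine ((vel_dot hX ℓ).pos_mul_atTop hpos tendsto_natCast_atTop_atTop).congr' ?_
      filter_upwards [eventually_gt_atTop 0] with t ht
      have : (t : ℝ) ≠ 0 := by positivity
      field_simp
    have := measure_mono (μ := annealed μ) hsub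
    rw [hone, h0] at this
    exact absurd this (by simp)
  · have h1 : annealed μ (escape ℓ) = 1 := by
      refine key _ hA (theta_escape ℓ) (escape_translate ℓ) fun h => h0 ?_
      have hc : annealed μ (vel v)ᶜ = 0 :=
        (prob_compl_eq_zero_iff (measurableSet_vel v)).mpr hone
      refine measure_mono_null ?_ (measure_union_null h hc)
      intro X hX
      by_cases hXv : X ∈ vel v
      · exact Or.inl ⟨hXv, hX⟩
      · exact Or.inr hXv
    refine ⟨1, Or.inr rfl, fun _ => rfl, fun hneg => ?_, h1,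
      zero_one_projection_quenched μ hrow ℓ (Or.inr rfl) h1⟩
    refine absurd (measure_mono_null (t := (vel v)ᶜ) ?_
      ((prob_compl_eq_zero_iff (measurableSet_vel v)).mpr hone)) h0
    intro X hX hXv
    refine absurd (ge_of_tendsto (vel_dot hXv ℓ) ?_) (not_le.mpr hneg)
    filter_upwards [tendsto_atTop.mp hX 0] with t ht
    exact div_nonneg ht (Nat.cast_nonneg t)

end Vale.Agent.P147.Velocity
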