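import Vale.Agent.P147.Velocity.Record

/-!
P147: the events of a last minimum at each level are disjoint, so with good escape tails a
velocity forces the walk to reach every level in the direction of its signs.
-/

open MeasureTheory Filter
open scoped ENNReal Topology

namespace Vale.Agent.P147.Velocity

variable {d : ℕ}

lemma levOf_neg (a : Fin d → ℤ) (x : Site d) : levOf (-a) x = -levOf a x := by
  simp [levOf_apply, Finset.sum_neg_distrib]

lemma levOf_add (a a' : Fin d → ℤ) (x : Site d) :
    levOf (a + a') x = levOf a x + levOf a' x := by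
  simp [levOf_apply, add_mul, Finset.sum_add_distrib]

lemma levOf_single_eq (i : Fin d) (c : ℤ) (x : Site d) : levOf (Pi.single i c) x = c * x i := by
  rw [levOf_apply, Finset.sum_eq_single i]
  · simp
  · intro l _ hl; simp [hl]
  · simp

/-- The signs of a vector. -/
noncomputable def signs (v : Fin d → ℝ) : Fin d → ℤ :=
  fun i => if 0 < v i then 1 else if v i < 0 then -1 else 0

lemma abs_signs_le (v : Fin d → ℝ) (i : Fin d) : |signs v i| ≤ 1 := by
  simp only [signs]; split_ifs <;> simp

lemma signs_eq_zero {v : Fin d → ℝ} {i : Fin d} (h : v i = 0) : signs v i = 0 := by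
  simp [signs, h]

lemma signs_mul_pos {v : Fin d → ℝ} {i : Fin d} (h : v i ≠ 0) : 0 < (signs v i : ℝ) * v i := by
  rcases lt_or_gt_of_ne h with h' | h'
  · simp only [signs, if_neg h'.not_gt, if_pos h']; push_cast; linarith
  · simp only [signs, if_pos h']; simpa using h'

lemma signs_abs {v : Fin d → ℝ} {i : Fin d} (h : v i ≠ 0) : |signs v i| = 1 := by
  rcases lt_or_gt_of_ne h with h' | h'
  · simp [signs, if_neg h'.not_gt, if_pos h']
  · simp [signs, if_pos h']

lemma signs_dot_pos {v : Fin d → ℝ} (hv : v ≠ 0) : 0 < ∑ i, (signs v i : ℝ) * v i := by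
  obtain ⟨i, hi⟩ := Function.ne_iff.mp hv
  refine Finset.sum_pos' (fun l _ => ?_) ⟨i, Finset.mem_univ _, signs_mul_pos hi⟩
  by_cases h : v l = 0
  · simp [h]
  · exact (signs_mul_pos h).le

/-- The levels confining the walk from below. -/
noncomputable def side_levels (v : Fin d → ℝ) (j₀ : Fin d) (ι : Step d) : Fin d → ℤ :=
  if v ι.1 = 0 then Pi.single j₀ (signs v j₀) + Pi.single ι.1 (if ι.2 then 1 else -1)
  else Pi.single ι.1 (signs v ι.1)

lemma abs_side_levels {v : Fin d → ℝ} (j₀ : Fin d) (ι : Step d) (l : Fin d) :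
    |side_levels v j₀ ι l| ≤ 1 := by
  unfold side_levels
  split_ifs with h hb
  all_goals by_cases h1 : l = ι.1 <;> by_cases h2 : l = j₀ <;>
    simp_all [abs_signs_le, signs_eq_zero]

lemma side_levels_pos {v : Fin d → ℝ} {j₀ : Fin d} (hj : v j₀ ≠ 0) (ι : Step d) :
    0 < ∑ l, (side_levels v j₀ ι l : ℝ) * v l := by
  have hs : ∀ (i : Fin d) (c : ℤ),
      ∑ l, (((Pi.single i c : Fin d → ℤ) l : ℤ) : ℝ) * v l = (c : ℝ) * v i := by
    intro i c
    rw [Finset.sum_eq_single i]
    · simp
    · intro l _ hl; simp [hl]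
    · simp
  unfold side_levels
  by_cases h : v ι.1 = 0
  · simp only [h, if_true, Pi.add_apply, Int.cast_add, add_mul, Finset.sum_add_distrib, hs]
    simpa using signs_mul_pos hj
  · simp only [h, if_false, hs]
    exact signs_mul_pos h

/-- Between the side levels and the sign level a site is in a box. -/
lemma side_box {v : Fin d → ℝ} {j₀ : Fin d} {x : Site d} {m : ℕ}
    (h1 : ∀ ι, -(m : ℤ) < levOf (side_levels v j₀ ι) x) (h2 : levOf (signs v) x < m) (i : Fin d) :
    |x i| ≤ ((d + 2) * m : ℕ) := by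
  have hy : ∀ l, -(m : ℤ) ≤ signs v l * x l := by
    intro l
    by_cases h : v l = 0
    · simp [signs_eq_zero h]
    · have := h1 (l, true)
      simp only [side_levels, h, if_false, levOf_single_eq] at this
      omega
  have hsum : ∀ l, signs v l * x l ≤ (d * m : ℕ) + m := by
    intro l
    rw [levOf_apply, ← Finset.sum_erase_add _ _ (Finset.mem_univ l)] at h2
    have h3 : ∑ k ∈ Finset.univ.erase l, (-(m : ℤ)) ≤
        ∑ k ∈ Finset.univ.erase l, signs v k * x k := Finset.sum_le_sum fun k _ => hy k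
    simp only [Finset.sum_const, Finset.card_erase_of_mem (Finset.mem_univ l), Finset.card_univ,
      Fintype.card_fin, nsmul_eq_mul] at h3
    have h4 : ((d - 1 : ℕ) : ℤ) * (m : ℤ) ≤ ((d * m : ℕ) : ℤ) := by
      exact_mod_cast Nat.mul_le_mul_right m (Nat.sub_le d 1)
    nlinarith
  by_cases h : v i = 0
  · have e1 := h1 (i, true)
    have e2 := h1 (i, false)
    simp only [side_levels, h, if_true, levOf_add, levOf_single_eq, Bool.false_eq_true,
      if_false] at e1 e2
    have := hsum j₀
    rw [abs_le]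
    push_cast at this ⊢
    constructor <;> nlinarith
  · have := hy i
    have := hsum i
    have e : |x i| = |signs v i * x i| := by rw [abs_mul, signs_abs h, one_mul]
    rw [e, abs_le]
    push_cast at *
    constructor <;> nlinarith

variable [NeZero d] {μ : Measure (Step d → ℝ)} [IsProbabilityMeasure μ]

omit [NeZero d] in
lemma measurableSet_stayTo' (S : Finset (Site d)) (n : ℕ) :
    MeasurableSet {X : Path d | ∀ t ≤ n, X t ∈ S} := by
  have h : {X : Path d | ∀ t ≤ n, X t ∈ S} =
      ⋂ t ∈ Finset.range (n + 1), (fun X : Path d => X t) ⁻¹' (S : Set (Site d)) := by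
    ext X; simp
  rw [h]
  exact Finset.measurableSet_biInter _ fun t _ => measurable_pi_apply t MeasurableSet.of_discrete

/-- An elliptic walk leaves every finite set. -/
lemma annealed_leave (hrow : ∀ᵐ p ∂μ, GoodRow p) {κ : ℝ} (hκ : 0 < κ)
    (hell : ∀ᵐ p ∂μ, ∀ e, κ ≤ p e) (S : Finset (Site d)) :
    ∀ᵐ X ∂annealed μ, ∃ t, X t ∉ S := by
  have hall : MeasurableSet {X : Path d | ∀ t, X t ∈ S} := by
    have h : {X : Path d | ∀ t, X t ∈ S} = ⋂ n, {X : Path d | ∀ t ≤ n, X t ∈ S} := by
      ext X
      simp only [Set.mem_iInter, Set.mem_ofPred_eq]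
      exact ⟨fun h n t _ => h t, fun h t => h t t le_rfl⟩
    rw [h]
    exact MeasurableSet.iInter fun n => measurableSet_stayTo' S n
  rw [ae_iff]
  simp only [not_exists, not_not]
  rw [annealed_apply μ hall]
  refine (lintegral_congr_ae ?_).trans lintegral_zero
  filter_upwards [ae_forall_site μ hrow, ae_forall_site μ hell] with ω hω hωκ
  obtain ⟨L, hL⟩ : ∃ L : ℕ, ∀ x ∈ S, x + L • move ((0 : Fin d), true) ∉ S := by
    refine ⟨(S.sup fun x => (x 0).natAbs) * 2 + 1, fun x hx hx' => ?_⟩
    have h1 : (x 0).natAbs ≤ S.sup fun x => (x 0).natAbs :=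
      Finset.le_sup (f := fun x => (x 0).natAbs) hx
    have h2 := Finset.le_sup (f := fun x : Site d => (x 0).natAbs) hx'
    simp [move] at h2
    omega
  set e₀ : Step d := ((0 : Fin d), true)
  set Q : ℕ → Set (Path d) := fun n => {X | ∀ t ≤ n, X t ∈ S}
  set q : ℕ → Site d → ℝ := fun n x => pr ω x (Q n)
  have hanti : ∀ n k x, q (k + n) x ≤ q n x := fun n k x =>
    measureReal_mono (fun X h t ht => h t (by omega)) (measure_ne_top _ _)
  have step : ∀ (M : ℝ) (n : ℕ), (∀ y, q n y ≤ M) → 0 ≤ M →
      ∀ (j : ℕ) (x : Site d), x + j • move e₀ ∉ S → q (j + n) x ≤ (1 - κ ^ j) * M := by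
    intro M n hM hM0 j
    induction j with
    | zero =>
      intro x hx
      rw [zero_smul, add_zero] at hx
      simp only [pow_zero, sub_self, zero_mul, q, pr, measureReal_def]
      rw [← law_inter_start, show {X : Path d | X 0 = x} ∩ Q (0 + n) = ∅ from
        Set.eq_empty_iff_forall_notMem.mpr fun X h => hx (h.1 ▸ h.2 0 (Nat.zero_le _))]
      simp
    | succ j ih =>
      intro x hx
      have hle : q (j + 1 + n) x ≤ ∑ e, ω x e * q (j + n) (x + move e) := by
        refine le_trans (measureReal_mono (s₂ := theta ⁻¹' Q (j + n))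
          (fun X h t ht => h (t + 1) (by omega)) (measure_ne_top _ _)) (le_of_eq ?_)
        rw [measureReal_def, law_theta hω x (measurableSet_stayTo' S _),
          ENNReal.toReal_sum fun e _ => ENNReal.mul_ne_top ENNReal.ofReal_ne_top (measure_ne_top _ _)]
        refine Finset.sum_congr rfl fun e _ => ?_
        rw [ENNReal.toReal_mul, ENNReal.toReal_ofReal ((hω x).1 e).le]
        rfl
      refine hle.trans ?_
      have hx' : x + move e₀ + j • move e₀ ∉ S := by rwa [add_assoc, ← succ_nsmul']
      have hsum : ∑ e, ω x e * q (j + n) (x + move e) ≤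
          ∑ e, ω x e * M - ω x e₀ * (κ ^ j * M) := by
        rw [le_sub_iff_add_le, ← Finset.sum_erase_add _ _ (Finset.mem_univ e₀),
          ← Finset.sum_erase_add (f := fun e => ω x e * M) _ (Finset.mem_univ e₀), add_assoc]
        refine add_le_add (Finset.sum_le_sum fun e _ => mul_le_mul_of_nonneg_left
          ((hanti n j _).trans (hM _)) ((hω x).1 e).le) ?_
        have := mul_le_mul_of_nonneg_left (ih (x + move e₀) hx') ((hω x).1 e₀).le
        nlinarith
      refine hsum.trans ?_
      rw [← Finset.sum_mul, (hω x).2, one_mul, pow_succ']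
      have : κ * (κ ^ j * M) ≤ ω x e₀ * (κ ^ j * M) :=
        mul_le_mul_of_nonneg_right (hωκ x e₀) (by positivity)
      nlinarith
  have hκ1 : κ ≤ 1 := (hωκ 0 e₀).trans (by
    rw [← (hω 0).2]; exact Finset.single_le_sum (fun e _ => ((hω 0).1 e).le) (Finset.mem_univ e₀))
  have hr0 : 0 ≤ 1 - κ ^ L := sub_nonneg.mpr (pow_le_one₀ hκ.le hκ1)
  have hgeo : ∀ k x, q (k * L) x ≤ (1 - κ ^ L) ^ k := by
    intro k
    induction k with
    | zero => intro x; simpa [q] using pr_le_one ω x _
    | succ k ih =>
      intro x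
      by_cases hx : x ∈ S
      · have := step _ (k * L) ih (by positivity) L x (hL x hx)
        rw [pow_succ']
        rwa [show L + k * L = (k + 1) * L by ring] at this
      · have h0 : q ((k + 1) * L) x = 0 := by
          simp only [q, pr, measureReal_def]
          rw [← law_inter_start, show {X : Path d | X 0 = x} ∩ Q ((k + 1) * L) = ∅ from
            Set.eq_empty_iff_forall_notMem.mpr fun X h => hx (h.1 ▸ h.2 0 (Nat.zero_le _))]
          simp
        rw [h0]; positivity
  have hzero : pr ω 0 {X | ∀ t, X t ∈ S} ≤ 0 := by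
    refine ge_of_tendsto' (tendsto_pow_atTop_nhds_zero_of_lt_one hr0
      (sub_lt_self _ (by positivity))) fun k => le_trans ?_ (hgeo k 0)
    exact measureReal_mono (fun X h t _ => h t) (measure_ne_top _ _)
  exact (measureReal_eq_zero_iff (measure_ne_top _ _)).mp (le_antisymm hzero measureReal_nonneg)

/-- The paths whose lowest level is `-m`, attained for the last time at the first visit. -/
def lowest (a : Fin d → ℤ) (m : ℕ) : Set (Path d) :=
  ⋃ γ : {γ // FirstHit (levOf (-a)) m γ}, follow γ.1 ∩ theta^[γ.1.length] ⁻¹' stayUp a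

omit [NeZero d] in
lemma lowest_disjoint (a : Fin d → ℤ) : Pairwise fun m m' => Disjoint (lowest a m) (lowest a m') := by
  have key : ∀ m m' X, X ∈ lowest a m → X ∈ lowest a m' → m' ≤ m := by
    intro m m' X h h'
    obtain ⟨⟨γ, hγ⟩, hX, hup⟩ := Set.mem_iUnion.mp h
    obtain ⟨⟨π, hπ⟩, hXπ, -⟩ := Set.mem_iUnion.mp h'
    have eγ : X γ.length = disp γ := by
      simpa [follow] using hX γ.length le_rfl
    have eπ : X π.length = disp π := by
      simpa [follow] using hXπ π.length le_rfl
    by_cases hle : π.length ≤ γ.length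
    · rcases hle.eq_or_lt with e | hlt
      · have h3 := follow_eq_take hXπ hX hle
        rw [List.take_of_length_le e.ge] at h3
        subst h3
        have := hγ.1; rw [hπ.1] at this; omega
      · have h3 := hγ.2 _ hlt
        have h7 : X π.length = disp (γ.take π.length) := hX π.length hlt.le
        rw [← h7, eπ, hπ.1] at h3
        omega
    · rw [not_le] at hle
      have h4 := hup (π.length - γ.length)
      rw [theta_iterate] at h4
      simp only [Nat.sub_add_cancel hle.le, zero_add, eγ, eπ] at h4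
      have h5 := hγ.1
      have h6 := hπ.1
      rw [levOf_neg] at h5 h6
      rw [map_sub] at h4
      omega
  intro m m' hne
  exact Set.disjoint_left.mpr fun X h h' => hne (le_antisymm (key m' m X h' h) (key m m' X h h'))

/-- Exits through a side happen at a site where staying above is likely. -/
lemma lowest_ge (hrow : ∀ᵐ p ∂μ, GoodRow p) (a : Fin d → ℤ) (m : ℕ) (S : Finset (Site d))
    (θ : ℝ≥0∞) (hθ : θ ≠ ⊤) :
    θ * annealed μ (⋃ γ : {γ // FirstHit (levOf (-a)) m γ ∧ disp γ ∈ S}, follow γ.1) ≤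
      annealed μ (lowest a m) +
        θ * ((S.card : ℝ≥0∞) * iidLaw μ {ω | law ω 0 (stayUp a) ≤ θ}) := by
  classical
  have hU : MeasurableSet (⋃ γ : {γ // FirstHit (levOf (-a)) m γ ∧ disp γ ∈ S}, follow γ.1) :=
    MeasurableSet.iUnion fun γ => measurableSet_follow _
  have hlow : MeasurableSet (lowest a m) := MeasurableSet.iUnion fun γ =>
    (measurableSet_follow _).inter ((measurable_theta.iterate _) (measurableSet_stayUp a))
  set bad : Set (Env d) := ⋃ y ∈ S, {ω | law ω y (stayUp a) ≤ θ}
  have hbm : MeasurableSet bad := Finset.measurableSet_biUnion _ fun y _ =>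
    measurableSet_le (measurable_law y (measurableSet_stayUp a)) measurable_const
  have hbad : iidLaw μ bad ≤ (S.card : ℝ≥0∞) * iidLaw μ {ω | law ω 0 (stayUp a) ≤ θ} := by
    refine (measure_biUnion_finset_le _ _).trans
      ((Finset.sum_le_card_nsmul _ _ (iidLaw μ {ω | law ω 0 (stayUp a) ≤ θ}) fun y _ => ?_).trans
        (le_of_eq (by simp)))
    have hset : MeasurableSet {ω : Env d | law ω 0 (stayUp a) ≤ θ} :=
      measurableSet_le (measurable_law 0 (measurableSet_stayUp a)) measurable_const
    rw [← (measurePreserving_shift μ y).measure_preimage hset.nullMeasurableSet]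
    refine measure_mono_ae ((ae_forall_site μ hrow).mono fun ω hω h => ?_)
    have hm : Measurable fun (X : Path d) k => X k - y := measurable_pi_lambda _ fun k =>
      (measurable_of_countable fun z : Site d => z - y).comp (measurable_pi_apply k)
    show law (shift y ω) 0 (stayUp a) ≤ θ
    rw [law_shift hω, Measure.map_apply hm (measurableSet_stayUp a), stayUp_translate, zero_add]
    exact h
  calc θ * annealed μ (⋃ γ : {γ // FirstHit (levOf (-a)) m γ ∧ disp γ ∈ S}, follow γ.1)
      = ∫⁻ ω, θ * law ω 0 (⋃ γ : {γ // FirstHit (levOf (-a)) m γ ∧ disp γ ∈ S}, follow γ.1)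
          ∂iidLaw μ := by
        rw [annealed_apply μ hU, lintegral_const_mul _ (measurable_law 0 hU)]
    _ ≤ ∫⁻ ω, law ω 0 (lowest a m) + θ * bad.indicator (fun _ => 1) ω ∂iidLaw μ := by
        refine lintegral_mono_ae ((ae_forall_site μ hrow).mono fun ω hω => ?_)
        by_cases hb : ω ∈ bad
        · rw [Set.indicator_of_mem hb, mul_one]
          exact le_add_left ((mul_le_mul' le_rfl prob_le_one).trans_eq (mul_one θ))
        · rw [Set.indicator_of_notMem hb, mul_zero, add_zero]
          have hd : Pairwise (fun γ π : {γ // FirstHit (levOf (-a)) m γ ∧ disp γ ∈ S} =>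
              Disjoint (follow γ.1) (follow π.1)) := fun γ π hne => Set.disjoint_left.mpr
            fun X h1 h2 => hne (Subtype.ext (γ.2.1.eq_of_follow π.2.1 h1 h2))
          rw [measure_iUnion hd (fun γ => measurableSet_follow γ.1), ← ENNReal.tsum_mul_left]
          refine le_trans ?_ (measure_mono
            (s := ⋃ γ : {γ // FirstHit (levOf (-a)) m γ ∧ disp γ ∈ S},
              follow γ.1 ∩ theta^[γ.1.length] ⁻¹' stayUp a)
            (Set.iUnion_subset fun γ =>
              Set.subset_iUnion_of_subset ⟨γ.1, γ.2.1⟩ (subset_refl _)))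
          rw [measure_iUnion (fun γ π hne => (hd hne).mono Set.inter_subset_left
            Set.inter_subset_left) (fun γ => (measurableSet_follow γ.1).inter
              ((measurable_theta.iterate _) (measurableSet_stayUp a)))]
          refine ENNReal.tsum_le_tsum fun γ => ?_
          rw [law_follow_theta hω γ.1 (measurableSet_stayUp a), mul_comm θ]
          have hf : law ω 0 (follow γ.1) = qp ω 0 γ.1 := by
            simpa [follow] using law_follow hω γ.1 0
          rw [hf]
          refine mul_le_mul' le_rfl ?_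
          simp only [bad, Set.mem_iUnion, Set.mem_ofPred_eq, not_exists, not_le] at hb
          exact (hb _ γ.2.2).le
    _ = annealed μ (lowest a m) + θ * iidLaw μ bad := by
        rw [lintegral_add_left (measurable_law 0 hlow), ← annealed_apply μ hlow,
          lintegral_const_mul' _ _ hθ, lintegral_indicator_const hbm, one_mul]
    _ ≤ _ := by gcongr

/-- The walk reaches every level in the direction of the signs of a velocity. -/
theorem ae_sup_signs (hrow : ∀ᵐ p ∂μ, GoodRow p) {κ : ℝ} (hκ : 0 < κ)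
    (hell : ∀ᵐ p ∂μ, ∀ e, κ ≤ p e) {v : Fin d → ℝ} (hv : v ≠ 0)
    (hT : ∀ a : Fin d → ℤ, (∀ i, |a i| ≤ 1) → 0 < ∑ i, (a i : ℝ) * v i → EscapeTail μ a) :
    ∀ᵐ X ∂annealed μ, ∀ m : ℕ, ∃ t, (m : ℤ) ≤ levOf (signs v) (X t) := by
  classical
  obtain ⟨j₀, hj⟩ := Function.ne_iff.mp hv
  set aF := side_levels v j₀
  refine ae_all_iff.mpr fun M => ?_
  rw [ae_iff]
  simp only [not_exists, not_le]
  set Bd := {X : Path d | ∀ t, levOf (signs v) (X t) < (M : ℤ)}
  set box : ℕ → Finset (Site d) := fun m =>
    Fintype.piFinset fun _ : Fin d => Finset.Icc (-(((d + 2) * m + 1 : ℕ) : ℤ)) ((d + 2) * m + 1 : ℕ)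
  set θ : ℕ → ℝ≥0∞ := fun m => ENNReal.ofReal (Real.sqrt m)⁻¹
  have hexit : ∀ m, M ≤ m → annealed μ Bd ≤ ∑ ι, annealed μ
      (⋃ γ : {γ // FirstHit (levOf (-aF ι)) m γ ∧ disp γ ∈ box m}, follow γ.1) := by
    intro m hm
    refine le_trans ?_ (measure_iUnion_fintype_le _ _)
    refine measure_mono_ae ?_
    filter_upwards [annealed_steps μ, annealed_leave hrow hκ hell (box m)] with X hX hleave hXB
    have hex : ∃ t, ∃ ι, levOf (aF ι) (X t) ≤ -(m : ℤ) := by
      obtain ⟨t, ht⟩ := hleave
      refine ⟨t, ?_⟩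
      by_contra hne
      push Not at hne
      refine ht (Fintype.mem_piFinset.mpr fun i => ?_)
      have hmM : levOf (signs v) (X t) < m := lt_of_lt_of_le (hXB t) (by exact_mod_cast hm)
      have := abs_le.mp (side_box hne hmM i)
      simp only [Finset.mem_Icc]
      push_cast at this ⊢
      constructor <;> linarith
    obtain ⟨ι, hι⟩ := Nat.find_spec hex
    set t := Nat.find hex
    have habs : ∀ i, |(-aF ι) i| ≤ 1 := fun i => by simpa using abs_side_levels j₀ ι i
    obtain ⟨γ, hγ, hfol⟩ := exists_firstHit habs hX.1 hX.2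
      (m := m) ⟨t, by rw [levOf_neg]; linarith⟩
    refine Set.mem_iUnion.mpr ⟨ι, Set.mem_iUnion.mpr ⟨⟨γ, hγ, ?_⟩, hfol⟩⟩
    have hend : X γ.length = disp γ := by simpa [follow] using hfol γ.length le_rfl
    have hlen : γ.length ≤ t := by
      by_contra hlt
      rw [not_le] at hlt
      have := hγ.2 t hlt
      have h7 : X t = disp (γ.take t) := hfol t hlt.le
      rw [← h7, levOf_neg] at this
      omega
    rw [← hend]
    refine Fintype.mem_piFinset.mpr fun i => ?_
    rcases Nat.eq_zero_or_pos γ.length with h0 | h0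
    · rw [h0, hX.1, Finset.mem_Icc, Pi.zero_apply]
      exact ⟨neg_nonpos.mpr (Int.natCast_nonneg _), Int.natCast_nonneg _⟩
    · have hin : ∀ ι', -(m : ℤ) < levOf (aF ι') (X (γ.length - 1)) := fun ι' => by
        by_contra hle
        exact Nat.find_min hex (show γ.length - 1 < t by omega) ⟨ι', not_lt.mp hle⟩
      have hb := abs_le.mp (side_box hin
        (lt_of_lt_of_le (hXB _) (by exact_mod_cast hm)) i)
      obtain ⟨e, he⟩ := hX.2 (γ.length - 1)
      rw [Nat.sub_add_cancel h0] at he
      have h1 : |move e i| ≤ 1 := by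
        by_cases h : i = e.1
        · subst h
          simp only [move, Pi.single_eq_same]
          split_ifs <;> simp
        · simp [move, h]
      have h1' := abs_le.mp h1
      rw [he, Pi.add_apply, Finset.mem_Icc]
      push_cast at hb ⊢
      constructor <;> linarith
  set p := annealed μ Bd
  obtain ⟨m₁, hm₁⟩ : ∃ m₁ : ℕ, ∀ m, m₁ ≤ m → ∀ ι,
      iidLaw μ {ω | law ω 0 (stayUp (aF ι)) ≤ θ m} ≤ ((m : ℝ≥0∞) ^ (d + 2))⁻¹ :=
    eventually_atTop.mp (eventually_all.mpr fun ι =>
      hT (aF ι) (abs_side_levels j₀ ι) (side_levels_pos hj ι) (d + 2))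
  set m₀ := max (max M m₁) 1
  set D : ℝ≥0∞ := ((2 * (d + 3) + 1 : ℕ) : ℝ≥0∞) ^ d * Fintype.card (Step d)
  have hone : ∀ m, m₀ ≤ m → θ m * p ≤
      (∑ ι, annealed μ (lowest (aF ι) m)) + D * ((m : ℝ≥0∞) ^ 2)⁻¹ := by
    intro m hm
    have hm1 : 1 ≤ m := le_trans (le_max_right _ _) hm
    refine (mul_le_mul' le_rfl (hexit m (le_trans ((le_max_left _ _).trans (le_max_left _ _)) hm))).trans
      ?_
    rw [Finset.mul_sum]
    refine (Finset.sum_le_sum fun ι _ => lowest_ge hrow (aF ι) m (box m) (θ m)
      ENNReal.ofReal_ne_top).trans ?_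
    rw [Finset.sum_add_distrib]
    refine add_le_add le_rfl ?_
    refine (Finset.sum_le_card_nsmul _ _
      (((2 * (d + 3) + 1 : ℕ) : ℝ≥0∞) ^ d * ((m : ℝ≥0∞) ^ 2)⁻¹) fun ι _ => ?_).trans
      (le_of_eq (by simp [D, nsmul_eq_mul]; ring))
    refine (mul_le_mul' (ENNReal.ofReal_le_one.mpr (inv_le_one_of_one_le₀
      (Real.one_le_sqrt.mpr (by exact_mod_cast hm1)))) le_rfl).trans ?_
    rw [one_mul]
    refine (mul_le_mul' (Nat.cast_le.mpr (?_ : (box m).card ≤ ((2 * (d + 3) + 1) * m) ^ d))
      (hm₁ m (le_trans ((le_max_right _ _).trans (le_max_left _ _)) hm) ι)).trans ?_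
    · rw [Fintype.card_piFinset, Finset.prod_const, Finset.card_univ, Fintype.card_fin,
        Int.card_Icc]
      refine Nat.pow_le_pow_left ?_ d
      rw [Int.toNat_le]
      push_cast
      nlinarith
    · push_cast
      rw [mul_pow, pow_add, ENNReal.mul_inv (Or.inr (by simp)) (Or.inl (by simp)), mul_assoc,
        ← mul_assoc ((m : ℝ≥0∞) ^ d), ENNReal.mul_inv_cancel (by simp; omega) (by simp), one_mul]
  set Kc : ℝ≥0∞ := (Fintype.card (Step d) : ℝ≥0∞) + D * 2
  have hK : Kc ≠ ⊤ := ENNReal.add_ne_top.mpr ⟨ENNReal.natCast_ne_top _, ENNReal.mul_ne_top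
    (ENNReal.mul_ne_top (ENNReal.pow_ne_top (ENNReal.natCast_ne_top _))
      (ENNReal.natCast_ne_top _)) ENNReal.ofNat_ne_top⟩
  have hsum : ∀ N, ∑ m ∈ Finset.Ico m₀ N, θ m * p ≤ Kc := by
    intro N
    refine (Finset.sum_le_sum fun m hm => hone m (Finset.mem_Ico.mp hm).1).trans ?_
    rw [Finset.sum_add_distrib, Finset.sum_comm, ← Finset.mul_sum]
    refine add_le_add ?_ (mul_le_mul' le_rfl ?_)
    · refine (Finset.sum_le_card_nsmul _ _ 1 fun ι _ => ?_).trans (by simp)
      refine le_trans ?_ (prob_le_one (μ := annealed μ) (s := ⋃ m, lowest (aF ι) m))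
      rw [measure_iUnion (lowest_disjoint (aF ι)) fun m => MeasurableSet.iUnion fun γ =>
        (measurableSet_follow _).inter ((measurable_theta.iterate _) (measurableSet_stayUp _))]
      exact ENNReal.sum_le_tsum _
    · have htwo : ∀ N : ℕ, ∑ m ∈ Finset.Ico m₀ N, (((m : ℝ) ^ 2)⁻¹) ≤ 2 := by
        intro N
        refine le_trans (Finset.sum_le_sum_of_subset_of_nonneg (t := Finset.Ioc 0 N) ?_ fun _ _ _ => by
          positivity) ?_
        · intro m hm
          have := (Finset.mem_Ico.mp hm)
          have : 1 ≤ m₀ := le_max_right _ _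
          simp only [Finset.mem_Ioc]; omega
        · refine (sum_Ioo_inv_sq_le (α := ℝ) 0 (N + 1)).trans' (le_of_eq ?_) |>.trans (by norm_num)
          exact Finset.sum_congr (by ext; simp [Finset.mem_Ioc, Finset.mem_Ioo]) fun _ _ => rfl
      refine le_trans (le_of_eq ?_) (ENNReal.ofReal_le_ofReal (htwo N) |>.trans (by simp))
      rw [ENNReal.ofReal_sum_of_nonneg fun m _ => by positivity]
      refine Finset.sum_congr rfl fun m hm => ?_
      have hm0 : 0 < m := lt_of_lt_of_le (le_max_right (max M m₁) 1) (Finset.mem_Ico.mp hm).1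
      rw [ENNReal.ofReal_inv_of_pos (by positivity), ENNReal.ofReal_pow (Nat.cast_nonneg m),
        ENNReal.ofReal_natCast]
  by_contra hp
  have hpr : 0 < p.toReal := ENNReal.toReal_pos hp (measure_ne_top _ _)
  have hbnd : ∀ N, ∑ m ∈ Finset.Ico m₀ N, (1 / (m : ℝ)) ≤ Kc.toReal / p.toReal := by
    intro N
    rw [le_div_iff₀ hpr, Finset.sum_mul]
    have := ENNReal.toReal_mono hK (hsum N)
    rw [ENNReal.toReal_sum fun m _ => ENNReal.mul_ne_top ENNReal.ofReal_ne_top (measure_ne_top _ _)]
      at this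
    refine le_trans (Finset.sum_le_sum fun m hm => ?_) this
    rw [ENNReal.toReal_mul, ENNReal.toReal_ofReal (by positivity), one_div]
    refine mul_le_mul_of_nonneg_right ?_ hpr.le
    have hm0 : (1 : ℝ) ≤ m := by
      exact_mod_cast (le_trans (le_max_right (max M m₁) 1) (Finset.mem_Ico.mp hm).1)
    refine inv_anti₀ (by positivity) ?_
    rw [Real.sqrt_le_left (by positivity)]
    nlinarith
  refine Real.not_summable_one_div_natCast (summable_of_sum_range_le
    (c := ∑ m ∈ Finset.range m₀, 1 / (m : ℝ) + Kc.toReal / p.toReal)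
    (fun m => by positivity) fun N => ?_)
  refine le_trans (Finset.sum_le_sum_of_subset_of_nonneg (t := Finset.range m₀ ∪ Finset.Ico m₀ N)
    (fun m hm => by simp at hm ⊢; omega) fun _ _ _ => by positivity) ?_
  rw [Finset.sum_union (Finset.disjoint_left.mpr fun m h1 h2 => by simp at h1 h2; omega)]
  exact add_le_add le_rfl (hbnd N)

end Vale.Agent.P147.Velocity
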