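import Mathlib
import Vale.Agent.P147.Velocity.Climbers

/-!
P147: finite families of climbing words: words none of which extends another weigh at most their
common prefix.
-/

open MeasureTheory Filter
open scoped ENNReal

namespace Vale.Agent.P147.Velocity

variable {d : ℕ}

open scoped Classical in
/-- All words of length at most `L`. -/
noncomputable def wordsUpTo (L : ℕ) : Finset (List (Step d)) :=
  (Finset.range (L + 1)).biUnion fun k => (Finset.univ : Finset (Fin k → Step d)).image List.ofFn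

lemma mem_wordsUpTo {L : ℕ} {γ : List (Step d)} : γ ∈ wordsUpTo L ↔ γ.length ≤ L := by
  classical
  simp only [wordsUpTo, Finset.mem_biUnion, Finset.mem_range, Finset.mem_image, Finset.mem_univ,
    true_and]
  constructor
  · rintro ⟨k, hk, f, rfl⟩; simpa [Nat.lt_succ_iff] using hk
  · intro h; exact ⟨γ.length, by omega, γ.get, List.ofFn_get γ⟩

open scoped Classical in
/-- The climbing words which reach level `N` for the first time at their end. -/
noncomputable def reachers (lev : Site d →+ ℤ) (C p N : ℕ) : Finset (List (Step d)) :=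
  (wordsUpTo (C * (N + 1) ^ p)).filter fun γ =>
    IsReach lev γ ∧ lev (disp γ) = N ∧ ClimbWord lev C p γ

lemma mem_reachers {lev : Site d →+ ℤ} {C p N : ℕ} {γ : List (Step d)} :
    γ ∈ reachers lev C p N ↔ IsReach lev γ ∧ lev (disp γ) = N ∧ ClimbWord lev C p γ := by
  classical
  simp only [reachers, Finset.mem_filter, mem_wordsUpTo, and_iff_right_iff_imp]
  intro h
  have h2 := (h.2.2 γ.length le_rfl).2
  rw [List.take_length, h.2.1] at h2
  exact_mod_cast h2

lemma qp_ne_top (ω : Env d) (γ : List (Step d)) : ∀ z, qp ω z γ ≠ ⊤ := by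
  induction γ with
  | nil => intro z; simp [qp]
  | cons e γ ih => intro z; exact ENNReal.mul_ne_top ENNReal.ofReal_ne_top (ih _)

variable [NeZero d]

/-- Words none of which extends another one, all extending `π`, weigh at most `π`. -/
lemma sum_qp_le {ω : Env d} (hω : Good ω) (z : Site d) (π : List (Step d))
    (s : Finset (List (Step d))) (hpre : ∀ γ ∈ s, π <+: γ)
    (hfree : ∀ γ ∈ s, ∀ δ ∈ s, γ <+: δ → γ = δ) :
    ∑ γ ∈ s, qp ω z γ ≤ qp ω z π := by
  classical
  simp only [← law_follow hω _ z]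
  rw [← measure_biUnion_finset ?_ fun γ _ => measurableSet_cyl _ _]
  · refine measure_mono (Set.iUnion₂_subset fun γ hγ => fun X hX k hk => ?_)
    obtain ⟨ρ, rfl⟩ := hpre γ hγ
    rw [hX k (by simp; omega)]
    simp only [List.take_append_of_le_length hk]
  intro γ hγ δ hδ hne
  rw [Function.onFun, Set.disjoint_left]
  intro X hX hX'
  have hm : ∀ (p : List (Step d)) {Y : Path d}, Y ∈ cyl p.length (fun k => z + disp (p.take k)) →
      (fun k => Y k - z) ∈ follow p := fun p Y hY k hk => by
    change Y k - z = disp (p.take k)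
    rw [hY k hk]; simp
  rcases le_total γ.length δ.length with hle | hle
  · exact hne (hfree γ hγ δ hδ (by
      rw [follow_eq_take (hm γ hX) (hm δ hX') hle]; exact List.take_prefix _ _))
  · exact hne (hfree δ hδ γ hγ (by
      rw [follow_eq_take (hm δ hX') (hm γ hX) hle]; exact List.take_prefix _ _)).symm

lemma reachers_free {lev : Site d →+ ℤ} {C p N : ℕ} {γ δ : List (Step d)}
    (hγ : γ ∈ reachers lev C p N) (hδ : δ ∈ reachers lev C p N) (h : γ <+: δ) : γ = δ := by
  obtain ⟨-, hγN, -⟩ := mem_reachers.1 hγ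
  obtain ⟨hδr, hδN, -⟩ := mem_reachers.1 hδ
  obtain ⟨ρ, rfl⟩ := h
  rcases eq_or_ne ρ [] with rfl | hρ
  · simp
  · have h1 := (hδr γ.length (by simp [List.length_pos_iff.2 hρ])).2
    rw [List.take_left' rfl] at h1
    omega

/-- Consecutive `q`-th powers differ by at most `q (n + 1) ^ (q - 1)`. -/
lemma succ_pow_sub_le (n : ℕ) :
    ∀ q : ℕ, ((n : ℝ) + 1) ^ q - (n : ℝ) ^ q ≤ q * ((n : ℝ) + 1) ^ (q - 1)
  | 0 => by simp
  | 1 => by simp
  | q + 2 => by
    have h := succ_pow_sub_le n (q + 1)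
    simp only [show q + 2 - 1 = q + 1 by omega, show q + 1 - 1 = q by omega] at h ⊢
    have h2 : (n : ℝ) ^ (q + 1) ≤ ((n : ℝ) + 1) ^ (q + 1) :=
      pow_le_pow_left₀ (Nat.cast_nonneg n) (by linarith) _
    calc ((n : ℝ) + 1) ^ (q + 2) - (n : ℝ) ^ (q + 2)
        = ((n : ℝ) + 1) * (((n : ℝ) + 1) ^ (q + 1) - (n : ℝ) ^ (q + 1)) + (n : ℝ) ^ (q + 1) := by
          ring
      _ ≤ ((n : ℝ) + 1) * (((q + 1 : ℕ) : ℝ) * ((n : ℝ) + 1) ^ q) + ((n : ℝ) + 1) ^ (q + 1) :=
          add_le_add (mul_le_mul_of_nonneg_left h (by positivity)) h2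
      _ = _ := by push_cast; ring

lemma exp_half_le {y : ℝ} (h0 : 0 ≤ y) (h1 : y ≤ 1) : Real.exp (y / 2) ≤ 1 + y := by
  have h2 := Real.exp_bound_div_one_sub_of_interval (show 0 ≤ y / 2 by linarith) (by linarith)
  refine h2.trans ?_
  rw [div_le_iff₀ (by linarith)]
  nlinarith

end Vale.Agent.P147.Velocity
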