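import Vale.Agent.P147.Velocity.Speed

/-!
P147: never falling below the start in the level given by `a`, and the tail of its quenched chance.
-/

open MeasureTheory Filter
open scoped ENNReal

namespace Vale.Agent.P147.Velocity

variable {d : ℕ}

/-- Paths which never fall below the level of their start. -/
def stayUp (a : Fin d → ℤ) : Set (Path d) := {X | ∀ t, 0 ≤ levOf a (X t - X 0)}

lemma measurableSet_stayUp (a : Fin d → ℤ) : MeasurableSet (stayUp a) := by
  have h : stayUp a = ⋂ t : ℕ, (fun X : Path d => (X t, X 0)) ⁻¹'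
      {p | 0 ≤ levOf a (p.1 - p.2)} := by ext X; simp [stayUp]
  rw [h]
  exact MeasurableSet.iInter fun t =>
    ((measurable_pi_apply t).prodMk (measurable_pi_apply 0)) MeasurableSet.of_discrete

/-- The quenched chance never to fall below the start is at most `m ^ (-1/2)` only with
probability decaying faster than every power of `m`. -/
def EscapeTail [NeZero d] (μ : Measure (Step d → ℝ)) (a : Fin d → ℤ) : Prop :=
  ∀ A : ℕ, ∀ᶠ m : ℕ in atTop,
    iidLaw μ {ω | law ω 0 (stayUp a) ≤ ENNReal.ofReal (Real.sqrt m)⁻¹} ≤ ((m : ℝ≥0∞) ^ A)⁻¹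

end Vale.Agent.P147.Velocity
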