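import Vale.Agent.P147.Velocity.Speed
import Vale.Agent.P147.Velocity.BeamDefs

/-!
P147: up blocks to level `h`, down blocks back to level zero and up blocks until above `h` form one
up block; its weight is at least `κ` to the number of revisits times the product of the weights.
-/

open MeasureTheory Filter
open scoped ENNReal

namespace Vale.Agent.P147.Velocity

section stop

variable {α : Type*}

/-- Keep the blocks until their total height exceeds `h`. -/
def stop (f : α → ℕ) : ℕ → List α → List α
  | _, [] => []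
  | h, b :: Z => if h < f b then [b] else b :: stop f (h - f b) Z

lemma stop_prefix (f : α → ℕ) : ∀ (h : ℕ) (Z : List α), stop f h Z <+: Z
  | h, [] => by simp [stop]
  | h, b :: Z => by
    unfold stop
    split_ifs
    · exact ⟨Z, rfl⟩
    · exact List.cons_prefix_cons.mpr ⟨rfl, stop_prefix f _ Z⟩

lemma stop_spec (f : α → ℕ) : ∀ (h : ℕ) (Z : List α), h < (Z.map f).sum →
    ∃ P b, stop f h Z = P ++ [b] ∧ (P.map f).sum ≤ h ∧ h < ((P ++ [b]).map f).sum
  | h, [], hh => by simp at hh
  | h, c :: Z, hh => by
    by_cases hc : h < f c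
    · exact ⟨[], c, by simp [stop, hc], by simp, by simpa using hc⟩
    · obtain ⟨P, b, e, h1, h2⟩ := stop_spec f (h - f c) Z (by simp at hh; omega)
      exact ⟨c :: P, b, by simp [stop, hc, e], by simp; omega, by simp at h2 ⊢; omega⟩

variable {w : α → ℝ≥0∞}

lemma tsum_cons_le (G : List α → ℝ≥0∞) : ∑' a, ∑' L, G (a :: L) ≤ ∑' L, G L := by
  rw [← ENNReal.tsum_prod]
  exact ENNReal.tsum_comp_le_tsum_of_injective (f := fun p : α × List α => p.1 :: p.2)
    (fun p q h => by simp only [List.cons.injEq] at h; exact Prod.ext h.1 h.2) G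

/-- Summing over stopped lists dominates averaging over long lists. -/
lemma avg_stop_le (hw : ∑' a, w a = 1) (f : α → ℕ) (N : ℕ) : ∀ (h : ℕ) (G : List α → ℝ≥0∞),
    avg w N (fun Z => G (stop f h Z)) ≤ ∑' P, lw w P * G P := by
  induction N with
  | zero =>
    intro h G
    simpa [stop, lw] using ENNReal.le_tsum (f := fun P => lw w P * G P) ([] : List α)
  | succ N ih =>
    intro h G
    refine le_trans (ENNReal.tsum_le_tsum fun a => ?_) (tsum_cons_le fun P => lw w P * G P)
    simp only [lw, List.map_cons, List.prod_cons, mul_assoc, ENNReal.tsum_mul_left]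
    refine mul_le_mul' le_rfl ?_
    by_cases ha : h < f a
    · simp only [stop, ha, if_true, avg_const hw]
      simpa using ENNReal.le_tsum (f := fun P => (P.map w).prod * G (a :: P)) ([] : List α)
    · simp only [stop, ha, if_false]
      exact ih (h - f a) fun P => G (a :: P)

end stop

variable {d : ℕ}

lemma hgt_cast {lev : Site d →+ ℤ} (b : Blk lev) : (hgt b : ℤ) = lev (disp b.1) := by
  have := b.2.2.1.nonneg
  simp only [hgt]; omega

/-- The blocks as a beam, seen through a projection whose first coordinate is the level. -/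
noncomputable def blkBeam (μ : Measure (Step d → ℝ)) {lev : Site d →+ ℤ} (φ : Site d →+ Pt)
    (hφ : ∀ x, (φ x).1 = lev x) (hw : ∑' b, bw lev μ b = 1) : Beam (Blk lev) where
  w := bw lev μ
  sum_w := hw
  disp b := φ (disp b.1)
  sites b := (visits 0 b.1).map φ
  one_le b := by
    have := b.2.2.1.pos b.2.1
    rw [hφ]; omega
  range b x hx := by
    obtain ⟨y, hy, rfl⟩ := List.mem_map.mp hx
    obtain ⟨k, hk, rfl⟩ := mem_visits.mp hy
    have := b.2.2.1 k hk
    rw [hφ, hφ, zero_add]
    omega

variable {μ : Measure (Step d → ℝ)} {lev : Site d →+ ℤ} {φ : Site d →+ Pt}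
  {hφ : ∀ x, (φ x).1 = lev x} {hw : ∑' b, bw lev μ b = 1}

lemma blkBeam_total (L : List (Blk lev)) :
    (blkBeam μ φ hφ hw).total L = φ (disp (flat lev L)) := by
  induction L with
  | nil => simp
  | cons b L ih =>
    rw [Beam.total_cons, ih, flat_cons, disp_append, map_add]
    rfl

lemma blkBeam_trace (L : List (Blk lev)) :
    (blkBeam μ φ hφ hw).trace L = (visits 0 (flat lev L)).map φ := by
  induction L with
  | nil => simp [visits]
  | cons b L ih =>
    have h2 := visits_translate (flat lev L) 0 (disp b.1)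
    rw [zero_add] at h2
    rw [Beam.trace_cons, ih, flat_cons, visits_append, zero_add, h2]
    simp [blkBeam, List.map_map, Function.comp_def, map_add, add_comm]

lemma blkBeam_mass : (blkBeam μ φ hφ hw).mass = ∑' b, bw lev μ b * (b.1.length : ℝ≥0∞) := by
  simp [Beam.mass, blkBeam, length_visits]

lemma countP_le_meets {β : Type*} [DecidableEq β] (f : β → Pt) (A S : List β) :
    A.countP (· ∈ S) ≤ meets (A.map f) (S.map f) := by
  induction A with
  | nil => simp
  | cons x A ih =>
    rw [List.map_cons, meets_cons_left, List.countP_cons]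
    split_ifs with hx
    · have : 0 < (S.map f).count (f x) :=
        List.count_pos_iff.mpr (List.mem_map.mpr ⟨x, by simpa using hx, rfl⟩)
      omega
    · omega

variable {lev' : Site d →+ ℤ}

/-- The word of the three lists. -/
def word (U : List (Blk lev)) (V : List (Blk lev')) (Z : List (Blk lev)) : List (Step d) :=
  flat lev U ++ flat lev' V ++ flat lev Z

/-- The revisit count of the three lists, computed in the projection. -/
noncomputable def overlap (P : Beam (Blk lev)) (M : Beam (Blk lev')) (U : List (Blk lev))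
    (V : List (Blk lev')) (Z : List (Blk lev)) : ℕ :=
  meets (P.rev.trace U.reverse) (M.trace V) + meets (P.trace Z) (M.rev.trace V.reverse) +
    meets (P.trace U) ((P.trace Z).map (P.total U - M.total V + ·))

lemma overlap_mono (P : Beam (Blk lev)) (M : Beam (Blk lev')) (U : List (Blk lev))
    (V : List (Blk lev')) {Z Z' : List (Blk lev)} (h : Z <+: Z') :
    overlap P M U V Z ≤ overlap P M U V Z' := by
  obtain ⟨R, rfl⟩ := h
  simp only [overlap, Beam.trace_append, List.map_append, meets_append_left, meets_append_right]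
  omega

variable [NeZero d] [IsProbabilityMeasure μ] {φ' : Site d →+ Pt}
  {hφ' : ∀ x, (φ' x).1 = lev' x} {hw' : ∑' b, bw lev' μ b = 1}

omit [NeZero d] in
lemma pow_mul_lw_le_wt (hrow : ∀ᵐ p ∂μ, GoodRow p) {κ : ℝ} (hκ1 : κ ≤ 1)
    (hell : ∀ᵐ p ∂μ, ∀ e, κ ≤ p e) (hopp : ∀ x, φ' x = -φ x)
    (U : List (Blk lev)) (V : List (Blk lev')) (Z : List (Blk lev)) :
    ENNReal.ofReal κ ^ overlap (blkBeam μ φ hφ hw) (blkBeam μ φ' hφ' hw') U V Z *
      (lw (bw lev μ) U * lw (bw lev' μ) V * lw (bw lev μ) Z) ≤ wt μ (word U V Z) := by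
  classical
  set γ := flat lev U with hγ
  set π := flat lev' V with hπ
  set ζ := flat lev Z with hζ
  have h1 := wt_append_ge μ hrow hell γ π
  have h2 := wt_append_ge μ hrow hell (γ ++ π) ζ
  rw [← wt_flat, ← wt_flat, ← wt_flat]
  set n1 := (visits (disp γ) π).countP (· ∈ visits 0 γ)
  set n2 := (visits (disp (γ ++ π)) ζ).countP (· ∈ visits 0 (γ ++ π))
  have hle : n1 + n2 ≤ overlap (blkBeam μ φ hφ hw) (blkBeam μ φ' hφ' hw') U V Z := by
    have e1 := countP_le_meets φ (visits (disp γ) π) (visits 0 γ)
    have e2 := countP_le_meets φ (visits (disp (γ ++ π)) ζ) (visits 0 (γ ++ π))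
    have hv : ∀ (z : Site d) (δ : List (Step d)),
        (visits z δ).map φ = (visits 0 δ).map fun x => φ x + φ z := by
      intro z δ
      have h3 := visits_translate δ 0 z
      rw [zero_add] at h3
      rw [h3, List.map_map]
      simp [Function.comp_def, map_add]
    have a1 : meets ((visits (disp γ) π).map φ) ((visits 0 γ).map φ) =
        meets ((blkBeam μ φ hφ hw).rev.trace U.reverse)
          ((blkBeam μ φ' hφ' hw').trace V) := by
      rw [meets_perm_left ((blkBeam μ φ hφ hw).rev_trace_reverse U), blkBeam_trace, blkBeam_trace,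
        blkBeam_total, ← hγ, ← hπ, meets_comm,
        ← meets_map (f := fun p : Pt => φ (disp γ) - p) (fun _ _ h => sub_right_injective h),
        List.map_map, hv, List.map_map]
      congr 2
      funext x
      simp [hopp]
    have a2 : meets ((visits (disp (γ ++ π)) ζ).map φ) ((visits (disp γ) π).map φ) =
        meets ((blkBeam μ φ hφ hw).trace Z) ((blkBeam μ φ' hφ' hw').rev.trace V.reverse) := by
      rw [meets_perm_right _ ((blkBeam μ φ' hφ' hw').rev_trace_reverse V), blkBeam_trace,
        blkBeam_trace, blkBeam_total, ← hζ, ← hπ,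
        ← meets_map (f := fun p : Pt => p + φ (disp (γ ++ π))) (fun _ _ h => add_left_injective _ h)
          ((visits 0 ζ).map φ), List.map_map, List.map_map, List.map_map, hv, hv (disp γ)]
      congr 2
      funext x
      simp only [Function.comp_apply, hopp, disp_append, map_add]
      abel
    have a3 : meets ((visits (disp (γ ++ π)) ζ).map φ) ((visits 0 γ).map φ) =
        meets ((blkBeam μ φ hφ hw).trace U) (((blkBeam μ φ hφ hw).trace Z).map
          ((blkBeam μ φ hφ hw).total U - (blkBeam μ φ' hφ' hw').total V + ·)) := by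
      rw [blkBeam_trace, blkBeam_trace, blkBeam_total, blkBeam_total, ← hγ, ← hπ, ← hζ, meets_comm,
        hv (disp (γ ++ π)) ζ, List.map_map]
      congr 2
      funext x
      simp only [Function.comp_apply, hopp, disp_append, map_add]
      abel
    have e4 : meets ((visits (disp (γ ++ π)) ζ).map φ) ((visits 0 (γ ++ π)).map φ) =
        meets ((visits (disp (γ ++ π)) ζ).map φ) ((visits 0 γ).map φ) +
          meets ((visits (disp (γ ++ π)) ζ).map φ) ((visits (disp γ) π).map φ) := by
      rw [visits_append γ π 0, zero_add, List.map_append, meets_append_right]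
    simp only [overlap, ← a1, ← a2, ← a3]
    omega
  refine le_trans ?_ h2
  refine (mul_le_mul' (pow_le_pow_right_of_le_one' (ENNReal.ofReal_le_one.mpr hκ1) hle) le_rfl).trans
    ?_
  rw [pow_add, mul_comm (_ ^ n1), mul_assoc]
  refine mul_le_mul' le_rfl ?_
  rw [← mul_assoc]
  exact mul_le_mul' h1 le_rfl

/-- The three lists are admissible: `U` starts with `a₀`, `V` comes back to the start level and
`Z` is stopped when it first exceeds the level reached by `U`. -/
def Admissible (a₀ : Blk lev) (n : ℕ) (U : List (Blk lev)) (V : List (Blk lev'))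
    (Z : List (Blk lev)) : Prop :=
  U.head? = some a₀ ∧ U.length = n + 1 ∧ (V.map hgt).sum = (U.map hgt).sum ∧
    ∃ P b, Z = P ++ [b] ∧ (P.map hgt).sum ≤ (U.map hgt).sum ∧
      (U.map hgt).sum < ((P ++ [b]).map hgt).sum

variable {a₀ : Blk lev} {e₀ : Step d} {n : ℕ} {U : List (Blk lev)} {V : List (Blk lev')}
  {Z : List (Blk lev)}

omit [NeZero d] [IsProbabilityMeasure μ] in
lemma admissible_levels (hopp : ∀ x, lev' x = -lev x) (ha : a₀.1 = [e₀]) (he : lev (move e₀) = 1)
    (h : Admissible a₀ n U V Z) :
    let p := (flat lev U).length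
    let q := (flat lev' V).length
    let H : ℤ := ((U.map hgt).sum : ℕ)
    0 < p ∧ 0 < q ∧ 1 ≤ H ∧ (∀ t, 0 < t → t < p + q → 0 < lev (disp ((word U V Z).take t))) ∧
      lev (disp ((word U V Z).take p)) = H ∧ lev (disp ((word U V Z).take (p + q))) = 0 ∧
      (∀ t < p, lev (disp ((word U V Z).take t)) < H) ∧
      (∀ t, p ≤ t → t ≤ p + q → lev (disp ((word U V Z).take t)) ≤ H) ∧
      ∀ s, lev (disp ((word U V Z).take (p + q + s))) = lev (disp ((flat lev Z).take s)) := by
  obtain ⟨hU, hlen, hV, -⟩ := h
  intro p q H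
  obtain ⟨U', rfl⟩ : ∃ U', U = a₀ :: U' := by
    cases U with
    | nil => simp at hU
    | cons c U' => simp at hU; exact ⟨U', by rw [hU]⟩
  have hHU : lev (disp (flat lev (a₀ :: U'))) = H := hgt_flat _
  have hHV : lev (disp (flat lev' V)) = -H := by
    have h' := hgt_flat (lev := lev') V
    rw [hopp, hV] at h'
    linarith
  have hU1 : H = 1 + lev (disp (flat lev U')) := by
    rw [← hHU]; simp [ha, he]
  have hU'0 := (isReach_flat (lev := lev) U').nonneg
  have hp : 0 < p := by simp [p, ha]
  have hq : 0 < q := by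
    refine List.length_pos_iff.mpr fun e => ?_
    rw [e] at hHV; simp at hHV; omega
  have hA : ∀ t ≤ p, (word (a₀ :: U') V Z).take t = (flat lev (a₀ :: U')).take t := fun t ht => by
    rw [word, List.append_assoc, List.take_append_of_le_length ht]
  have hB : ∀ s ≤ q, lev (disp ((word (a₀ :: U') V Z).take (p + s))) =
      H - lev' (disp ((flat lev' V).take s)) := fun s hs => by
    rw [word, List.append_assoc, List.take_append, List.take_of_length_le (Nat.le_add_right _ _),
      Nat.add_sub_cancel_left, List.take_append_of_le_length hs, disp_append, map_add, hHU, hopp]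
    ring
  have hC : ∀ s, lev (disp ((word (a₀ :: U') V Z).take (p + q + s))) =
      lev (disp ((flat lev Z).take s)) := fun s => by
    have hl : (flat lev (a₀ :: U') ++ flat lev' V).length = p + q := by simp [p, q, add_assoc]
    rw [word, List.take_append, List.take_of_length_le (by omega), ← hl, Nat.add_sub_cancel_left,
      disp_append, disp_append, map_add, map_add, hHU, hHV]
    ring
  have hrU := isReach_flat (lev := lev) (a₀ :: U')
  have hrV := isReach_flat (lev := lev') V
  have hVend : lev' (disp (flat lev' V)) = H := by rw [hopp, hHV, neg_neg]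
  refine ⟨hp, hq, by omega, fun t ht0 ht => ?_, ?_, ?_, fun t ht => ?_, fun t ht0 ht => ?_, hC⟩
  · by_cases htp : t ≤ p
    · rw [hA t htp]
      obtain ⟨s, rfl⟩ : ∃ s, t = s + 1 := ⟨t - 1, by omega⟩
      have h3 := ((isReach_flat (lev := lev) U').le s).1
      simp [ha, he]
      omega
    · obtain ⟨s, rfl⟩ : ∃ s, t = p + s := ⟨t - p, by omega⟩
      have hs : s < q := by omega
      rw [hB s hs.le]
      have := (hrV s hs).2
      omega
  · rw [hA p le_rfl, List.take_length, hHU]
  · rw [hB q le_rfl, List.take_length, hVend, sub_self]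
  · rw [hA t ht.le, ← hHU]
    exact (hrU t ht).2
  · obtain ⟨s, rfl⟩ : ∃ s, t = p + s := ⟨t - p, by omega⟩
    rw [hB s (by omega)]
    have := (hrV.le s).1
    omega

omit [NeZero d] [IsProbabilityMeasure μ] in
lemma isBlock_word (hopp : ∀ x, lev' x = -lev x) (ha : a₀.1 = [e₀]) (he : lev (move e₀) = 1)
    (h : Admissible a₀ n U V Z) :
    IsBlock lev (word U V Z) ∧ (n : ℤ) < lev (disp (word U V Z)) := by
  obtain ⟨hp, hq, hH, hpos, hatp, hatq, hlt, hle, hC⟩ := admissible_levels hopp ha he h
  obtain ⟨-, hlen, -, P, b, rfl, hP, hPb⟩ := h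
  set p := (flat lev U).length
  set q := (flat lev' V).length
  set γ := word U V (P ++ [b])
  have hγl : γ.length = p + q + (flat lev (P ++ [b])).length := by
    simp [γ, word, p, q, add_assoc]
  have hend : lev (disp γ) = (((P ++ [b]).map hgt).sum : ℕ) := by
    rw [← hgt_flat, ← List.take_length (l := γ), hγl, hC, List.take_length]
  have hn : (n : ℤ) < ((U.map hgt).sum : ℕ) := by
    have h3 := List.card_nsmul_le_sum (U.map hgt) 1 fun y hy => by
      obtain ⟨z, _, rfl⟩ := List.mem_map.mp hy; exact one_le_hgt z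
    simp [hlen] at h3
    omega
  have hreach : IsReach lev γ := by
    intro t ht
    rcases Nat.lt_or_ge t (p + q) with h1 | h1
    · refine ⟨?_, ?_⟩
      · rcases Nat.eq_zero_or_pos t with rfl | h0
        · simp
        · exact (hpos t h0 h1).le
      · rcases Nat.lt_or_ge t p with h2 | h2
        · have := hlt t h2; rw [hend]; omega
        · have := hle t h2 h1.le; rw [hend]; omega
    · obtain ⟨s, rfl⟩ := Nat.le.dest h1
      rw [hC, hend, ← hgt_flat]
      exact isReach_flat _ s (by omega)
  refine ⟨⟨?_, hreach, fun k hk0 hk hkt hkd => ?_⟩, by rw [hend]; omega⟩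
  · intro e; rw [e] at hγl; simp at hγl; omega
  · have hrec : ∀ t < k, lev (disp (γ.take t)) < lev (disp (γ.take k)) := by
      intro t ht
      have h3 := (hkt t (by simp; omega)).2
      rwa [List.take_take, min_eq_left ht.le] at h3
    have hdip : ∀ t, k ≤ t → t < γ.length → lev (disp (γ.take k)) ≤ lev (disp (γ.take t)) := by
      intro t ht ht'
      have h3 := (hkd (t - k) (by simp; omega)).1
      have e : γ.take t = γ.take k ++ (γ.drop k).take (t - k) := by
        conv_lhs => rw [show t = k + (t - k) by omega, List.take_add]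
      rw [e, disp_append, map_add]
      omega
    rcases Nat.lt_or_ge k (p + q) with h1 | h1
    · have hZl : 0 < (flat lev (P ++ [b])).length := by
        have := b.2.1
        simp [flat_append, List.length_pos_iff, this]
      have := hdip (p + q) h1.le (by omega)
      have := hpos k hk0 h1
      omega
    · obtain ⟨s, rfl⟩ := Nat.le.dest h1
      have hs : ((U.map hgt).sum : ℤ) < lev (disp ((flat lev (P ++ [b])).take s)) := by
        have h3 := hrec p (by omega)
        rw [hatp, hC] at h3
        exact_mod_cast h3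
      set ζ := flat lev (P ++ [b]) with hζ
      have r1 : IsReach lev (ζ.take s) := by
        intro t ht
        simp only [List.length_take] at ht
        rw [List.take_take, min_eq_left (by omega)]
        refine ⟨((isReach_flat _).le t).1, ?_⟩
        have h3 := hrec (p + q + t) (by omega)
        rwa [hC, hC] at h3
      have r2 : IsReach lev (ζ.drop s) := by
        have e : γ.drop (p + q + s) = ζ.drop s := by
          rw [show γ = flat lev U ++ flat lev' V ++ ζ from rfl, List.drop_append,
            List.drop_eq_nil_of_le (by simp [p, q]), List.nil_append,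
            show (flat lev U ++ flat lev' V).length = p + q by simp [p, q],
            Nat.add_sub_cancel_left]
        rwa [e] at hkd
      obtain ⟨L1, hL1⟩ := exists_flat r1
      obtain ⟨L2, hL2⟩ := exists_flat r2
      have hsplit : L1 ++ L2 = P ++ [b] :=
        flat_injective (by rw [flat_append, hL1, hL2, List.take_append_drop])
      have hs1 : lev (disp (ζ.take s)) = ((L1.map hgt).sum : ℕ) := by rw [← hL1, hgt_flat]
      rcases eq_or_ne L2 [] with hnil | hne
      · subst hnil
        rw [flat_nil] at hL2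
        have := congrArg List.length hL2
        simp at this
        omega
      · obtain ⟨L2', c, rfl⟩ := List.eq_nil_or_concat L2 |>.resolve_left hne
        simp only [List.concat_eq_append, ← List.append_assoc] at hsplit
        obtain ⟨e3, -⟩ := List.append_inj' hsplit rfl
        have : (L1.map hgt).sum ≤ (P.map hgt).sum := by rw [← e3]; simp
        omega

omit [NeZero d] [IsProbabilityMeasure μ] in
lemma word_injective (hopp : ∀ x, lev' x = -lev x) (ha : a₀.1 = [e₀]) (he : lev (move e₀) = 1)
    {U₁ U₂ : List (Blk lev)} {V₁ V₂ : List (Blk lev')} {Z₁ Z₂ : List (Blk lev)}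
    (h₁ : Admissible a₀ n U₁ V₁ Z₁) (h₂ : Admissible a₀ n U₂ V₂ Z₂)
    (h : word U₁ V₁ Z₁ = word U₂ V₂ Z₂) : U₁ = U₂ ∧ V₁ = V₂ ∧ Z₁ = Z₂ := by
  obtain ⟨hp, hq, -, hpos, hatp, hatq, hlt, hle, -⟩ := admissible_levels hopp ha he h₁
  obtain ⟨hp', hq', -, hpos', hatp', hatq', hlt', hle', -⟩ := admissible_levels hopp ha he h₂
  rw [h] at hpos hatp hatq hlt hle
  set p := (flat lev U₁).length with hpd
  set p' := (flat lev U₂).length with hpd'
  set q := (flat lev' V₁).length with hqd
  set q' := (flat lev' V₂).length with hqd'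
  have hs : p + q = p' + q' := by
    rcases lt_trichotomy (p + q) (p' + q') with hc | hc | hc
    · have := hpos' (p + q) (by omega) hc; omega
    · exact hc
    · have := hpos (p' + q') (by omega) hc; omega
  have hpp : p = p' := by
    rcases lt_trichotomy p p' with hc | hc | hc
    · have := hlt' p hc; have := hle p' hc.le (by omega); omega
    · exact hc
    · have := hlt p' hc; have := hle' p hc.le (by omega); omega
  simp only [word, List.append_assoc] at h
  obtain ⟨e1, h'⟩ := List.append_inj h hpp
  obtain ⟨e2, e3⟩ := List.append_inj h' (by omega)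
  exact ⟨flat_injective e1, flat_injective e2, flat_injective e3⟩

omit [NeZero d] in
/-- Three beams with few revisits give a high block. -/
theorem glue_le (hrow : ∀ᵐ p ∂μ, GoodRow p) {κ : ℝ} (hκ1 : κ ≤ 1)
    (hell : ∀ᵐ p ∂μ, ∀ e, κ ≤ p e) (hoppL : ∀ x, lev' x = -lev x) (hopp : ∀ x, φ' x = -φ x)
    (ha : a₀.1 = [e₀]) (he : lev (move e₀) = 1) (n M T K : ℕ) :
    ENNReal.ofReal κ ^ T *
      avg (bw lev μ) (n + 1) (fun U => ∑ k ∈ Finset.range K, avg (bw lev' μ) k fun V =>
        avg (bw lev μ) (M + 1) fun Z =>
          if U.head? = some a₀ ∧ (U.map hgt).sum ≤ M ∧ (V.map hgt).sum = (U.map hgt).sum ∧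
            overlap (blkBeam μ φ hφ hw) (blkBeam μ φ' hφ' hw') U V Z ≤ T then 1 else 0)
      ≤ ∑' b : Blk lev, if n < hgt b then bw lev μ b else 0 := by
  classical
  set κ' := ENNReal.ofReal κ
  set G : List (Blk lev) → List (Blk lev') → List (Blk lev) → ℝ≥0∞ := fun U V P =>
    if Admissible a₀ n U V P ∧
      overlap (blkBeam μ φ hφ hw) (blkBeam μ φ' hφ' hw') U V P ≤ T then 1 else 0 with hG
  have h1 : ∀ U : List (Blk lev), U.length = n + 1 → ∀ V : List (Blk lev'),
      avg (bw lev μ) (M + 1) (fun Z => if U.head? = some a₀ ∧ (U.map hgt).sum ≤ M ∧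
          (V.map hgt).sum = (U.map hgt).sum ∧
          overlap (blkBeam μ φ hφ hw) (blkBeam μ φ' hφ' hw') U V Z ≤ T then 1 else 0)
        ≤ ∑' P, lw (bw lev μ) P * G U V P := by
    intro U hUl V
    refine le_trans (avg_mono_of_length fun Z hZ => ?_)
      (avg_stop_le hw hgt (M + 1) (U.map hgt).sum (G U V))
    split_ifs with hc
    · obtain ⟨c1, c2, c3, c4⟩ := hc
      have hZs : (U.map hgt).sum < (Z.map hgt).sum := by
        have h3 := List.card_nsmul_le_sum (Z.map hgt) 1 fun y hy => by
          obtain ⟨z, _, rfl⟩ := List.mem_map.mp hy; exact one_le_hgt z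
        simp [hZ] at h3
        omega
      obtain ⟨P, b, e, h4, h5⟩ := stop_spec hgt _ Z hZs
      rw [hG]
      refine le_of_eq (if_pos ⟨⟨c1, hUl, c3, P, b, e, h4, h5⟩, le_trans ?_ c4⟩).symm
      exact overlap_mono _ _ _ _ (stop_prefix hgt _ Z)
    · exact zero_le
  have h2 : avg (bw lev μ) (n + 1) (fun U => ∑ k ∈ Finset.range K, avg (bw lev' μ) k fun V =>
        avg (bw lev μ) (M + 1) fun Z =>
          if U.head? = some a₀ ∧ (U.map hgt).sum ≤ M ∧ (V.map hgt).sum = (U.map hgt).sum ∧
            overlap (blkBeam μ φ hφ hw) (blkBeam μ φ' hφ' hw') U V Z ≤ T then 1 else 0)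
      ≤ ∑' t : List (Blk lev) × List (Blk lev') × List (Blk lev),
          lw (bw lev μ) t.1 * (lw (bw lev' μ) t.2.1 * (lw (bw lev μ) t.2.2 * G t.1 t.2.1 t.2.2)) := by
    refine (avg_mono_of_length fun U hU => ?_).trans (?_ : avg (bw lev μ) (n + 1) (fun U =>
      ∑' V, lw (bw lev' μ) V * ∑' P, lw (bw lev μ) P * G U V P) ≤ _)
    · refine le_trans (Finset.sum_le_sum fun k _ => avg_mono fun V => h1 U hU V) ?_
      simp only [avg_eq_tsum]
      refine le_trans (ENNReal.sum_le_tsum _) (le_of_eq ?_)
      rw [← (Equiv.sigmaFiberEquiv (List.length (α := Blk lev'))).tsum_eq, ENNReal.tsum_sigma']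
      exact tsum_congr fun k => tsum_congr fun V => rfl
    · rw [avg_eq_tsum, ENNReal.tsum_prod']
      simp only [ENNReal.tsum_prod', ENNReal.tsum_mul_left]
      exact ENNReal.tsum_comp_le_tsum_of_injective
        (f := fun U : {L : List (Blk lev) // L.length = n + 1} => U.1) Subtype.val_injective
        (fun U => lw (bw lev μ) U * ∑' V, lw (bw lev' μ) V * ∑' P, lw (bw lev μ) P * G U V P)
  refine (mul_le_mul' le_rfl h2).trans ?_
  rw [← ENNReal.tsum_mul_left]
  let A := {t : List (Blk lev) × List (Blk lev') × List (Blk lev) //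
    Admissible a₀ n t.1 t.2.1 t.2.2}
  let g : A → Blk lev := fun t => ⟨word t.1.1 t.1.2.1 t.1.2.2, (isBlock_word hoppL ha he t.2).1⟩
  have hg : Function.Injective g := by
    intro t s hts
    obtain ⟨e1, e2, e3⟩ := word_injective hoppL ha he t.2 s.2 (congrArg Subtype.val hts)
    exact Subtype.ext (Prod.ext e1 (Prod.ext e2 e3))
  refine le_trans (le_of_eq ?_) ((ENNReal.tsum_le_tsum (f := fun t : A => κ' ^ T *
    (lw (bw lev μ) t.1.1 * (lw (bw lev' μ) t.1.2.1 * (lw (bw lev μ) t.1.2.2 *
      G t.1.1 t.1.2.1 t.1.2.2)))) fun t => ?_).trans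
    (ENNReal.tsum_comp_le_tsum_of_injective hg fun b => if n < hgt b then bw lev μ b else 0))
  · refine (tsum_subtype_eq_of_support_subset fun t ht => ?_).symm
    by_contra hna
    refine ht ?_
    show κ' ^ T * _ = 0
    simp only [hG]
    rw [if_neg fun h => hna h.1]
    simp
  · have hb := (isBlock_word hoppL ha he t.2).2
    have hn : n < hgt (g t) := by
      have := hgt_cast (g t); simp only [g] at this ⊢; omega
    rw [if_pos hn]
    simp only [hG]
    split_ifs with hc
    · rw [mul_one, ← mul_assoc (lw (bw lev μ) t.1.1)]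
      refine le_trans ?_ (pow_mul_lw_le_wt (hφ := hφ) (hw := hw) (hφ' := hφ') (hw' := hw') hrow hκ1
        hell hopp t.1.1 t.1.2.1 t.1.2.2)
      exact mul_le_mul' (pow_le_pow_right_of_le_one' (ENNReal.ofReal_le_one.mpr hκ1) hc.2) le_rfl
    · simp

end Vale.Agent.P147.Velocity
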