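import Mathlib

/-!
P147: averages over lists of independent letters with weights `w`, and beams, that is sequences of
independent blocks in `ℤ × ℤ²` (level, two lateral coordinates), each carrying a list of sites.
-/

open scoped ENNReal

namespace Vale.Agent.P147.Velocity

/-- Level and two lateral coordinates. -/
abbrev Pt := ℤ × ℤ × ℤ

section avg

variable {α β : Type*}

/-- The weight of a list. -/
noncomputable def lw (w : α → ℝ≥0∞) (L : List α) : ℝ≥0∞ := (L.map w).prod

/-- The average of `F` over lists of `n` independent letters. -/
noncomputable def avg (w : α → ℝ≥0∞) : ℕ → (List α → ℝ≥0∞) → ℝ≥0∞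
  | 0, F => F []
  | n + 1, F => ∑' a, w a * avg w n (fun L => F (a :: L))

variable {w : α → ℝ≥0∞}

@[simp] lemma avg_zero (F : List α → ℝ≥0∞) : avg w 0 F = F [] := rfl

lemma avg_succ (n : ℕ) (F : List α → ℝ≥0∞) :
    avg w (n + 1) F = ∑' a, w a * avg w n (fun L => F (a :: L)) := rfl

lemma avg_mono_of_length {n : ℕ} :
    ∀ {F G : List α → ℝ≥0∞}, (∀ L, L.length = n → F L ≤ G L) → avg w n F ≤ avg w n G := by
  induction n with
  | zero => intro F G h; exact h [] rfl
  | succ n ih =>
    intro F G h
    exact ENNReal.tsum_le_tsum fun a => mul_le_mul' le_rfl (ih fun L hL => h _ (by simp [hL]))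

lemma avg_mono {n : ℕ} {F G : List α → ℝ≥0∞} (h : ∀ L, F L ≤ G L) : avg w n F ≤ avg w n G :=
  avg_mono_of_length fun L _ => h L

lemma avg_congr_of_length {n : ℕ} {F G : List α → ℝ≥0∞}
    (h : ∀ L, L.length = n → F L = G L) : avg w n F = avg w n G :=
  le_antisymm (avg_mono_of_length fun L hL => (h L hL).le)
    (avg_mono_of_length fun L hL => (h L hL).ge)

lemma avg_fun_add (n : ℕ) : ∀ F G : List α → ℝ≥0∞,
    avg w n (fun L => F L + G L) = avg w n F + avg w n G := by
  induction n with
  | zero => intro F G; rfl
  | succ n ih =>
    intro F G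
    simp only [avg_succ, ih, mul_add, ENNReal.tsum_add]

lemma avg_const_mul (n : ℕ) (c : ℝ≥0∞) : ∀ F : List α → ℝ≥0∞,
    avg w n (fun L => c * F L) = c * avg w n F := by
  induction n with
  | zero => intro F; rfl
  | succ n ih =>
    intro F
    simp only [avg_succ, ih, ← ENNReal.tsum_mul_left, mul_left_comm c]

lemma avg_mul_const (n : ℕ) (c : ℝ≥0∞) (F : List α → ℝ≥0∞) :
    avg w n (fun L => F L * c) = avg w n F * c := by
  simp only [mul_comm _ c, avg_const_mul]

lemma avg_tsum {ι : Type*} (n : ℕ) : ∀ F : ι → List α → ℝ≥0∞,
    avg w n (fun L => ∑' i, F i L) = ∑' i, avg w n (F i) := by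
  induction n with
  | zero => intro F; rfl
  | succ n ih =>
    intro F
    simp only [avg_succ, ih, ← ENNReal.tsum_mul_left]
    exact ENNReal.tsum_comm

lemma avg_sum {ι : Type*} (n : ℕ) (s : Finset ι) (F : ι → List α → ℝ≥0∞) :
    avg w n (fun L => ∑ i ∈ s, F i L) = ∑ i ∈ s, avg w n (F i) := by
  classical
  induction s using Finset.induction_on with
  | empty => simpa using avg_const_mul (w := w) n 0 (fun _ => 1)
  | insert i s hi ih => simp only [Finset.sum_insert hi, avg_fun_add, ih]

lemma avg_const (hw : ∑' a, w a = 1) (n : ℕ) : ∀ c : ℝ≥0∞, avg w n (fun _ => c) = c := by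
  induction n with
  | zero => intro c; rfl
  | succ n ih =>
    intro c
    simp only [avg_succ, ih, ENNReal.tsum_mul_right, hw, one_mul]

lemma avg_le_const (hw : ∑' a, w a = 1) {n : ℕ} {F : List α → ℝ≥0∞} {c : ℝ≥0∞}
    (h : ∀ L, L.length = n → F L ≤ c) : avg w n F ≤ c :=
  (avg_mono_of_length h).trans (avg_const hw n c).le

lemma avg_append (a b : ℕ) : ∀ F : List α → ℝ≥0∞,
    avg w (a + b) F = avg w a (fun L => avg w b (fun M => F (L ++ M))) := by
  induction a with
  | zero => intro F; simp
  | succ a ih =>
    intro F
    simp only [Nat.add_right_comm a 1 b, avg_succ, ih, List.cons_append]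

lemma avg_take (hw : ∑' a, w a = 1) {j n : ℕ} (h : j ≤ n) (F : List α → ℝ≥0∞) :
    avg w n (fun L => F (L.take j)) = avg w j F := by
  obtain ⟨k, rfl⟩ := Nat.le.dest h
  rw [avg_append]
  refine avg_congr_of_length fun L hL => ?_
  calc avg w k (fun M => F ((L ++ M).take j)) = avg w k (fun _ => F L) :=
        avg_congr_of_length fun M _ => by rw [List.take_left' hL]
    _ = F L := avg_const hw _ _

lemma avg_comm {v : β → ℝ≥0∞} (n m : ℕ) : ∀ F : List α → List β → ℝ≥0∞,
    avg w n (fun L => avg v m (fun M => F L M))
      = avg v m (fun M => avg w n (fun L => F L M)) := by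
  induction n with
  | zero => intro F; rfl
  | succ n ih =>
    intro F
    simp only [avg_succ, ih, avg_tsum, avg_const_mul]

lemma avg_snoc (n : ℕ) : ∀ F : List α → ℝ≥0∞,
    avg w (n + 1) F = avg w n (fun L => ∑' a, w a * F (L ++ [a])) := by
  intro F
  rw [avg_append]
  simp [avg_succ]

lemma avg_reverse (n : ℕ) : ∀ F : List α → ℝ≥0∞,
    avg w n (fun L => F L.reverse) = avg w n F := by
  induction n with
  | zero => intro F; rfl
  | succ n ih =>
    intro F
    rw [avg_snoc n F, avg_succ]
    simp only [avg_tsum, avg_const_mul, List.reverse_cons]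
    exact tsum_congr fun a => congrArg _ (ih fun L => F (L ++ [a]))

lemma avg_eq_tsum (n : ℕ) : ∀ F : List α → ℝ≥0∞,
    avg w n F = ∑' L : {L : List α // L.length = n}, lw w L.1 * F L.1 := by
  induction n with
  | zero =>
    intro F
    rw [tsum_eq_single (⟨[], rfl⟩ : {L : List α // L.length = 0})
      fun L hL => absurd (Subtype.ext (List.length_eq_zero_iff.mp L.2)) hL]
    simp [lw]
  | succ n ih =>
    intro F
    simp only [avg_succ, ih, ← ENNReal.tsum_mul_left]
    rw [← ENNReal.tsum_prod]
    let e : α × {L : List α // L.length = n} ≃ {L : List α // L.length = n + 1} :=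
      { toFun := fun p => ⟨p.1 :: p.2.1, by simp [p.2.2]⟩
        invFun := fun L => (L.1.head (List.ne_nil_of_length_eq_add_one L.2),
          ⟨L.1.tail, by simp [L.2]⟩)
        left_inv := fun p => rfl
        right_inv := fun L => Subtype.ext (List.cons_head_tail _) }
    rw [← e.tsum_eq]
    refine tsum_congr fun p => ?_
    show w p.1 * (lw w p.2.1 * F (p.1 :: p.2.1)) = lw w (p.1 :: p.2.1) * F (p.1 :: p.2.1)
    simp [lw, mul_assoc]

end avg

/-- Independent blocks moving upwards, each with a displacement and a list of sites. -/
structure Beam (α : Type*) where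
  /-- the weight of a block -/
  w : α → ℝ≥0∞
  sum_w : ∑' a, w a = 1
  /-- the displacement over a block -/
  disp : α → Pt
  /-- the sites of a block, relative to its start -/
  sites : α → List Pt
  one_le : ∀ a, 1 ≤ (disp a).1
  range : ∀ a, ∀ x ∈ sites a, 0 ≤ x.1 ∧ x.1 ≤ (disp a).1

namespace Beam

variable {α β : Type*} (B : Beam α)

/-- The average over `n` independent blocks. -/
noncomputable abbrev avg (n : ℕ) (F : List α → ℝ≥0∞) : ℝ≥0∞ := Velocity.avg B.w n F

/-- The displacement over a list of blocks. -/
def total (L : List α) : Pt := (L.map B.disp).sum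

/-- The sites of consecutive blocks started at the origin. -/
def trace : List α → List Pt
  | [] => []
  | a :: L => B.sites a ++ (trace L).map (B.disp a + ·)

/-- The expected number of sites of a block. -/
noncomputable def mass : ℝ≥0∞ := ∑' a, B.w a * ((B.sites a).length : ℝ≥0∞)

/-- The beam read backwards from its end. -/
def rev : Beam α where
  w := B.w
  sum_w := B.sum_w
  disp := B.disp
  sites a := (B.sites a).map (B.disp a - ·)
  one_le := B.one_le
  range a x hx := by
    obtain ⟨y, hy, rfl⟩ := List.mem_map.mp hx
    obtain ⟨h0, h1⟩ := B.range a y hy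
    constructor <;> simp only [Prod.fst_sub] <;> linarith

lemma rev_mass : B.rev.mass = B.mass := by simp [mass, rev]

@[simp] lemma total_nil : B.total [] = 0 := rfl

@[simp] lemma total_cons (a : α) (L : List α) : B.total (a :: L) = B.disp a + B.total L := by
  simp [total]

lemma total_append (L M : List α) : B.total (L ++ M) = B.total L + B.total M := by
  simp [total]

lemma total_reverse (L : List α) : B.total L.reverse = B.total L := by
  rw [total, total, List.map_reverse, List.sum_reverse]

@[simp] lemma rev_total (L : List α) : B.rev.total L = B.total L := rfl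

lemma length_le_total (L : List α) : (L.length : ℤ) ≤ (B.total L).1 := by
  induction L with
  | nil => simp
  | cons a L ih =>
    have := B.one_le a
    simp only [List.length_cons, total_cons, Prod.fst_add]
    push_cast
    linarith

@[simp] lemma trace_nil : B.trace [] = [] := rfl

@[simp] lemma trace_cons (a : α) (L : List α) :
    B.trace (a :: L) = B.sites a ++ (B.trace L).map (B.disp a + ·) := rfl

lemma trace_append (L M : List α) :
    B.trace (L ++ M) = B.trace L ++ (B.trace M).map (B.total L + ·) := by
  induction L with
  | nil => simp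
  | cons a L ih => simp [ih, List.map_map, Function.comp_def, add_assoc]

lemma trace_range {L : List α} : ∀ x ∈ B.trace L, 0 ≤ x.1 ∧ x.1 ≤ (B.total L).1 := by
  induction L with
  | nil => simp
  | cons a L ih =>
    intro x hx
    have h1 := B.one_le a
    have h2 := B.length_le_total L
    rcases List.mem_append.mp hx with hx | hx
    · obtain ⟨h0, h3⟩ := B.range a x hx
      exact ⟨h0, by simp only [total_cons, Prod.fst_add]; omega⟩
    · obtain ⟨y, hy, rfl⟩ := List.mem_map.mp hx
      obtain ⟨h0, h3⟩ := ih y hy
      simp only [total_cons, Prod.fst_add]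
      omega

/-- Reading the blocks backwards from the end gives the same multiset of sites. -/
lemma rev_trace_reverse (L : List α) :
    (B.rev.trace L.reverse).Perm ((B.trace L).map (B.total L - ·)) := by
  induction L with
  | nil => simp
  | cons a L ih =>
    have h1 : B.rev.trace [a] = (B.sites a).map (B.disp a - ·) := by simp [rev]
    rw [List.reverse_cons, trace_append, h1, trace_cons, List.map_append, List.map_map,
      List.map_map, rev_total, total_reverse]
    have h2 : (B.trace L).map ((fun x => B.total (a :: L) - x) ∘ fun x => B.disp a + x)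
        = (B.trace L).map (B.total L - ·) := by
      refine List.map_congr_left fun x _ => ?_
      simp
    have h3 : (B.sites a).map ((fun x => B.total L + x) ∘ fun x => B.disp a - x)
        = (B.sites a).map (fun x => B.total (a :: L) - x) := by
      refine List.map_congr_left fun x _ => ?_
      simp only [Function.comp_apply, total_cons]
      abel
    rw [h2, h3]
    exact (ih.append_right _).trans List.perm_append_comm

end Beam

/-- The number of pairs of equal sites. -/
def meets (A B : List Pt) : ℕ := (A.map fun x => B.count x).sum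

@[simp] lemma meets_nil_left (B : List Pt) : meets [] B = 0 := rfl

lemma meets_cons_left (x : Pt) (A B : List Pt) :
    meets (x :: A) B = B.count x + meets A B := by simp [meets]

lemma meets_append_left (A A' B : List Pt) :
    meets (A ++ A') B = meets A B + meets A' B := by simp [meets]

lemma meets_comm (A B : List Pt) : meets A B = meets B A := by
  induction A with
  | nil => simp [meets]
  | cons x A ih =>
    rw [meets_cons_left, ih]
    clear ih
    induction B with
    | nil => simp [meets]
    | cons y B ih =>
      simp only [meets_cons_left, List.count_cons]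
      by_cases h : y = x
      · subst h; simp; omega
      · simp [h, Ne.symm h]; omega

lemma meets_append_right (A B B' : List Pt) :
    meets A (B ++ B') = meets A B + meets A B' := by
  rw [meets_comm, meets_append_left, meets_comm B, meets_comm B']

lemma meets_perm_left {A A' : List Pt} (h : A.Perm A') (B : List Pt) :
    meets A B = meets A' B := (h.map _).sum_eq

lemma meets_perm_right (A : List Pt) {B B' : List Pt} (h : B.Perm B') :
    meets A B = meets A B' := by
  rw [meets_comm, meets_perm_left h, meets_comm]

lemma meets_map {f : Pt → Pt} (hf : Function.Injective f) (A B : List Pt) :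
    meets (A.map f) (B.map f) = meets A B := by
  simp [meets, List.map_map, Function.comp_def, List.count_map_of_injective B f hf]

lemma count_le_meets {A : List Pt} (B : List Pt) {x : Pt} (h : x ∈ A) :
    B.count x ≤ meets A B :=
  List.le_sum_of_mem (List.mem_map.mpr ⟨x, h, rfl⟩)

end Vale.Agent.P147.Velocity
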