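import Mathlib
import Vale.Agent.P147.Velocity.Cross

/-!
P147: two independent beams meet at most `η log N` times among `N` blocks, with positive chance.

The meetings are counted from the last ones backwards: while fewer than `T` meetings remain, the
rest looks like a fresh pair of beams started at a bounded offset.
-/

open scoped ENNReal
open Filter

namespace Vale.Agent.P147.Velocity

variable {α β : Type*} {w : α → ℝ≥0∞}

lemma lw_mul_avg_le (n : ℕ) : ∀ (U : List α) (F : List α → ℝ≥0∞),
    lw w U * avg w n (fun L => F (U ++ L)) ≤ avg w (U.length + n) F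
  | [], F => by simp [lw]
  | a :: U, F => by
    have h := lw_mul_avg_le n U fun L => F (a :: L)
    rw [show (a :: U).length + n = U.length + n + 1 by simp; omega, avg_succ,
      show lw w (a :: U) = w a * lw w U by simp [lw], mul_assoc]
    exact (mul_le_mul' le_rfl h).trans
      (ENNReal.le_tsum (f := fun a => w a * avg w (U.length + n) fun L => F (a :: L)) a)

namespace Beam

variable (B : Beam α)

lemma lw_le_one (l : List α) : lw B.w l ≤ 1 := by
  induction l with
  | nil => simp [lw]
  | cons a l ih =>
    simpa [lw] using mul_le_one' (B.sum_w ▸ ENNReal.le_tsum a : B.w a ≤ 1) ih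

lemma map_zero_add_pt (l : List Pt) : l.map ((0 : Pt) + ·) = l := by
  induction l with
  | nil => rfl
  | cons x l ih => simp

lemma window_zero (L : List α) : B.window 0 L = B.trace L := by
  simp [window]

lemma window_append (L M : List α) :
    B.window L.length (L ++ M) = (B.trace M).map (B.total L + ·) := by
  simp [window]

lemma window_length (L : List α) : B.window L.length L = [] := by
  simp [window]

/-- The positioned sites of block `i`. -/
def blk (i : ℕ) (L : List α) : List Pt := B.window i (L.take (i + 1))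

lemma blk_eq {i : ℕ} {L : List α} (h : i < L.length) :
    B.blk i L = (B.sites L[i]).map (B.total (L.take i) + ·) := by
  unfold blk window
  rw [List.take_succ_eq_append_getElem h, List.take_left' (by simp; omega),
    List.drop_left' (by simp; omega)]
  simp

lemma blk_snoc (L : List α) (a : α) :
    B.blk L.length (L ++ [a]) = (B.sites a).map (B.total L + ·) := by
  rw [B.blk_eq (show L.length < (L ++ [a]).length by simp)]
  simp

lemma blk_take {i n : ℕ} (h : i < n) (L : List α) : B.blk i (L.take n) = B.blk i L := by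
  rw [blk, blk, List.take_take, min_eq_left (by omega : i + 1 ≤ n)]

lemma window_split {i : ℕ} {L : List α} (h : i < L.length) :
    B.window i L = B.blk i L ++ B.window (i + 1) L := by
  rw [B.blk_eq h, window, window, List.drop_eq_getElem_cons h, trace_cons, List.map_append,
    List.map_map, List.take_succ_eq_append_getElem h, total_append]
  simp [Function.comp_def, add_assoc]

lemma sum_blk_meets {a b : ℕ} (hab : a ≤ b) {L : List α} (hb : b ≤ L.length) (Z : List Pt) :
    ∑ i ∈ Finset.Ico a b, meets (B.blk i L) Z + meets (B.window b L) Z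
      = meets (B.window a L) Z := by
  induction b, hab using Nat.le_induction with
  | base => simp
  | succ b hab ih =>
    rw [← ih (by omega), Finset.sum_Ico_succ_top hab, B.window_split (show b < L.length by omega),
      meets_append_left]
    omega

lemma sum_blk_window (a : ℕ) {L : List α} (ha : a ≤ L.length) (Z : List Pt) :
    ∑ i ∈ Finset.Ico a L.length, meets (B.blk i L) Z = meets (B.window a L) Z := by
  rw [← B.sum_blk_meets ha le_rfl Z, window_length, meets_nil_left, add_zero]

/-- Count from the last meeting backwards. -/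
lemma min_le_sum (T : ℕ) (L : List α) (Z : List Pt) :
    min T (meets (B.trace L) Z) ≤ ∑ i ∈ Finset.range L.length,
      meets (B.blk i L) Z * if meets (B.window (i + 1) L) Z ≤ T then 1 else 0 := by
  have h : ∀ k ≤ L.length, min T (meets (B.trace L) Z) ≤ (∑ i ∈ Finset.range k,
      meets (B.blk i L) Z * if meets (B.window (i + 1) L) Z ≤ T then 1 else 0) +
        min T (meets (B.window k L) Z) := by
    intro k
    induction k with
    | zero => intro _; simp [window_zero]
    | succ k ih =>
      intro hk
      refine (ih (by omega)).trans ?_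
      rw [Finset.sum_range_succ, add_assoc]
      refine add_le_add le_rfl ?_
      rw [B.window_split (show k < L.length by omega), meets_append_left]
      split_ifs with h <;> omega
  simpa [window_length] using h L.length le_rfl

/-- The beam keeping only the sites of the blocks with `P`. -/
noncomputable def keep (P : α → Prop) : Beam α := by
  classical
  exact
    { w := B.w
      sum_w := B.sum_w
      disp := B.disp
      sites := fun a => if P a then B.sites a else []
      one_le := B.one_le
      range := fun a x hx => by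
        split_ifs at hx
        · exact B.range a x hx
        · simp at hx }

lemma keep_atoms {P : α → Prop} (h : B.Atoms) : (B.keep P).Atoms := h

lemma keep_avg (P : α → Prop) (n : ℕ) (F : List α → ℝ≥0∞) : (B.keep P).avg n F = B.avg n F := rfl

lemma keep_load_le_mass (P : α → Prop) : (B.keep P).mass ≤ B.mass := by
  refine ENNReal.tsum_le_tsum fun a => mul_le_mul' le_rfl (Nat.cast_le.2 ?_)
  simp only [keep]
  split_ifs <;> simp

lemma exists_small_rest (hm : B.mass ≠ ⊤) {δ : ℝ≥0∞} (hδ : 0 < δ) :
    ∃ F : Finset α, (B.keep fun a => a ∉ F).mass ≤ δ := by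
  classical
  obtain ⟨F, hF⟩ := ((ENNReal.tendsto_tsum_compl_atTop_zero hm).eventually
    (ge_mem_nhds hδ)).exists
  refine ⟨F, le_trans (le_of_eq ?_) hF⟩
  rw [mass]
  have h := tsum_subtype {a : α | a ∉ F} fun a => B.w a * ((B.sites a).length : ℝ≥0∞)
  refine Eq.trans (tsum_congr fun a => ?_) h.symm
  by_cases ha : a ∈ F <;> simp [keep, Set.indicator, ha]

/-- A list of atoms with given total. -/
lemma exists_list_total (h : B.Atoms) (n : ℕ) (s t : ℤ) (hn : s.natAbs + t.natAbs ≤ n) :
    ∃ V : List α, V.length = n ∧ lw B.w V ≠ 0 ∧ B.total V = ((n : ℤ), s, t) := by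
  induction n generalizing s t with
  | zero =>
    refine ⟨[], rfl, by simp [lw], ?_⟩
    simp only [total_nil, Nat.cast_zero]
    rw [show s = 0 by omega, show t = 0 by omega]
    rfl
  | succ n ih =>
    obtain ⟨e, f, he, hf, hef⟩ : ∃ e f : ℤ, |e| ≤ 1 ∧ |f| ≤ 1 ∧
        (s - e).natAbs + (t - f).natAbs ≤ n := by
      rcases lt_trichotomy s 0 with hs | hs | hs
      · exact ⟨-1, 0, by simp, by simp, by omega⟩
      · rcases lt_trichotomy t 0 with ht | ht | ht
        · exact ⟨0, -1, by simp, by simp, by omega⟩
        · exact ⟨0, 0, by simp, by simp, by omega⟩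
        · exact ⟨0, 1, by simp, by simp, by omega⟩
      · exact ⟨1, 0, by simp, by simp, by omega⟩
    obtain ⟨a, ha, ha'⟩ := h e f he hf
    obtain ⟨V, hV1, hV2, hV3⟩ := ih (s - e) (t - f) hef
    refine ⟨a :: V, by simp [hV1], ?_, ?_⟩
    · simp only [lw, List.map_cons, List.prod_cons, ne_eq, mul_eq_zero, not_or]
      exact ⟨ha, hV2⟩
    · rw [total_cons, ha', hV3]
      ext <;> simp; omega

end Beam

section two

variable (X : Beam α) (Y : Beam β)

/-- Expected meetings of a window with a beam. -/
lemma avg_meets_window_le {K : ℝ≥0∞} (hK : ∀ n, ∑' m : ℤ, Y.hitSup n m ≤ K / ((n : ℝ≥0∞) + 1))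
    (n a b : ℕ) :
    X.avg n (fun L => Y.avg b fun M => (meets (X.trace L) (Y.window a M) : ℝ≥0∞)) ≤
      X.mass * (Y.mass * (K * ∑ j ∈ Finset.Ico a b, ((j : ℝ≥0∞) + 1)⁻¹)) := by
  calc X.avg n (fun L => Y.avg b fun M => (meets (X.trace L) (Y.window a M) : ℝ≥0∞))
      ≤ X.avg n (fun L => ((X.trace L).map fun x => Y.load a b x.1).sum) := by
        refine avg_mono fun L => ?_
        simpa [Beam.map_zero_add_pt] using Y.avg_window_meets_le a b (X.trace L) 0
    _ ≤ X.mass * ∑' m : ℤ, Y.load a b m := X.avg_trace_le n _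
    _ ≤ _ := mul_le_mul' le_rfl (Y.tsum_load_le hK a b)

/-- Expected meetings with fixed sites. -/
lemma avg_meets_fixed_le (P : List Pt) (v : Pt) (n : ℕ) :
    Y.avg n (fun M => (meets P ((Y.trace M).map (v + ·)) : ℝ≥0∞)) ≤ (P.length : ℝ≥0∞) * Y.mass := by
  have h := Y.avg_window_meets_le 0 n P v
  simp only [Beam.window_zero] at h
  refine h.trans ((Beam.sum_map_le fun x _ => Y.load_le_mass 0 n _).trans_eq ?_)
  exact Beam.sum_map_const P Y.mass

/-- The chance of at most `T` meetings among `n` blocks, with the second beam started at `r`. -/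
noncomputable def small (n T : ℕ) (r : Pt) : ℝ≥0∞ :=
  X.avg n fun L => Y.avg n fun M =>
    if meets (X.trace L) ((Y.trace M).map (r + ·)) ≤ T then 1 else 0

lemma meets_take_le (L : List α) (M : List β) (n : ℕ) :
    meets (X.trace (L.take n)) (Y.trace (M.take n)) ≤ meets (X.trace L) (Y.trace M) := by
  conv_rhs => rw [← List.take_append_drop n L, ← List.take_append_drop n M, Beam.trace_append,
    Beam.trace_append, meets_append_left, meets_append_right]
  omega

lemma avg_take_two {a b m n : ℕ} (ha : a ≤ m) (hb : b ≤ n) (G : List α → List β → ℝ≥0∞) :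
    X.avg m (fun L => Y.avg n fun M => G (L.take a) (M.take b))
      = X.avg a fun L => Y.avg b fun M => G L M := by
  refine Eq.trans ?_ (avg_take X.sum_w ha fun L => Y.avg b fun M => G L M)
  exact avg_congr_of_length fun L _ => avg_take Y.sum_w hb (G (L.take a))

/-- One pair of small blocks, with fewer than `T` meetings after it. -/
lemma avg_pair_le (F : Finset α) (G : Finset β) {q : ℝ≥0∞} {N T : ℕ}
    (hq : ∀ b ∈ F, ∀ y ∈ G, ∀ σ ∈ X.sites b, ∀ τ ∈ Y.sites y,
      small X Y N T (σ - τ + Y.disp y - X.disp b) ≤ q)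
    {i j : ℕ} (hi : i < N) (hj : j < N) :
    (X.avg (2 * N) fun L => Y.avg (2 * N) fun M =>
      (meets ((X.keep (· ∈ F)).blk i L) ((Y.keep (· ∈ G)).blk j M) : ℝ≥0∞) *
        if meets (X.window (i + 1) L) (Y.trace M) ≤ T then 1 else 0) ≤
      q * X.avg (2 * N) fun L => Y.avg (2 * N) fun M =>
        (meets ((X.keep (· ∈ F)).blk i L) ((Y.keep (· ∈ G)).blk j M) : ℝ≥0∞) := by
  set XF := X.keep (· ∈ F) with hXF
  set YG := Y.keep (· ∈ G) with hYG
  set c : List α → List β → ℝ≥0∞ := fun L M => (meets (XF.blk i L) (YG.blk j M) : ℝ≥0∞) with hc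
  set e : List α → List β → ℝ≥0∞ := fun L M =>
    if meets (X.window (i + 1) L) (Y.window (j + 1) M) ≤ T then 1 else 0 with he
  have hrhs : X.avg (2 * N) (fun L => Y.avg (2 * N) fun M => c L M)
      = X.avg (i + 1) fun L => Y.avg (j + 1) fun M => c L M := by
    rw [← avg_take_two X Y (by omega : i + 1 ≤ 2 * N) (by omega : j + 1 ≤ 2 * N)]
    simp only [hc, Beam.blk_take _ (show i < i + 1 by omega), Beam.blk_take _ (show j < j + 1 by omega)]
  have hstep : ∀ L : List α, L.length = 2 * N → ∀ M : List β, M.length = 2 * N →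
      c L M * (if meets (X.window (i + 1) L) (Y.trace M) ≤ T then 1 else 0) ≤
        c (L.take (i + 1 + N)) (M.take (j + 1 + N)) *
          e (L.take (i + 1 + N)) (M.take (j + 1 + N)) := by
    intro L hL M hM
    simp only [hc, Beam.blk_take _ (show i < i + 1 + N by omega),
      Beam.blk_take _ (show j < j + 1 + N by omega)]
    refine mul_le_mul' le_rfl ?_
    simp only [he]
    split_ifs with h1 h2
    · exact le_rfl
    · refine absurd (le_trans ?_ h1) h2
      have hX : X.window (i + 1) L = X.window (i + 1) (L.take (i + 1 + N)) ++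
          (X.trace (L.drop (i + 1 + N))).map (X.total (L.take (i + 1 + N)) + ·) := by
        unfold Beam.window
        conv_lhs => rw [← List.take_append_drop (i + 1 + N) L]
        rw [List.take_append_of_le_length (by simp; omega),
          List.drop_append_of_le_length (by simp; omega), Beam.trace_append, List.map_append,
          List.map_map]
        have e : X.total ((L.take (i + 1 + N)).take (i + 1)) +
            X.total ((L.take (i + 1 + N)).drop (i + 1)) = X.total (L.take (i + 1 + N)) := by
          rw [← Beam.total_append, List.take_append_drop]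
        simp only [Function.comp_def, ← add_assoc, e]
      have hY : Y.trace M = Y.trace (M.take (j + 1)) ++ (Y.window (j + 1) (M.take (j + 1 + N)) ++
          (Y.trace (M.drop (j + 1 + N))).map (Y.total (M.take (j + 1 + N)) + ·)) := by
        unfold Beam.window
        have e1 : (M.take (j + 1 + N)).take (j + 1) = M.take (j + 1) := by
          rw [List.take_take, min_eq_left (by omega : j + 1 ≤ j + 1 + N)]
        have e2 : Y.total (M.take (j + 1) ++ (M.take (j + 1 + N)).drop (j + 1))
            = Y.total (M.take (j + 1 + N)) := by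
          rw [← e1, List.take_append_drop]
        conv_lhs => rw [← List.take_append_drop (j + 1 + N) M, Beam.trace_append,
          ← List.take_append_drop (j + 1) (M.take (j + 1 + N)), Beam.trace_append]
        rw [e1, e2, List.append_assoc]
      rw [hX, hY, meets_append_left, meets_append_right (X.window (i + 1) (L.take (i + 1 + N))),
        meets_append_right (X.window (i + 1) (L.take (i + 1 + N)))]
      omega
    · exact zero_le
    · exact zero_le
  calc _ ≤ X.avg (2 * N) (fun L => Y.avg (2 * N) fun M =>
          c (L.take (i + 1 + N)) (M.take (j + 1 + N)) *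
            e (L.take (i + 1 + N)) (M.take (j + 1 + N))) :=
        avg_mono_of_length fun L hL => avg_mono_of_length fun M hM => hstep L hL M hM
    _ = X.avg (i + 1 + N) (fun L => Y.avg (j + 1 + N) fun M => c L M * e L M) :=
        avg_take_two X Y (by omega) (by omega) fun L M => c L M * e L M
    _ = X.avg (i + 1) (fun L => Y.avg (j + 1) fun M => X.avg N fun L' => Y.avg N fun M' =>
          c (L ++ L') (M ++ M') * e (L ++ L') (M ++ M')) := by
        simp only [Beam.avg]
        rw [avg_append]
        refine avg_congr_of_length fun L _ => ?_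
        refine Eq.trans (avg_congr_of_length fun L' _ => avg_append (j + 1) N _) ?_
        exact avg_comm N (j + 1) _
    _ ≤ X.avg (i + 1) (fun L => Y.avg (j + 1) fun M => q * c L M) := by
        refine avg_mono_of_length fun L hL => avg_mono_of_length fun M hM => ?_
        have hcL : ∀ L' M', c (L ++ L') (M ++ M') = c L M := fun L' M' => by
          simp only [hc, Beam.blk, List.take_append_of_le_length (show i + 1 ≤ L.length by omega),
            List.take_append_of_le_length (show j + 1 ≤ M.length by omega)]
        simp only [hcL, Beam.avg, avg_const_mul]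
        rw [mul_comm q]
        rcases eq_or_ne (c L M) 0 with h0 | h0
        · simp [h0]
        refine mul_le_mul' le_rfl ?_
        have heL : ∀ L' M', e (L ++ L') (M ++ M') = if meets (X.trace L')
            ((Y.trace M').map ((Y.total M - X.total L) + ·)) ≤ T then 1 else 0 := by
          intro L' M'
          simp only [he, ← hL, ← hM, Beam.window_append]
          have : meets ((X.trace L').map (X.total L + ·)) ((Y.trace M').map (Y.total M + ·)) =
              meets (X.trace L') ((Y.trace M').map ((Y.total M - X.total L) + ·)) := by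
            rw [← meets_map (add_right_injective (X.total L)) (X.trace L'), List.map_map]
            simp [Function.comp_def, ← add_assoc]
          rw [this]
        simp only [heL]
        -- the offset lies in the finite set
        obtain ⟨b, L0, rfl⟩ : ∃ b L0, L = L0 ++ [b] :=
          ⟨L.getLast (List.ne_nil_of_length_eq_add_one hL), L.dropLast,
            (List.dropLast_concat_getLast _).symm⟩
        obtain ⟨y, M0, rfl⟩ : ∃ y M0, M = M0 ++ [y] :=
          ⟨M.getLast (List.ne_nil_of_length_eq_add_one hM), M.dropLast,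
            (List.dropLast_concat_getLast _).symm⟩
        simp only [List.length_append, List.length_singleton, add_left_inj] at hL hM
        simp only [hc, ← hL, ← hM, Beam.blk_snoc, Nat.cast_ne_zero, meets] at h0
        obtain ⟨z, hz, hz0⟩ : ∃ z ∈ (XF.sites b).map (XF.total L0 + ·),
            ((YG.sites y).map (YG.total M0 + ·)).count z ≠ 0 := by
          by_contra hne
          push Not at hne
          exact h0 (List.sum_eq_zero fun n hn => by
            obtain ⟨z, hz, rfl⟩ := List.mem_map.1 hn
            exact hne z hz)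
        obtain ⟨σ, hσ, rfl⟩ := List.mem_map.1 hz
        obtain ⟨τ, hτ, hστ⟩ := List.mem_map.1 (List.count_pos_iff.1 (Nat.pos_of_ne_zero hz0))
        simp only [hXF, hYG, Beam.keep] at hσ hτ
        by_cases hb : b ∈ F
        swap
        · simp [hb] at hσ
        by_cases hy : y ∈ G
        swap
        · simp [hy] at hτ
        simp only [hb, hy, if_true] at hσ hτ
        have hr : Y.total (M0 ++ [y]) - X.total (L0 ++ [b]) = σ - τ + Y.disp y - X.disp b := by
          have h2 : Y.total M0 + τ = X.total L0 + σ := hστ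
          simp only [Beam.total_append, Beam.total_cons, Beam.total_nil, add_zero]
          rw [show Y.total M0 = X.total L0 + σ - τ by rw [← h2]; abel]
          abel
        rw [hr]
        exact hq b hb y hy σ hσ τ hτ
    _ = _ := by
        simp only [Beam.avg, avg_const_mul]
        exact congrArg (q * ·) hrhs.symm

/-- The splitting of the meetings of two lists of blocks. -/
lemma min_meets_le (F : Finset α) (G : Finset β) (T N : ℕ) {L : List α} {M : List β}
    (hL : L.length = 2 * N) (hM : M.length = 2 * N) :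
    min T (meets (X.trace L) (Y.trace M)) ≤
      (∑ i ∈ Finset.range N, ∑ j ∈ Finset.range N,
        meets ((X.keep (· ∈ F)).blk i L) ((Y.keep (· ∈ G)).blk j M) *
          if meets (X.window (i + 1) L) (Y.trace M) ≤ T then 1 else 0) +
      (meets ((X.keep (· ∉ F)).trace L) (Y.trace M) + meets (X.trace L) ((Y.keep (· ∉ G)).trace M) +
        (meets (X.window N L) (Y.trace M) + meets (X.trace L) (Y.window N M))) := by
  have hYsum : ∀ (B : Beam β) (Z : List Pt) (a : ℕ), a ≤ M.length →
      meets Z (B.window a M) = ∑ j ∈ Finset.Ico a M.length, meets Z (B.blk j M) := by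
    intro B Z a ha
    rw [meets_comm, ← B.sum_blk_window a ha Z]
    exact Finset.sum_congr rfl fun j _ => meets_comm _ _
  -- a block is split by its type
  have hsplit : ∀ i < 2 * N, ∀ j < 2 * N, meets (X.blk i L) (Y.blk j M) ≤
      meets ((X.keep (· ∈ F)).blk i L) ((Y.keep (· ∈ G)).blk j M) +
        meets ((X.keep (· ∉ F)).blk i L) (Y.blk j M) +
        meets (X.blk i L) ((Y.keep (· ∉ G)).blk j M) := by
    intro i hi j hj
    rw [X.blk_eq (show i < L.length by omega), Y.blk_eq (show j < M.length by omega),
      Beam.blk_eq _ (show i < L.length by omega), Beam.blk_eq _ (show i < L.length by omega),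
      Beam.blk_eq _ (show j < M.length by omega), Beam.blk_eq _ (show j < M.length by omega)]
    simp only [Beam.keep]
    by_cases hb : L[i] ∈ F <;> by_cases hy : M[j] ∈ G <;> simp [hb, hy, Beam.total]
  have hmain : ∀ i < N, meets (X.blk i L) (Y.trace M) *
      (if meets (X.window (i + 1) L) (Y.trace M) ≤ T then 1 else 0) ≤
      (∑ j ∈ Finset.range N, meets ((X.keep (· ∈ F)).blk i L) ((Y.keep (· ∈ G)).blk j M) *
          if meets (X.window (i + 1) L) (Y.trace M) ≤ T then 1 else 0) +
        (meets ((X.keep (· ∉ F)).blk i L) (Y.trace M) +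
          meets (X.blk i L) ((Y.keep (· ∉ G)).trace M) + meets (X.blk i L) (Y.window N M)) := by
    intro i hi
    have h2 : meets (X.blk i L) (Y.trace M) =
        ∑ j ∈ Finset.range N, meets (X.blk i L) (Y.blk j M) + meets (X.blk i L) (Y.window N M) := by
      rw [meets_comm, ← Y.window_zero M, ← Y.sum_blk_meets (Nat.zero_le N) (by omega : N ≤ M.length),
        meets_comm (Y.window N M), Finset.range_eq_Ico]
      congr 1
      exact Finset.sum_congr rfl fun j _ => meets_comm _ _
    have h3 : ∀ (B : Beam β) (Z : List Pt),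
        ∑ j ∈ Finset.range N, meets Z (B.blk j M) ≤ meets Z (B.trace M) := fun B Z => by
      rw [← B.window_zero M, hYsum B Z 0 (Nat.zero_le _), ← Finset.range_eq_Ico]
      exact Finset.sum_le_sum_of_subset (Finset.range_mono (by omega))
    split_ifs with h
    · simp only [mul_one]
      rw [h2]
      have h1 : ∑ j ∈ Finset.range N, meets (X.blk i L) (Y.blk j M) ≤ _ :=
        Finset.sum_le_sum fun j hj => hsplit i (by omega) j (by
          rw [Finset.mem_range] at hj; omega)
      simp only [Finset.sum_add_distrib] at h1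
      have := h3 Y ((X.keep (· ∉ F)).blk i L)
      have := h3 (Y.keep (· ∉ G)) (X.blk i L)
      omega
    · simp
  calc min T (meets (X.trace L) (Y.trace M))
      ≤ ∑ i ∈ Finset.range (2 * N), meets (X.blk i L) (Y.trace M) *
          if meets (X.window (i + 1) L) (Y.trace M) ≤ T then 1 else 0 := hL ▸ X.min_le_sum T L _
    _ = (∑ i ∈ Finset.range N, meets (X.blk i L) (Y.trace M) *
          if meets (X.window (i + 1) L) (Y.trace M) ≤ T then 1 else 0) +
        ∑ i ∈ Finset.Ico N (2 * N), meets (X.blk i L) (Y.trace M) *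
          if meets (X.window (i + 1) L) (Y.trace M) ≤ T then 1 else 0 :=
        (Finset.sum_range_add_sum_Ico _ (by omega)).symm
    _ ≤ _ := by
        have hA := Finset.sum_le_sum (s := Finset.range N) fun i hi =>
          hmain i (Finset.mem_range.1 hi)
        simp only [Finset.sum_add_distrib] at hA
        have hB : (∑ i ∈ Finset.Ico N (2 * N), meets (X.blk i L) (Y.trace M) *
            if meets (X.window (i + 1) L) (Y.trace M) ≤ T then 1 else 0) ≤
            meets (X.window N L) (Y.trace M) := by
          rw [← X.sum_blk_window N (by omega) (Y.trace M), hL]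
          exact Finset.sum_le_sum fun i _ => by split_ifs <;> simp
        have hC : ∀ (B : Beam α) (Z : List Pt),
            ∑ i ∈ Finset.range N, meets (B.blk i L) Z ≤ meets (B.trace L) Z := fun B Z => by
          rw [← B.window_zero L, ← B.sum_blk_window 0 (Nat.zero_le _) Z, ← Finset.range_eq_Ico]
          exact Finset.sum_le_sum_of_subset (Finset.range_mono (by omega))
        have := hC (X.keep (· ∉ F)) (Y.trace M)
        have := hC X ((Y.keep (· ∉ G)).trace M)
        have := hC X (Y.window N M)
        omega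

end two

lemma sum_inv_Ico_le_one (N : ℕ) :
    ∑ j ∈ Finset.Ico N (2 * N), ((j : ℝ≥0∞) + 1)⁻¹ ≤ 1 := by
  refine (Finset.sum_le_card_nsmul _ _ ((N : ℝ≥0∞) + 1)⁻¹ fun j hj => ?_).trans ?_
  · gcongr
    exact_mod_cast (Finset.mem_Ico.1 hj).1
  · rw [Nat.card_Ico, show 2 * N - N = N by omega, nsmul_eq_mul, ← div_eq_mul_inv]
    exact ENNReal.div_le_of_le_mul (by rw [one_mul]; exact le_self_add)

lemma sum_inv_le_log {N n : ℕ} (hN : 3 ≤ N) (hn : n ≤ 2 * N) :
    ∑ j ∈ Finset.Ico 0 n, ((j : ℝ≥0∞) + 1)⁻¹ ≤ ENNReal.ofReal (3 * Real.log N) := by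
  have h1 : 1 ≤ Real.log N := by
    rw [Real.le_log_iff_exp_le (by positivity)]
    have : (3 : ℝ) ≤ N := by exact_mod_cast hN
    linarith [Real.exp_one_lt_d9]
  have e : ∑ j ∈ Finset.Ico 0 (2 * N), ((j : ℝ≥0∞) + 1)⁻¹ =
      ENNReal.ofReal ((harmonic (2 * N) : ℚ) : ℝ) := by
    rw [harmonic]
    push_cast
    rw [ENNReal.ofReal_sum_of_nonneg fun j _ => by positivity, ← Finset.range_eq_Ico]
    refine Finset.sum_congr rfl fun j _ => ?_
    rw [ENNReal.ofReal_inv_of_pos (by positivity), ENNReal.ofReal_add (by positivity) zero_le_one,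
      ENNReal.ofReal_natCast, ENNReal.ofReal_one]
  refine ((Finset.sum_le_sum_of_subset (Finset.Ico_subset_Ico_right hn)).trans_eq e).trans
    (ENNReal.ofReal_le_ofReal ((harmonic_le_one_add_log _).trans ?_))
  push_cast
  rw [Real.log_mul two_ne_zero (by positivity)]
  linarith [Real.log_two_lt_d9]

namespace Beam

variable (X : Beam α) (Y : Beam β)

/-- The upper bound on the expected truncated number of meetings. -/
lemma avg_min_le (F : Finset α) (G : Finset β) {K q : ℝ≥0∞} {N T : ℕ} (hN : 3 ≤ N)
    (hX : ∀ n, ∑' m : ℤ, X.hitSup n m ≤ K / ((n : ℝ≥0∞) + 1))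
    (hY : ∀ n, ∑' m : ℤ, Y.hitSup n m ≤ K / ((n : ℝ≥0∞) + 1))
    (hq : ∀ b ∈ F, ∀ y ∈ G, ∀ σ ∈ X.sites b, ∀ τ ∈ Y.sites y,
      small X Y N T (σ - τ + Y.disp y - X.disp b) ≤ q) :
    X.avg (2 * N) (fun L => Y.avg (2 * N) fun M =>
        ((min T (meets (X.trace L) (Y.trace M)) : ℕ) : ℝ≥0∞)) ≤
      (q * (X.mass * Y.mass) + ((X.keep (· ∉ F)).mass * Y.mass + X.mass * (Y.keep (· ∉ G)).mass)) *
        (K * ENNReal.ofReal (3 * Real.log N)) + (2 * (X.mass * Y.mass)) * K := by
  have hlog := fun n hn => sum_inv_le_log (N := N) (n := n) hN hn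
  -- full meetings
  have hfull : ∀ (A : Beam α) (B : Beam β),
      (∀ n, ∑' m : ℤ, B.hitSup n m ≤ K / ((n : ℝ≥0∞) + 1)) → ∀ n, n ≤ 2 * N →
      A.avg n (fun L => B.avg n fun M => (meets (A.trace L) (B.trace M) : ℝ≥0∞)) ≤
        A.mass * B.mass * (K * ENNReal.ofReal (3 * Real.log N)) := by
    intro A B hB n hn
    have h := avg_meets_window_le A B hB n 0 n
    simp only [window_zero] at h
    refine h.trans ?_
    rw [← mul_assoc]
    gcongr
    exact hlog n hn
  have h1 := avg_meets_window_le X Y hY (2 * N) N (2 * N)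
  have h2 := avg_meets_window_le Y X hX (2 * N) N (2 * N)
  have hw1 : X.avg (2 * N) (fun L => Y.avg (2 * N) fun M =>
      (meets (X.trace L) (Y.window N M) : ℝ≥0∞)) ≤ X.mass * Y.mass * K := by
    refine h1.trans ?_
    rw [← mul_assoc]
    exact mul_le_mul' le_rfl ((mul_le_mul' le_rfl (sum_inv_Ico_le_one N)).trans_eq (mul_one K))
  have hw2 : X.avg (2 * N) (fun L => Y.avg (2 * N) fun M =>
      (meets (X.window N L) (Y.trace M) : ℝ≥0∞)) ≤ X.mass * Y.mass * K := by
    simp only [avg] at h2 ⊢
    rw [avg_comm]
    simp only [meets_comm (X.window N _)]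
    refine h2.trans ?_
    rw [← mul_assoc, mul_comm Y.mass X.mass]
    exact mul_le_mul' le_rfl ((mul_le_mul' le_rfl (sum_inv_Ico_le_one N)).trans_eq (mul_one K))
  -- the main sum
  have hmain : ∑ i ∈ Finset.range N, ∑ j ∈ Finset.range N,
      (X.avg (2 * N) fun L => Y.avg (2 * N) fun M =>
        (meets ((X.keep (· ∈ F)).blk i L) ((Y.keep (· ∈ G)).blk j M) : ℝ≥0∞) *
          if meets (X.window (i + 1) L) (Y.trace M) ≤ T then 1 else 0) ≤
      q * (X.mass * Y.mass * (K * ENNReal.ofReal (3 * Real.log N))) := by
    refine (Finset.sum_le_sum fun i hi => Finset.sum_le_sum fun j hj =>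
      avg_pair_le X Y F G hq (Finset.mem_range.1 hi) (Finset.mem_range.1 hj)).trans ?_
    simp only [← Finset.mul_sum, avg, ← avg_sum]
    refine mul_le_mul' le_rfl ?_
    set XF := X.keep (· ∈ F) with hXF
    set YG := Y.keep (· ∈ G) with hYG
    calc Velocity.avg X.w (2 * N) (fun L => Velocity.avg Y.w (2 * N) fun M =>
          ∑ i ∈ Finset.range N, ∑ j ∈ Finset.range N, (meets (XF.blk i L) (YG.blk j M) : ℝ≥0∞))
        ≤ X.avg N (fun L => Y.avg N fun M => (meets (XF.trace L) (YG.trace M) : ℝ≥0∞)) := by
          refine le_trans ?_ (avg_take_two X Y (by omega : N ≤ 2 * N) (by omega : N ≤ 2 * N)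
            fun L M => (meets (XF.trace L) (YG.trace M) : ℝ≥0∞)).le
          refine avg_mono_of_length fun L hL => avg_mono_of_length fun M hM => ?_
          rw [← Finset.sum_congr rfl fun i _ => Nat.cast_sum _ _, ← Nat.cast_sum]
          refine Nat.cast_le.2 (le_of_eq ?_)
          rw [← XF.window_zero (L.take N), ← XF.sum_blk_window 0 (Nat.zero_le _),
            List.length_take, min_eq_left (by omega : N ≤ L.length), Finset.range_eq_Ico]
          refine Finset.sum_congr rfl fun i hi => ?_
          rw [XF.blk_take (Finset.mem_Ico.1 hi).2, meets_comm, ← YG.window_zero (M.take N),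
            ← YG.sum_blk_window 0 (Nat.zero_le _), List.length_take,
            min_eq_left (by omega : N ≤ M.length)]
          refine Finset.sum_congr rfl fun j hj => ?_
          rw [YG.blk_take (Finset.mem_Ico.1 hj).2, meets_comm]
      _ ≤ XF.mass * YG.mass * (K * ENNReal.ofReal (3 * Real.log N)) :=
          hfull XF YG hY N (by omega)
      _ ≤ _ := by
          gcongr
          · exact X.keep_load_le_mass _
          · exact Y.keep_load_le_mass _
  calc X.avg (2 * N) (fun L => Y.avg (2 * N) fun M =>
        ((min T (meets (X.trace L) (Y.trace M)) : ℕ) : ℝ≥0∞))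
      ≤ X.avg (2 * N) (fun L => Y.avg (2 * N) fun M =>
          (∑ i ∈ Finset.range N, ∑ j ∈ Finset.range N,
            (meets ((X.keep (· ∈ F)).blk i L) ((Y.keep (· ∈ G)).blk j M) : ℝ≥0∞) *
              if meets (X.window (i + 1) L) (Y.trace M) ≤ T then 1 else 0) +
          ((meets ((X.keep (· ∉ F)).trace L) (Y.trace M) : ℝ≥0∞) +
            (meets (X.trace L) ((Y.keep (· ∉ G)).trace M) : ℝ≥0∞) +
            ((meets (X.window N L) (Y.trace M) : ℝ≥0∞) +
              (meets (X.trace L) (Y.window N M) : ℝ≥0∞)))) := by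
        refine avg_mono_of_length fun L hL => avg_mono_of_length fun M hM => ?_
        refine (Nat.cast_le.2 (min_meets_le X Y F G T N hL hM)).trans_eq ?_
        push_cast
        rfl
    _ ≤ q * (X.mass * Y.mass * (K * ENNReal.ofReal (3 * Real.log N))) +
        ((X.keep (· ∉ F)).mass * Y.mass * (K * ENNReal.ofReal (3 * Real.log N)) +
          X.mass * (Y.keep (· ∉ G)).mass * (K * ENNReal.ofReal (3 * Real.log N)) +
          (X.mass * Y.mass * K + X.mass * Y.mass * K)) := by
        simp only [avg, avg_fun_add, avg_sum]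
        refine add_le_add hmain (add_le_add (add_le_add ?_ ?_) (add_le_add hw2 hw1))
        · exact hfull (X.keep (· ∉ F)) Y hY _ le_rfl
        · exact hfull X (Y.keep (· ∉ G)) hY _ le_rfl
    _ = _ := by ring

/-- Moving the start of the second beam costs a fixed factor. -/
lemma small_realise (hX : X.Atoms) (hY : Y.Atoms) (hXm : X.mass ≠ ⊤) (hYm : Y.mass ≠ ⊤) (r : Pt) :
    ∃ c H : ℝ≥0∞, c ≠ 0 ∧ H ≠ ⊤ ∧ ∃ T0 : ℕ, ∀ N T : ℕ, T0 ≤ T →
      c * ((T : ℝ≥0∞) * small X Y N T r) ≤ (T : ℝ≥0∞) * small X Y N (3 * T) 0 + H := by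
  set k := r.1.natAbs + r.2.1.natAbs + r.2.2.natAbs with hk
  obtain ⟨U, hU1, hU2, hU3⟩ := X.exists_list_total hX k 0 0 (by omega)
  obtain ⟨V, hV1, hV2, hV3⟩ := Y.exists_list_total hY ((k : ℤ) + r.1).toNat r.2.1 r.2.2 (by omega)
  set c := lw X.w U * lw Y.w V with hc
  set h1 := ((X.trace U).length : ℝ≥0∞) * Y.mass with hh1
  set h2 := ((Y.trace V).length : ℝ≥0∞) * X.mass with hh2
  refine ⟨c, c * (h1 + h2), mul_ne_zero hU2 hV2, ?_, meets (X.trace U) (Y.trace V), ?_⟩
  · refine ENNReal.mul_ne_top (ne_top_of_le_ne_top (b := 1) (by simp) (mul_le_one' (X.lw_le_one U) (Y.lw_le_one V)))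
      (ENNReal.add_ne_top.2 ⟨ENNReal.mul_ne_top (by simp) hYm, ENNReal.mul_ne_top (by simp) hXm⟩)
  intro N T hT
  have huv : r = Y.total V - X.total U := by
    rw [hU3, hV3]
    ext <;> simp; omega
  set P : List α → List β → ℝ≥0∞ := fun L M =>
    if meets (X.trace L) (Y.trace M) ≤ 3 * T then 1 else 0 with hP
  have hsmall : (small X Y N (3 * T) 0) = X.avg N fun L => Y.avg N fun M => P L M := by
    simp only [small, hP, map_zero_add_pt]
  -- the two prefixes in front
  have hfront : c * X.avg N (fun L => Y.avg N fun M => P (U ++ L) (V ++ M)) ≤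
      X.avg N (fun L => Y.avg N fun M => P L M) := by
    calc c * X.avg N (fun L => Y.avg N fun M => P (U ++ L) (V ++ M))
        = lw X.w U * X.avg N (fun L => lw Y.w V * Y.avg N fun M => P (U ++ L) (V ++ M)) := by
          rw [hc, mul_assoc, avg, ← avg_const_mul N (lw Y.w V)]
      _ ≤ X.avg (U.length + N) (fun L => Y.avg (V.length + N) fun M => P L M) := by
          refine le_trans ?_ (lw_mul_avg_le N U _)
          exact mul_le_mul' le_rfl (avg_mono fun L => lw_mul_avg_le N V _)
      _ ≤ X.avg (U.length + N) (fun L => Y.avg (V.length + N) fun M => P (L.take N) (M.take N)) := by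
          refine avg_mono fun L => avg_mono fun M => ?_
          simp only [hP]
          split_ifs with a b
          · exact le_rfl
          · exact absurd ((meets_take_le X Y L M N).trans a) b
          · exact zero_le
          · exact le_rfl
      _ = _ := avg_take_two X Y (by omega) (by omega) P
  -- the cost of the prefixes
  have hpoint : ∀ L : List α, ∀ M : List β,
      (T : ℝ≥0∞) * (if meets (X.trace L) ((Y.trace M).map (r + ·)) ≤ T then 1 else 0) ≤
        (T : ℝ≥0∞) * P (U ++ L) (V ++ M) +
          ((meets (X.trace U) ((Y.trace M).map (Y.total V + ·)) : ℝ≥0∞) +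
            (meets (Y.trace V) ((X.trace L).map (X.total U + ·)) : ℝ≥0∞)) := by
    intro L M
    have e : meets (X.trace (U ++ L)) (Y.trace (V ++ M)) =
        meets (X.trace U) (Y.trace V) + meets (X.trace U) ((Y.trace M).map (Y.total V + ·)) +
        (meets (Y.trace V) ((X.trace L).map (X.total U + ·)) +
          meets (X.trace L) ((Y.trace M).map (r + ·))) := by
      rw [trace_append, trace_append, meets_append_left, meets_append_right, meets_append_right,
        meets_comm (Y.trace V) ((X.trace L).map _)]
      congr 1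
      congr 1
      rw [← meets_map (add_right_injective (X.total U)) (X.trace L) ((Y.trace M).map (r + ·)),
        List.map_map]
      simp [huv, Function.comp_def, ← add_assoc]
    simp only [hP, e]
    split_ifs with a b
    · exact le_self_add
    · rw [mul_zero, zero_add, mul_one, ← Nat.cast_add]
      exact Nat.cast_le.2 (by omega)
    · simp
    · simp
  have hcost : (T : ℝ≥0∞) * small X Y N T r ≤
      (T : ℝ≥0∞) * X.avg N (fun L => Y.avg N fun M => P (U ++ L) (V ++ M)) + (h1 + h2) := by
    simp only [small, avg, ← avg_const_mul]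
    refine (avg_mono fun L => avg_mono fun M => hpoint L M).trans ?_
    simp only [avg_fun_add, avg_const_mul]
    refine add_le_add le_rfl (add_le_add ?_ ?_)
    · exact avg_le_const X.sum_w fun L _ => avg_meets_fixed_le Y _ _ N
    · rw [avg_comm]
      exact avg_le_const Y.sum_w fun M _ => avg_meets_fixed_le X _ _ N
  calc c * ((T : ℝ≥0∞) * small X Y N T r)
      ≤ c * ((T : ℝ≥0∞) * X.avg N (fun L => Y.avg N fun M => P (U ++ L) (V ++ M)) + (h1 + h2)) :=
        mul_le_mul' le_rfl hcost
    _ = (T : ℝ≥0∞) * (c * X.avg N (fun L => Y.avg N fun M => P (U ++ L) (V ++ M))) +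
        c * (h1 + h2) := by rw [mul_add, mul_left_comm]
    _ ≤ _ := by rw [hsmall]; gcongr

/-- Two beams meet at most `η log N` times with positive chance. -/
theorem meets_small (hX : X.Atoms) (hY : Y.Atoms) (hXm : X.mass ≠ ⊤) (hYm : Y.mass ≠ ⊤)
    {η : ℝ} (hη : 0 < η) :
    ∃ c : ℝ≥0∞, c ≠ 0 ∧ ∀ᶠ N : ℕ in atTop, c ≤ X.avg N fun L => Y.avg N fun M =>
      if (meets (X.trace L) (Y.trace M) : ℝ) ≤ η * Real.log N then 1 else 0 := by
  classical
  obtain ⟨KX, hKX, hX'⟩ := X.spread hX
  obtain ⟨KY, hKY, hY'⟩ := Y.spread hY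
  set K := KX + KY with hK
  have hKt : K ≠ ⊤ := ENNReal.add_ne_top.2 ⟨hKX, hKY⟩
  have hXK : ∀ n, ∑' m : ℤ, X.hitSup n m ≤ K / ((n : ℝ≥0∞) + 1) := fun n =>
    (hX' n).trans (ENNReal.div_le_div_right le_self_add _)
  have hYK : ∀ n, ∑' m : ℤ, Y.hitSup n m ≤ K / ((n : ℝ≥0∞) + 1) := fun n =>
    (hY' n).trans (ENNReal.div_le_div_right le_add_self _)
  set η' := η / 3 with hη'
  have hη0 : 0 < η' := by positivity
  -- constants
  set a := (X.mass * Y.mass).toReal * K.toReal * 3 with ha
  set bX := Y.mass.toReal * K.toReal * 3 with hbX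
  set bY := X.mass.toReal * K.toReal * 3 with hbY
  set q := η' / (16 * (a + 1)) with hq
  have ha0 : 0 ≤ a := by positivity
  have hq0 : 0 < q := by positivity
  set δ := η' / (16 * (bX + bY + 1)) with hδ
  have hδ0 : 0 < δ := by positivity
  obtain ⟨F, hF⟩ := X.exists_small_rest hXm (δ := ENNReal.ofReal δ) (by simpa using hδ0)
  obtain ⟨G, hG⟩ := Y.exists_small_rest hYm (δ := ENNReal.ofReal δ) (by simpa using hδ0)
  set R : Finset Pt := (F ×ˢ G).biUnion fun p =>
    ((X.sites p.1).toFinset ×ˢ (Y.sites p.2).toFinset).image fun s =>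
      s.1 - s.2 + Y.disp p.2 - X.disp p.1 with hR
  choose cc HH hcc hHH T0 hreal using fun r => small_realise X Y hX hY hXm hYm r
  -- the positive chance
  set cR : ℝ≥0∞ := R.inf cc ⊓ 1 with hcR
  have hcR0 : cR ≠ 0 := by
    rw [hcR, ← bot_eq_zero', ← bot_lt_iff_ne_bot, lt_inf_iff, Finset.lt_inf_iff (by simp)]
    exact ⟨fun r _ => bot_lt_iff_ne_bot.2 (by simpa using hcc r), by simp⟩
  set qq := ENNReal.ofReal q with hqq
  set c := min (1 / 2) (cR * qq / 2) with hc
  refine ⟨c, ?_, ?_⟩
  · refine (lt_min (by simp) ?_).ne'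
    exact ENNReal.div_pos (mul_ne_zero hcR0 (by simpa [hqq] using hq0)) (by simp)
  set H := R.sum HH with hH
  have hHt : H ≠ ⊤ := ENNReal.sum_ne_top.2 fun r _ => hHH r
  have htend : Tendsto (fun N : ℕ => Real.log N) atTop atTop :=
    Real.tendsto_log_atTop.comp tendsto_natCast_atTop_atTop
  have hev : ∀ A : ℝ, ∀ᶠ N : ℕ in atTop, A ≤ η' * Real.log N :=
    fun A => (htend.const_mul_atTop hη0).eventually_ge_atTop A
  filter_upwards [eventually_ge_atTop 3,
    hev ((R.sup T0 : ℕ) + 1), hev (4 * H.toReal / (cR * qq).toReal + 2),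
    hev (16 * ((2 * (X.mass * Y.mass)) * K).toReal + 4)] with N hN hT0 hHbig hCbig
  set T := ⌊η' * Real.log N⌋₊ with hT
  have hlog : 0 ≤ η' * Real.log N := le_trans (by positivity) hT0
  have hT1 : η' * Real.log N - 1 ≤ (T : ℝ) := (Nat.sub_one_lt_floor _).le
  have hT2 : (T : ℝ) ≤ η' * Real.log N := Nat.floor_le hlog
  -- the goal counts at most 3T
  have hgoal : small X Y N (3 * T) 0 ≤ X.avg N fun L => Y.avg N fun M =>
      if (meets (X.trace L) (Y.trace M) : ℝ) ≤ η * Real.log N then 1 else 0 := by
    refine avg_mono fun L => avg_mono fun M => ?_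
    simp only [map_zero_add_pt]
    split_ifs with h1 h2
    · exact le_rfl
    · refine absurd ?_ h2
      have h3 : (meets (X.trace L) (Y.trace M) : ℝ) ≤ 3 * (T : ℝ) := by exact_mod_cast h1
      have : η' * Real.log N * 3 = η * Real.log N := by rw [hη']; ring
      linarith
    · exact zero_le
    · exact le_rfl
  refine le_trans ?_ hgoal
  by_cases hcase : ∀ r ∈ R, small X Y N T r ≤ qq
  · -- few meetings already have chance one half
    by_contra hlt
    rw [not_le] at hlt
    have hs : small X Y N T 0 < 1 / 2 := by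
      refine lt_of_le_of_lt (avg_mono fun L => avg_mono fun M => ?_) (lt_of_lt_of_le hlt (min_le_left _ _))
      simp only [map_zero_add_pt]
      split_ifs with a b <;> first | exact le_rfl | exact zero_le | omega
    have hmin := avg_min_le X Y F G (T := T) (q := qq) hN hXK hYK fun b hb y hy σ hσ τ hτ =>
      hcase _ (Finset.mem_biUnion.2 ⟨(b, y), Finset.mem_product.2 ⟨hb, hy⟩,
        Finset.mem_image.2 ⟨(σ, τ), Finset.mem_product.2
          ⟨List.mem_toFinset.2 hσ, List.mem_toFinset.2 hτ⟩, rfl⟩⟩)
    -- lower bound on the truncated meetings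
    have hlow : (T : ℝ≥0∞) * (1 / 2) ≤ X.avg (2 * N) fun L => Y.avg (2 * N) fun M =>
        ((min T (meets (X.trace L) (Y.trace M)) : ℕ) : ℝ≥0∞) := by
      have h2 : (1 / 2 : ℝ≥0∞) ≤ X.avg (2 * N) fun L => Y.avg (2 * N) fun M =>
          if T < meets (X.trace L) (Y.trace M) then 1 else 0 := by
        set A := X.avg (2 * N) fun L => Y.avg (2 * N) fun M =>
          if meets (X.trace L) (Y.trace M) ≤ T then (1 : ℝ≥0∞) else 0 with hA
        have hsum : A + (X.avg (2 * N) fun L => Y.avg (2 * N) fun M =>
            if T < meets (X.trace L) (Y.trace M) then (1 : ℝ≥0∞) else 0) = 1 := by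
          rw [hA, avg, avg, ← avg_fun_add]
          refine (avg_congr_of_length fun L _ => ?_).trans (avg_const X.sum_w _ 1)
          rw [avg, avg, ← avg_fun_add]
          refine (avg_congr_of_length fun M _ => ?_).trans (avg_const Y.sum_w _ 1)
          split_ifs <;> first | omega | simp
        have hA2 : A ≤ small X Y N T 0 := by
          refine le_trans (avg_mono fun L => avg_mono fun M => ?_) (avg_take_two X Y
            (by omega : N ≤ 2 * N) (by omega : N ≤ 2 * N) fun L M =>
              if meets (X.trace L) ((Y.trace M).map ((0 : Pt) + ·)) ≤ T then 1 else 0).le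
          simp only [map_zero_add_pt]
          have := meets_take_le X Y L M N
          split_ifs <;> first | exact le_rfl | exact zero_le | omega
        by_contra hh
        rw [not_le] at hh
        have := ENNReal.add_lt_add (lt_of_le_of_lt hA2 hs) hh
        rw [hsum, one_div, ENNReal.inv_two_add_inv_two] at this
        exact lt_irrefl _ this
      refine (mul_le_mul' le_rfl h2).trans ?_
      simp only [avg, ← avg_const_mul]
      refine avg_mono fun L => avg_mono fun M => ?_
      split_ifs with h
      · rw [mul_one, min_eq_left h.le]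
      · simp
    -- compare in the reals
    have hall := hlow.trans hmin
    have h1 : (qq * (X.mass * Y.mass) + ((X.keep (· ∉ F)).mass * Y.mass +
        X.mass * (Y.keep (· ∉ G)).mass)) * (K * ENNReal.ofReal (3 * Real.log N)) +
        2 * (X.mass * Y.mass) * K ≤
        (qq * (X.mass * Y.mass) + (ENNReal.ofReal δ * Y.mass + X.mass * ENNReal.ofReal δ)) *
          (K * ENNReal.ofReal (3 * Real.log N)) + 2 * (X.mass * Y.mass) * K := by gcongr
    have hfin : (qq * (X.mass * Y.mass) + (ENNReal.ofReal δ * Y.mass + X.mass * ENNReal.ofReal δ)) *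
        (K * ENNReal.ofReal (3 * Real.log N)) + 2 * (X.mass * Y.mass) * K ≠ ⊤ := by
      finiteness
    have h3 := ENNReal.toReal_mono hfin (hall.trans h1)
    rw [ENNReal.toReal_add (by finiteness) (by finiteness), ENNReal.toReal_mul, ENNReal.toReal_mul,
      ENNReal.toReal_add (by finiteness) (by finiteness),
      ENNReal.toReal_add (by finiteness) (by finiteness)] at h3
    simp only [ENNReal.toReal_mul, ENNReal.toReal_natCast, one_div, ENNReal.toReal_inv,
      ENNReal.toReal_ofNat, hqq, ENNReal.toReal_ofReal hq0.le, ENNReal.toReal_ofReal hδ0.le,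
      ENNReal.toReal_ofReal (by positivity : (0 : ℝ) ≤ 3 * Real.log N)] at h3 hCbig
    have hlog' : 0 ≤ Real.log N := Real.log_natCast_nonneg N
    have e1 : q * a ≤ η' / 16 := by
      rw [hq, div_mul_eq_mul_div, div_le_div_iff₀ (by positivity) (by norm_num)]
      nlinarith
    have e2 : δ * (bX + bY) ≤ η' / 16 := by
      rw [hδ, div_mul_eq_mul_div, div_le_div_iff₀ (by positivity) (by norm_num)]
      nlinarith
    simp only [ha, ENNReal.toReal_mul] at e1
    simp only [hbX, hbY] at e2
    nlinarith [mul_le_mul_of_nonneg_right e1 hlog', mul_le_mul_of_nonneg_right e2 hlog']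
  · -- a good offset
    push Not at hcase
    obtain ⟨r, hr, hrq⟩ := hcase
    by_contra hlt
    rw [not_le] at hlt
    have hT0' : T0 r ≤ T := by
      refine (Finset.le_sup (f := T0) hr).trans (Nat.le_floor ?_)
      linarith
    have h := hreal r N T hT0'
    have h1 : cR * ((T : ℝ≥0∞) * qq) ≤ (T : ℝ≥0∞) * (cR * qq / 2) + H := by
      calc cR * ((T : ℝ≥0∞) * qq) ≤ cc r * ((T : ℝ≥0∞) * small X Y N T r) := by
            gcongr
            exact inf_le_left.trans (Finset.inf_le hr)
        _ ≤ (T : ℝ≥0∞) * small X Y N (3 * T) 0 + HH r := h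
        _ ≤ _ := add_le_add (mul_le_mul' le_rfl (hlt.le.trans (min_le_right _ _)))
            (Finset.single_le_sum (fun _ _ => zero_le) hr)
    have hcRt : cR ≠ ⊤ := ne_top_of_le_ne_top (b := 1) (by simp) inf_le_right
    have h3 := ENNReal.toReal_mono (by finiteness) h1
    rw [ENNReal.toReal_add (by finiteness) hHt] at h3
    simp only [ENNReal.toReal_mul, ENNReal.toReal_natCast, ENNReal.toReal_div,
      ENNReal.toReal_ofNat] at h3 hHbig
    have hp : 0 < cR.toReal * qq.toReal :=
      mul_pos (ENNReal.toReal_pos hcR0 hcRt) (by rw [hqq, ENNReal.toReal_ofReal hq0.le]; exact hq0)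
    have hH' : 4 * H.toReal / (cR.toReal * qq.toReal) ≤ (T : ℝ) - 1 := by linarith
    rw [div_le_iff₀ hp] at hH'
    nlinarith [ENNReal.toReal_nonneg (a := H)]

end Beam

end Vale.Agent.P147.Velocity
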