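import Mathlib
import Vale.Agent.P147.Velocity.Exit
import Vale.Agent.P147.Velocity.Janson
import Vale.Agent.P147.Transient

/-!
P147: a good escape tail in one direction forces the walk to reach every level of that direction.
The times of a last visit from below are at most one per level, so a walk with levels bounded above
descends polynomially fast, and then the disjoint last minima give a contradiction.
-/

open MeasureTheory Filter
open scoped ENNReal Topology

namespace Vale.Agent.P147.Velocity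

open Vale.Agent.P147.Transient (box mem_box card_box)

variable {d : ℕ}

/-- Paths staying at levels in `[-D, K)` up to time `t`. -/
def slab (a : Fin d → ℤ) (D K t : ℕ) : Set (Path d) :=
  {X | ∀ s ≤ t, -(D : ℤ) ≤ levOf a (X s) ∧ levOf a (X s) < K}

lemma measurableSet_slab (a : Fin d → ℤ) (D K t : ℕ) : MeasurableSet (slab a D K t) := by
  have h : slab a D K t = ⋂ s : ℕ, ⋂ (_ : s ≤ t), (fun X : Path d => X s) ⁻¹'
      {x | -(D : ℤ) ≤ levOf a x ∧ levOf a x < K} := by ext X; simp [slab]
  rw [h]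
  exact MeasurableSet.iInter fun s => MeasurableSet.iInter fun _ =>
    measurable_pi_apply s MeasurableSet.of_discrete

/-- Paths strictly above their start after time zero. -/
def strictUp (a : Fin d → ℤ) : Set (Path d) := {X | ∀ t, 1 ≤ levOf a (X (t + 1) - X 0)}

lemma measurableSet_strictUp (a : Fin d → ℤ) : MeasurableSet (strictUp a) := by
  have h : strictUp a = ⋂ t : ℕ, (fun X : Path d => (X (t + 1), X 0)) ⁻¹'
      {p | 1 ≤ levOf a (p.1 - p.2)} := by ext X; simp [strictUp]
  rw [h]
  exact MeasurableSet.iInter fun t =>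
    ((measurable_pi_apply (t + 1)).prodMk (measurable_pi_apply 0)) MeasurableSet.of_discrete

open scoped Classical in
/-- In a slab of `D + K` levels there are at most `D + K` last visits. -/
lemma card_last_visits (a : Fin d → ℤ) (D K T : ℕ) (X : Path d) :
    ((Finset.range T).filter fun t => X ∈ slab a D K t ∧
      (fun k => X (k + t)) ∈ strictUp a).card ≤ D + K := by
  classical
  calc ((Finset.range T).filter fun t => X ∈ slab a D K t ∧
      (fun k => X (k + t)) ∈ strictUp a).card
      ≤ (Finset.Ico (-(D : ℤ)) K).card := by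
        refine Finset.card_le_card_of_injOn (fun t => levOf a (X t)) ?_ ?_
        · intro t ht
          have h := (Finset.mem_filter.1 ht).2.1 t le_rfl
          simpa using h
        · intro s hs t ht hst
          simp only [Finset.coe_filter, Set.mem_ofPred_eq] at hs ht
          have key : ∀ s t, s < t → (fun k => X (k + s)) ∈ strictUp a →
              levOf a (X s) ≠ levOf a (X t) := by
            intro s t h hup e
            have h1 : 1 ≤ levOf a (X (t - s - 1 + 1 + s) - X (0 + s)) := hup (t - s - 1)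
            rw [show t - s - 1 + 1 + s = t by omega, zero_add, map_sub] at h1
            omega
          rcases lt_trichotomy s t with h | h | h
          · exact absurd hst (key s t h hs.2.2)
          · exact h
          · exact absurd hst.symm (key t s h ht.2.2)
    _ = D + K := by simp [Int.card_Ico]; omega

variable [NeZero d] {μ : Measure (Step d → ℝ)} [IsProbabilityMeasure μ]

/-- From a good site the walk leaves for ever upwards with the chance of a good escape. -/
lemma step_stay_le {ω : Env d} (hω : Good ω) (a : Fin d → ℤ) (e : Step d)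
    (he : levOf a (move e) = 1) (z : Site d) :
    ENNReal.ofReal (ω z e) * law ω (z + move e) (stayUp a) ≤ law ω z (strictUp a) := by
  calc ENNReal.ofReal (ω z e) * law ω (z + move e) (stayUp a)
      = law ω z (cyl 1 (fun k => z + disp (List.take k [e])) ∩ theta^[1] ⁻¹' stayUp a) := by
        rw [law_cyl_theta hω (measurableSet_stayUp a)]
        have h := law_follow hω [e] z
        simp only [qp, List.length_singleton, mul_one] at h
        rw [h]
        simp
    _ ≤ law ω z (strictUp a) := by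
        refine measure_mono fun X hX t => ?_
        obtain ⟨h1, h2⟩ := hX
        have e0 : X 0 = z := by simpa using h1 0 (by omega)
        have e1 : X 1 = z + move e := by simpa using h1 1 le_rfl
        have h3 : 0 ≤ levOf a (X (t + 1) - X (0 + 1)) := by
          have := h2 t
          rwa [theta_iterate] at this
        simp only [zero_add, map_sub, e1, map_add, he] at h3
        rw [map_sub, e0]
        omega

/-- Staying in a slab for a long time has small chance. -/
lemma slab_small (hrow : ∀ᵐ p ∂μ, GoodRow p) {κ : ℝ}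
    (hell : ∀ᵐ p ∂μ, ∀ e, κ ≤ p e) (a : Fin d → ℤ) (e : Step d) (he : levOf a (move e) = 1)
    (D K T : ℕ) (θ : ℝ≥0∞) :
    (T : ℝ≥0∞) * (ENNReal.ofReal κ * θ) * annealed μ (slab a D K T) ≤
      (D + K : ℕ) + (T : ℝ≥0∞) * (((2 * (T + 1) + 1 : ℕ) : ℝ≥0∞) ^ d *
        iidLaw μ {ω | law ω 0 (stayUp a) ≤ θ}) * (ENNReal.ofReal κ * θ) := by
  classical
  set c := ENNReal.ofReal κ * θ
  set bad : Set (Env d) := ⋃ y ∈ box (0 : Site d) (T + 1), {ω | law ω y (stayUp a) ≤ θ}
  have hbm : MeasurableSet bad := Finset.measurableSet_biUnion _ fun y _ =>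
    measurableSet_le (measurable_law y (measurableSet_stayUp a)) measurable_const
  have hbad : iidLaw μ bad ≤ ((2 * (T + 1) + 1 : ℕ) : ℝ≥0∞) ^ d *
      iidLaw μ {ω | law ω 0 (stayUp a) ≤ θ} := by
    refine (measure_biUnion_finset_le _ _).trans
      ((Finset.sum_le_card_nsmul _ _ (iidLaw μ {ω | law ω 0 (stayUp a) ≤ θ}) fun y _ => ?_).trans
        (le_of_eq (by rw [nsmul_eq_mul, card_box]; push_cast; rfl)))
    have hset : MeasurableSet {ω : Env d | law ω 0 (stayUp a) ≤ θ} :=
      measurableSet_le (measurable_law 0 (measurableSet_stayUp a)) measurable_const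
    rw [← (measurePreserving_shift μ y).measure_preimage hset.nullMeasurableSet]
    refine measure_mono_ae ((ae_forall_site μ hrow).mono fun ω hω h => ?_)
    have hm : Measurable fun (X : Path d) k => X k - y := measurable_pi_lambda _ fun k =>
      (measurable_of_countable fun z : Site d => z - y).comp (measurable_pi_apply k)
    show law (shift y ω) 0 (stayUp a) ≤ θ
    rw [law_shift hω, Measure.map_apply hm (measurableSet_stayUp a), stayUp_translate, zero_add]
    exact h
  set W : ℕ → Finset (List (Step d)) := fun t => (wordsUpTo T).filter fun γ =>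
    γ.length = t ∧ ∀ s ≤ t, -(D : ℤ) ≤ levOf a (disp (γ.take s)) ∧ levOf a (disp (γ.take s)) < K
  have hcov : ∀ t < T, annealed μ (slab a D K T) ≤ ∑ γ ∈ W t, wt μ γ := by
    intro t ht
    refine le_trans (measure_mono_ae (t := ⋃ γ ∈ W t, follow γ) ?_)
      ((measure_biUnion_finset_le _ _).trans
        (le_of_eq (Finset.sum_congr rfl fun γ _ => annealed_follow μ hrow γ)))
    filter_upwards [annealed_steps μ] with X hX hXS
    obtain ⟨γ, hγ, hfol, hdisp⟩ := exists_follow hX.1 hX.2 t
    refine Set.mem_iUnion₂.2 ⟨γ, Finset.mem_filter.2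
      ⟨mem_wordsUpTo.2 (by omega), hγ, fun s hs => ?_⟩, hfol⟩
    rw [hdisp s hs]
    exact hXS s (by omega)
  set E : ℕ → Set (Path d) := fun t =>
    ⋃ γ ∈ W t, follow γ ∩ theta^[t] ⁻¹' strictUp a
  have hEm : ∀ t, MeasurableSet (E t) := fun t => Finset.measurableSet_biUnion _ fun γ _ =>
    (measurableSet_follow γ).inter ((measurable_theta.iterate t) (measurableSet_strictUp a))
  have hlow : ∀ t < T, c * annealed μ (slab a D K T) ≤ annealed μ (E t) + c * iidLaw μ bad := by
    intro t ht
    refine (mul_le_mul' le_rfl (hcov t ht)).trans ?_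
    calc c * ∑ γ ∈ W t, wt μ γ = ∫⁻ ω, c * ∑ γ ∈ W t, qp ω 0 γ ∂iidLaw μ := by
          rw [lintegral_const_mul _ (Finset.measurable_sum _ fun γ _ => measurable_qp γ 0),
            lintegral_finsetSum _ fun γ _ => measurable_qp γ 0]
          simp only [lintegral_qp]
      _ ≤ ∫⁻ ω, law ω 0 (E t) + c * bad.indicator (fun _ => 1) ω ∂iidLaw μ := by
          refine lintegral_mono_ae ?_
          filter_upwards [ae_forall_site μ hrow, ae_forall_site μ hell] with ω hω hκω
          have hfree : ∀ γ ∈ W t, ∀ δ ∈ W t, γ <+: δ → γ = δ := fun γ hγ δ hδ h =>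
            h.eq_of_length ((Finset.mem_filter.1 hγ).2.1.trans (Finset.mem_filter.1 hδ).2.1.symm)
          by_cases hb : ω ∈ bad
          · rw [Set.indicator_of_mem hb, mul_one]
            refine le_add_left ((mul_le_mul' le_rfl ?_).trans_eq (mul_one c))
            exact sum_qp_le hω 0 [] _ (fun γ _ => List.nil_prefix) hfree
          · rw [Set.indicator_of_notMem hb, mul_zero, add_zero, Finset.mul_sum]
            rw [measure_biUnion_finset (fun γ hγ δ hδ hne => ?_) fun γ _ =>
              (measurableSet_follow γ).inter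
                ((measurable_theta.iterate t) (measurableSet_strictUp a))]
            · refine Finset.sum_le_sum fun γ hγ => ?_
              obtain ⟨-, hlen, -⟩ := Finset.mem_filter.1 hγ
              subst hlen
              rw [law_follow_theta hω γ (measurableSet_strictUp a), mul_comm c]
              refine mul_le_mul' le_rfl (le_trans ?_ (step_stay_le hω a e he _))
              refine mul_le_mul' (ENNReal.ofReal_le_ofReal (hκω _ e)) ?_
              simp only [bad, Set.mem_iUnion, Set.mem_ofPred_eq, not_exists, not_le] at hb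
              refine (hb _ (mem_box.2 fun i => ?_)).le
              rw [Pi.zero_apply, sub_zero, Pi.add_apply]
              have h1 := abs_disp_le γ i
              have h2 : |move e i| ≤ 1 := by
                by_cases h : i = e.1
                · subst h; simp only [move, Pi.single_eq_same]; split_ifs <;> simp
                · simp [move, h]
              have h3 := abs_add_le (disp γ i) (move e i)
              have h4 : γ.length < T := ht
              push_cast
              omega
            · refine Set.disjoint_left.2 fun X h1 h2 => hne ?_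
              have hl := (Finset.mem_filter.1 hγ).2.1.trans (Finset.mem_filter.1 hδ).2.1.symm
              rw [follow_eq_take h1.1 h2.1 hl.le, List.take_of_length_le hl.ge]
      _ = annealed μ (E t) + c * iidLaw μ bad := by
          rw [lintegral_add_left (measurable_law 0 (hEm t)), ← annealed_apply μ (hEm t),
            lintegral_const_mul _ (measurable_const.indicator hbm),
            lintegral_indicator_const hbm, one_mul]
  have hcount : ∑ t ∈ Finset.range T, annealed μ (E t) ≤ (D + K : ℕ) := by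
    have e1 : ∀ t, annealed μ (E t) = ∫⁻ X, (E t).indicator 1 X ∂annealed μ := fun t =>
      (lintegral_indicator_one (hEm t)).symm
    simp only [e1]
    rw [← lintegral_finsetSum _ fun t _ => measurable_one.indicator (hEm t)]
    calc ∫⁻ X, ∑ t ∈ Finset.range T, (E t).indicator 1 X ∂annealed μ
        ≤ ∫⁻ _X, ((D + K : ℕ) : ℝ≥0∞) ∂annealed μ := by
          refine lintegral_mono fun X => ?_
          calc ∑ t ∈ Finset.range T, (E t).indicator 1 X
              ≤ ∑ t ∈ Finset.range T, if X ∈ slab a D K t ∧ (fun k => X (k + t)) ∈ strictUp a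
                  then (1 : ℝ≥0∞) else 0 := by
                refine Finset.sum_le_sum fun t _ => ?_
                by_cases hX : X ∈ E t
                · rw [Set.indicator_of_mem hX, Pi.one_apply, if_pos]
                  obtain ⟨γ, hγ, hfol, hup⟩ := Set.mem_iUnion₂.1 hX
                  obtain ⟨-, hlen, hlev⟩ := Finset.mem_filter.1 hγ
                  refine ⟨fun s hs => ?_, by rw [Set.mem_preimage, theta_iterate] at hup; exact hup⟩
                  have h1 : X s = disp (γ.take s) := hfol s (hlen.symm ▸ hs)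
                  rw [h1]
                  exact hlev s hs
                · rw [Set.indicator_of_notMem hX]; exact zero_le
            _ ≤ _ := by
                rw [Finset.sum_boole]
                exact_mod_cast card_last_visits a D K T X
      _ = _ := by simp
  calc (T : ℝ≥0∞) * c * annealed μ (slab a D K T)
      = ∑ _t ∈ Finset.range T, c * annealed μ (slab a D K T) := by
        rw [Finset.sum_const, Finset.card_range, nsmul_eq_mul, mul_assoc]
    _ ≤ ∑ t ∈ Finset.range T, (annealed μ (E t) + c * iidLaw μ bad) :=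
        Finset.sum_le_sum fun t ht => hlow t (Finset.mem_range.1 ht)
    _ ≤ (D + K : ℕ) + (T : ℝ≥0∞) * (c * iidLaw μ bad) := by
        rw [Finset.sum_add_distrib, Finset.sum_const, Finset.card_range, nsmul_eq_mul]
        exact add_le_add hcount le_rfl
    _ ≤ _ := by
        rw [mul_comm c, ← mul_assoc (T : ℝ≥0∞)]
        gcongr

/-- A good escape tail in one direction forces all levels of that direction to be reached. -/
theorem ae_sup (hrow : ∀ᵐ p ∂μ, GoodRow p) {κ : ℝ} (hκ : 0 < κ)
    (hell : ∀ᵐ p ∂μ, ∀ e, κ ≤ p e) {a : Fin d → ℤ} (ha : ∀ i, |a i| ≤ 1) (ha0 : ∃ i, a i ≠ 0)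
    (hT : EscapeTail μ a) :
    ∀ᵐ X ∂annealed μ, ∀ m : ℕ, ∃ t, (m : ℤ) ≤ levOf a (X t) := by
  classical
  obtain ⟨i₀, hi₀⟩ := ha0
  have he : levOf a (move (upStep a i₀)) = 1 := by
    rw [lev_upStep]; exact le_antisymm (ha i₀) (Int.one_le_abs hi₀)
  refine ae_all_iff.mpr fun K => ?_
  rw [ae_iff]
  simp only [not_exists, not_le]
  set Bd := {X : Path d | ∀ t, levOf a (X t) < (K : ℤ)}
  set θ : ℕ → ℝ≥0∞ := fun m => ENNReal.ofReal (Real.sqrt m)⁻¹
  set f : ℕ → ℝ≥0∞ := fun m => iidLaw μ {ω | law ω 0 (stayUp a) ≤ θ m}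
  obtain ⟨m₁, hm₁⟩ : ∃ m₁ : ℕ, ∀ m, m₁ ≤ m → f m ≤ ((m : ℝ≥0∞) ^ (5 * d + 5))⁻¹ :=
    eventually_atTop.mp (hT (5 * d + 5))
  set C0 : ℝ≥0∞ := (5 : ℝ≥0∞) ^ d
  set C1 : ℝ≥0∞ := (1 + (K : ℝ≥0∞)) * (ENNReal.ofReal κ)⁻¹ + C0
  have hκ0 : ENNReal.ofReal κ ≠ 0 := by simp [hκ]
  have hC1 : C1 ≠ ⊤ := by
    refine ENNReal.add_ne_top.2 ⟨ENNReal.mul_ne_top (by simp) (ENNReal.inv_ne_top.2 hκ0), ?_⟩
    exact ENNReal.pow_ne_top (by simp)
  set S : ℕ → Finset (Site d) := fun m => box (0 : Site d) (m ^ 5)
  have hexit : ∀ m, annealed μ Bd ≤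
      annealed μ (⋃ γ : {γ // FirstHit (levOf (-a)) m γ ∧ disp γ ∈ S m}, follow γ.1) +
        annealed μ (slab a m K (m ^ 5)) := by
    intro m
    refine le_trans ?_ (measure_union_le _ _)
    refine measure_mono_ae ?_
    filter_upwards [annealed_steps μ] with X hX hXB
    by_cases hs : X ∈ slab a m K (m ^ 5)
    · exact Or.inr hs
    obtain ⟨s, hs5, hlev⟩ : ∃ s ≤ m ^ 5, levOf a (X s) < -(m : ℤ) := by
      simp only [slab, Set.mem_ofPred_eq, not_forall, not_and_or, not_le, not_lt] at hs
      obtain ⟨s, hs5, h | h⟩ := hs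
      · exact ⟨s, hs5, h⟩
      · exact absurd h (not_le.2 (hXB s))
    have habs : ∀ i, |(-a) i| ≤ 1 := fun i => by simpa using ha i
    obtain ⟨γ, hγ, hfol⟩ := exists_firstHit habs hX.1 hX.2
      (m := m) ⟨s, by rw [levOf_neg]; omega⟩
    refine Or.inl (Set.mem_iUnion.mpr ⟨⟨γ, hγ, mem_box.2 fun i => ?_⟩, hfol⟩)
    have hlen : γ.length ≤ s := by
      by_contra hlt
      rw [not_le] at hlt
      have h1 := hγ.2 s hlt
      have h7 : X s = disp (γ.take s) := hfol s hlt.le
      rw [← h7, levOf_neg] at h1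
      omega
    have h2 := abs_disp_le γ i
    rw [Pi.zero_apply, sub_zero]
    have h3 : ((γ.length : ℕ) : ℤ) ≤ ((m ^ 5 : ℕ) : ℤ) := by exact_mod_cast hlen.trans hs5
    omega
  have hθ1 : ∀ m, 1 ≤ m → θ m ≤ 1 := fun m hm => ENNReal.ofReal_le_one.mpr
    (inv_le_one_of_one_le₀ (Real.one_le_sqrt.mpr (by exact_mod_cast hm)))
  have hbox : ∀ m, max m₁ 1 ≤ m → ((S m).card : ℝ≥0∞) * f m ≤ C0 * ((m : ℝ≥0∞) ^ 5)⁻¹ := by
    intro m hm
    have hm1 : 1 ≤ m := le_trans (le_max_right _ _) hm
    have hb : (S m).card ≤ (5 * m ^ 5) ^ d := by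
      rw [card_box]
      have : 1 ≤ m ^ 5 := Nat.one_le_pow _ _ (by omega)
      exact Nat.pow_le_pow_left (by omega) d
    refine (mul_le_mul' (Nat.cast_le.mpr hb) (hm₁ m (le_trans (le_max_left _ _) hm))).trans
      (le_of_eq ?_)
    push_cast
    rw [mul_pow, ← pow_mul, pow_add (m : ℝ≥0∞) (5 * d) 5,
      ENNReal.mul_inv (Or.inr (by simp)) (Or.inl (by simp)), mul_assoc,
      ← mul_assoc ((m : ℝ≥0∞) ^ (5 * d)), ENNReal.mul_inv_cancel (by simp; omega) (by simp),
      one_mul]
  have hslab : ∀ m, max m₁ 1 ≤ m → annealed μ (slab a m K (m ^ 5)) ≤ C1 * (m : ℝ≥0∞)⁻¹ := by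
    intro m hm
    have hm1 : 1 ≤ m := le_trans (le_max_right _ _) hm
    have hT5 : max m₁ 1 ≤ m ^ 5 := hm.trans (Nat.le_self_pow (by omega) m)
    have h := slab_small hrow hell a (upStep a i₀) he m K (m ^ 5) (θ (m ^ 5))
    set c := ENNReal.ofReal κ * θ (m ^ 5)
    have hθpos : θ (m ^ 5) ≠ 0 := by
      simp only [θ, ne_eq, ENNReal.ofReal_eq_zero, not_le]
      have : (0 : ℝ) < ((m ^ 5 : ℕ) : ℝ) := by
        exact_mod_cast Nat.pow_pos (show 0 < m by omega)
      positivity
    have hc0 : c ≠ 0 := mul_ne_zero hκ0 hθpos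
    have hct : c ≠ ⊤ := ENNReal.mul_ne_top ENNReal.ofReal_ne_top ENNReal.ofReal_ne_top
    have hT0 : ((m ^ 5 : ℕ) : ℝ≥0∞) ≠ 0 := by simp; omega
    have hTt : ((m ^ 5 : ℕ) : ℝ≥0∞) ≠ ⊤ := ENNReal.natCast_ne_top _
    have hb2 : ((2 * (m ^ 5 + 1) + 1 : ℕ) : ℝ≥0∞) ^ d * f (m ^ 5) ≤ C0 * (m : ℝ≥0∞)⁻¹ := by
      have hA := hm₁ (m ^ 5) (le_trans (le_max_left _ _) hT5)
      have hb : (2 * (m ^ 5 + 1) + 1) ^ d ≤ (5 * m ^ 5) ^ d := by
        have : 1 ≤ m ^ 5 := Nat.one_le_pow _ _ (by omega)
        exact Nat.pow_le_pow_left (by omega) d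
      rw [← Nat.cast_pow]
      refine (mul_le_mul' (Nat.cast_le.mpr hb) hA).trans ?_
      push_cast
      rw [mul_pow, ← pow_mul, ← pow_mul, mul_assoc]
      refine mul_le_mul' le_rfl ?_
      rw [show 5 * (5 * d + 5) = 5 * d + (20 * d + 25) by ring, pow_add,
        ENNReal.mul_inv (Or.inr (by simp)) (Or.inl (by simp)),
        ← mul_assoc, ENNReal.mul_inv_cancel (by simp; omega) (by simp), one_mul]
      exact ENNReal.inv_le_inv.2 (by exact_mod_cast Nat.le_self_pow (by omega) m)
    have h2 : ((m ^ 5 : ℕ) : ℝ≥0∞) * c * annealed μ (slab a m K (m ^ 5)) ≤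
        ((m ^ 5 : ℕ) : ℝ≥0∞) * c * (C1 * (m : ℝ≥0∞)⁻¹) := by
      refine h.trans ?_
      rw [mul_add, add_mul, mul_add, mul_right_comm ((m ^ 5 : ℕ) : ℝ≥0∞)]
      refine add_le_add ?_ (mul_le_mul' le_rfl hb2)
      have hθlow : (((m : ℝ≥0∞) ^ 3))⁻¹ ≤ θ (m ^ 5) := by
        simp only [θ]
        rw [← ENNReal.ofReal_natCast, ← ENNReal.ofReal_pow (Nat.cast_nonneg _),
          ← ENNReal.ofReal_inv_of_pos (by positivity)]
        refine ENNReal.ofReal_le_ofReal (inv_anti₀ (by
          have : (0 : ℝ) < ((m ^ 5 : ℕ) : ℝ) := by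
            exact_mod_cast Nat.pow_pos (show 0 < m by omega)
          positivity) ?_)
        rw [Real.sqrt_le_iff]
        refine ⟨by positivity, ?_⟩
        push_cast
        rw [← pow_mul]
        exact pow_le_pow_right₀ (by exact_mod_cast hm1) (by norm_num)
      calc ((m + K : ℕ) : ℝ≥0∞) ≤ (m : ℝ≥0∞) * (1 + (K : ℝ≥0∞)) := by
            push_cast
            rw [mul_add, mul_one]
            exact add_le_add le_rfl (le_mul_of_one_le_left zero_le (by exact_mod_cast hm1))
        _ = ((m ^ 5 : ℕ) : ℝ≥0∞) * (ENNReal.ofReal κ * ((m : ℝ≥0∞) ^ 3)⁻¹) *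
              ((1 + (K : ℝ≥0∞)) * (ENNReal.ofReal κ)⁻¹ * (m : ℝ≥0∞)⁻¹) := by
            have hm0 : (m : ℝ≥0∞) ≠ 0 := by simp; omega
            have e3 : (m : ℝ≥0∞) ^ 5 * ((m : ℝ≥0∞) ^ 3)⁻¹ * (m : ℝ≥0∞)⁻¹ = m := by
              rw [show (m : ℝ≥0∞) ^ 5 = m * (m * (m : ℝ≥0∞) ^ 3) by ring, mul_assoc,
                mul_assoc (m : ℝ≥0∞), ← mul_assoc (m * (m : ℝ≥0∞) ^ 3),
                mul_assoc (m : ℝ≥0∞) ((m : ℝ≥0∞) ^ 3),
                ENNReal.mul_inv_cancel (pow_ne_zero _ hm0) (by simp), mul_one,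
                ENNReal.mul_inv_cancel hm0 (by simp), mul_one]
            have e4 : ENNReal.ofReal κ * (ENNReal.ofReal κ)⁻¹ = 1 :=
              ENNReal.mul_inv_cancel hκ0 ENNReal.ofReal_ne_top
            calc (m : ℝ≥0∞) * (1 + (K : ℝ≥0∞))
                = ((m : ℝ≥0∞) ^ 5 * ((m : ℝ≥0∞) ^ 3)⁻¹ * (m : ℝ≥0∞)⁻¹) * (1 + (K : ℝ≥0∞)) *
                    (ENNReal.ofReal κ * (ENNReal.ofReal κ)⁻¹) := by rw [e3, e4, mul_one]
              _ = _ := by push_cast; ring
        _ ≤ _ := by
            refine mul_le_mul' (mul_le_mul' le_rfl (mul_le_mul' le_rfl hθlow)) le_rfl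
    exact (ENNReal.mul_le_mul_iff_right (mul_ne_zero hT0 hc0) (ENNReal.mul_ne_top hTt hct)).1 h2
  by_contra hp
  set p := annealed μ Bd
  have hlim : Tendsto (fun m : ℕ => C1 * (m : ℝ≥0∞)⁻¹) atTop (𝓝 0) := by
    have := ENNReal.Tendsto.const_mul ENNReal.tendsto_inv_nat_nhds_zero (Or.inr hC1)
    simpa using this
  obtain ⟨m₂, hm₂⟩ := eventually_atTop.1 (hlim.eventually (ge_mem_nhds (ENNReal.half_pos hp)))
  set m₀ := max (max m₁ m₂) 1
  have hone : ∀ m, m₀ ≤ m → θ m * (p / 2) ≤ annealed μ (lowest a m) + C0 * ((m : ℝ≥0∞) ^ 2)⁻¹ := by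
    intro m hm
    have hm' : max m₁ 1 ≤ m := le_trans (max_le (le_trans (le_max_left _ _) (le_max_left _ _))
      (le_max_right _ _)) hm
    have h1 : p ≤ annealed μ (⋃ γ : {γ // FirstHit (levOf (-a)) m γ ∧ disp γ ∈ S m}, follow γ.1)
        + p / 2 :=
      (hexit m).trans (add_le_add le_rfl ((hslab m hm').trans
        (hm₂ m (le_trans ((le_max_right _ _).trans (le_max_left _ _)) hm))))
    have h2 : p / 2 ≤ annealed μ
        (⋃ γ : {γ // FirstHit (levOf (-a)) m γ ∧ disp γ ∈ S m}, follow γ.1) := by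
      have hpt : p ≠ ⊤ := measure_ne_top _ _
      rw [← ENNReal.add_halves p] at h1
      exact (ENNReal.add_le_add_iff_right (ne_top_of_le_ne_top hpt ENNReal.half_le_self)).1
        (by simpa [ENNReal.add_halves] using h1)
    refine (mul_le_mul' le_rfl h2).trans ((lowest_ge hrow a m (S m) (θ m) ENNReal.ofReal_ne_top).trans
      (add_le_add le_rfl ?_))
    have hm1 : 1 ≤ m := le_trans (le_max_right _ _) hm'
    refine (mul_le_mul' (hθ1 m hm1) (hbox m hm')).trans ?_
    rw [one_mul]
    exact mul_le_mul' le_rfl (ENNReal.inv_le_inv.2 (by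
      exact_mod_cast Nat.pow_le_pow_right hm1 (show 2 ≤ 5 by norm_num)))
  have hdiv : ∑' m, θ (m + m₀) = ⊤ := by
    by_contra hfin
    have hs : Summable fun m : ℕ => (Real.sqrt ((m + m₀ : ℕ) : ℝ))⁻¹ := by
      have := ENNReal.summable_toReal hfin
      refine this.congr fun m => ?_
      simp [θ, ENNReal.toReal_ofReal]
    rw [summable_nat_add_iff (f := fun m : ℕ => (Real.sqrt (m : ℝ))⁻¹) m₀] at hs
    have h2 : Summable fun m : ℕ => 1 / (m : ℝ) ^ (1 / 2 : ℝ) := by
      refine hs.congr fun m => ?_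
      rw [Real.sqrt_eq_rpow, one_div ((m : ℝ) ^ (1 / 2 : ℝ))]
    rw [Real.summable_one_div_nat_rpow] at h2
    norm_num at h2
  have hsum := ENNReal.tsum_le_tsum fun m => hone (m + m₀) (Nat.le_add_left _ _)
  rw [ENNReal.tsum_mul_right, hdiv, ENNReal.top_mul (ENNReal.half_pos hp).ne',
    ENNReal.tsum_add] at hsum
  have h1 : ∑' m, annealed μ (lowest a (m + m₀)) ≠ ⊤ := by
    refine ne_top_of_le_ne_top ENNReal.one_ne_top ?_
    rw [← measure_iUnion (fun i j hij => lowest_disjoint a (by omega)) fun m => ?_]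
    · exact prob_le_one
    · exact MeasurableSet.iUnion fun γ =>
        (measurableSet_follow _).inter ((measurable_theta.iterate _) (measurableSet_stayUp a))
  have h2 : ∑' m : ℕ, C0 * (((m + m₀ : ℕ) : ℝ≥0∞) ^ 2)⁻¹ ≠ ⊤ := by
    rw [ENNReal.tsum_mul_left]
    refine ENNReal.mul_ne_top (ENNReal.pow_ne_top (by simp)) ?_
    refine ne_top_of_le_ne_top (b := ∑' m : ℕ, ENNReal.ofReal (1 / ((m + m₀ : ℕ) : ℝ) ^ 2)) ?_
      (ENNReal.tsum_le_tsum fun m => ?_)
    · exact Summable.tsum_ofReal_ne_top ((summable_nat_add_iff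
        (f := fun m : ℕ => 1 / (m : ℝ) ^ 2) m₀).2 (Real.summable_one_div_nat_pow.2 one_lt_two))
    · have hpos : (0 : ℝ) < ((m + m₀ : ℕ) : ℝ) := by
        exact_mod_cast (show 0 < m + m₀ by omega)
      rw [one_div, ENNReal.ofReal_inv_of_pos (by positivity), ENNReal.ofReal_pow hpos.le,
        ENNReal.ofReal_natCast]
  exact absurd (top_le_iff.1 hsum) (ENNReal.add_ne_top.2 ⟨h1, h2⟩)

end Vale.Agent.P147.Velocity
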