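import Vale.Agent.P147.Velocity.OneSide
import Vale.Agent.P147.Anisotropic

/-!
P147: a good escape tail in one lattice direction with positive chance of escape gives the
zero-one law in every direction.
-/

open MeasureTheory Filter
open scoped ENNReal Topology

namespace Vale.Agent.P147.Velocity

variable {d : ℕ} [NeZero d] {μ : Measure (Step d → ℝ)} [IsProbabilityMeasure μ]

/-- A translation invariant null event is null after any number of steps. -/
lemma annealed_theta_null (hrow : ∀ᵐ p ∂μ, GoodRow p) {B : Set (Path d)} (hB : MeasurableSet B)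
    (htr : ∀ z, (fun (X : Path d) k => X k - z) ⁻¹' B = B) (h0 : annealed μ B = 0) (n : ℕ) :
    annealed μ (theta^[n] ⁻¹' B) = 0 := by
  have hz : ∀ᵐ ω ∂iidLaw μ, ∀ z : Site d, law ω z B = 0 := by
    refine ae_all_iff.mpr fun z => (lintegral_eq_zero_iff (measurable_law z hB)).mp ?_
    rw [lintegral_law_translate hrow hB htr z, h0]
  rw [annealed_apply μ ((measurable_theta.iterate n) hB)]
  refine (lintegral_congr_ae ?_).trans lintegral_zero
  filter_upwards [hz, ae_forall_site μ hrow] with ω h1 hω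
  suffices h : ∀ m z, law ω z (theta^[m] ⁻¹' B) = 0 from h _ _
  intro m
  induction m with
  | zero => exact h1
  | succ m ih =>
    intro z
    rw [Function.iterate_succ, Set.preimage_comp, law_theta hω z ((measurable_theta.iterate m) hB)]
    exact Finset.sum_eq_zero fun e _ => by rw [ih, mul_zero]

/-- A path escaping along `a` stays up after its last minimum, so an invariant event of positive
chance among these paths meets staying up. -/
lemma stayUp_inter_ne_zero (hrow : ∀ᵐ p ∂μ, GoodRow p) (a : Fin d → ℤ) {E : Set (Path d)}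
    (hE : MeasurableSet E) (hshift : theta ⁻¹' E = E)
    (htr : ∀ z, (fun (X : Path d) k => X k - z) ⁻¹' E = E)
    (hP : annealed μ (escape (fun i => (a i : ℝ)) ∩ E) ≠ 0) :
    annealed μ (stayUp a ∩ E) ≠ 0 := by
  intro h0
  refine hP ?_
  have hB : MeasurableSet (stayUp a ∩ E) := (measurableSet_stayUp a).inter hE
  refine measure_mono_null (t := ⋃ n : ℕ, theta^[n] ⁻¹' (stayUp a ∩ E)) ?_
    (measure_iUnion_null fun n => annealed_theta_null hrow hB (fun y => by
      rw [Set.preimage_inter, stayUp_translate, htr y]) h0 n)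
  rintro X ⟨hX, hXE⟩
  have hcast : ∀ t, (levOf a (X t) : ℝ) = ∑ i, (a i : ℝ) * (X t i : ℝ) := fun t => by
    rw [levOf_apply]; push_cast; rfl
  obtain ⟨N, hN⟩ := eventually_atTop.mp (tendsto_atTop.mp hX (levOf a (X 0) : ℝ))
  obtain ⟨n, hn, hmin⟩ := Finset.exists_min_image (Finset.range (N + 1))
    (fun t => levOf a (X t)) ⟨0, by simp⟩
  refine Set.mem_iUnion.mpr ⟨n, ?_, ?_⟩
  · intro t
    rw [theta_iterate]
    simp only [zero_add, map_sub, sub_nonneg]
    rcases Nat.lt_or_ge (t + n) (N + 1) with h | h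
    · exact hmin (t + n) (Finset.mem_range.mpr h)
    · have h1 := hN (t + n) (by omega)
      rw [← hcast] at h1
      exact (hmin 0 (by simp)).trans (by exact_mod_cast h1)
  · rwa [← preimage_iterate_theta hshift n] at hXE

lemma escape_translate' (ℓ : Fin d → ℝ) (z : Site d) :
    (fun (X : Path d) k => X k - z) ⁻¹' escape ℓ = escape ℓ := by
  ext X
  simp only [Set.mem_preimage, escape, Set.mem_ofPred_eq, Pi.sub_apply, Int.cast_sub, mul_sub,
    Finset.sum_sub_distrib]
  constructor
  · intro h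
    simpa using h.atTop_add (tendsto_const_nhds (x := ∑ i, ℓ i * (z i : ℝ)))
  · intro h
    exact h.atTop_add tendsto_const_nhds

/-- One good escape tail gives the zero-one law in every direction. -/
theorem one_side_zero_one (hrow : ∀ᵐ p ∂μ, GoodRow p) {κ : ℝ} (hκ : 0 < κ)
    (hell : ∀ᵐ p ∂μ, ∀ e, κ ≤ p e) {a : Fin d → ℤ} (ha : ∀ i, |a i| ≤ 1) (ha0 : ∃ i, a i ≠ 0)
    (hT : EscapeTail μ a) (hA : annealed μ (escape fun i => (a i : ℝ)) ≠ 0) :
    annealed μ (escape fun i => (a i : ℝ)) = 1 ∧ ∀ ℓ : Fin d → ℝ, ∃ c : ℝ≥0∞, (c = 0 ∨ c = 1) ∧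
      annealed μ (escape ℓ) = c ∧ ∀ᵐ ω ∂iidLaw μ, Good ω ∧ ∀ x, law ω x (escape ℓ) = c := by
  have hsup := ae_sup hrow hκ hell ha ha0 hT
  set Aa := escape fun i => ((a i : ℝ))
  have hAm : MeasurableSet Aa := measurableSet_escape _
  have key : ∀ E : Set (Path d), MeasurableSet E → theta ⁻¹' E = E →
      (∀ z, (fun (X : Path d) k => X k - z) ⁻¹' E = E) → annealed μ (Aa ∩ E) ≠ 0 →
      annealed μ E = 1 := fun E hE hs htr hne =>
    invariant_trivial hrow ha hsup hE hs htr (stayUp_inter_ne_zero hrow a hE hs htr hne)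
  have hone : annealed μ Aa = 1 :=
    key Aa hAm (theta_escape _) (escape_translate' _) (by rwa [Set.inter_self])
  refine ⟨hone, fun ℓ => ?_⟩
  by_cases h0 : annealed μ (escape ℓ) = 0
  · exact ⟨0, Or.inl rfl, h0, zero_one_projection_quenched μ hrow ℓ (Or.inl rfl) h0⟩
  · have h1 : annealed μ (escape ℓ) = 1 := by
      refine key _ (measurableSet_escape ℓ) (theta_escape ℓ) (escape_translate' ℓ) fun h => h0 ?_
      have hc : annealed μ Aaᶜ = 0 := (prob_compl_eq_zero_iff hAm).mpr hone
      refine measure_mono_null (fun X hX => ?_) (measure_union_null h hc)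
      by_cases hXv : X ∈ Aa
      · exact Or.inl ⟨hXv, hX⟩
      · exact Or.inr hXv
    exact ⟨1, Or.inr rfl, h1, zero_one_projection_quenched μ hrow ℓ (Or.inr rfl) h1⟩

end Vale.Agent.P147.Velocity
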