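import Vale.Agent.P147.Velocity.Windows
import Vale.Agent.P147.Velocity.Meet
import Vale.Agent.P147.Velocity.Renewal

/-!
P147: two turns with few meets have probability bounded below: the two ends are independent by
renewal and every other pair of pieces meets boundedly often on average.
-/

open Filter
open scoped ENNReal

namespace Vale.Agent.P147.Velocity.Beam

variable {α β : Type*} (P : Beam α) (Q : Beam β) (f : α → ℕ) (g : β → ℕ)

/-- The average over three lists with the middle one hitting the height of the first. -/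
noncomputable def turns (n K M : ℕ) (F : List α → List β → List α → ℝ≥0∞) : ℝ≥0∞ :=
  P.avg (n + 1) fun U => ∑ k ∈ Finset.range K, Q.avg k fun V => P.avg (M + 1) fun Z =>
    ind ((V.map g).sum = (U.map f).sum) * F U V Z

variable {P Q f g}

lemma turns_mono {n K M : ℕ} {F G : List α → List β → List α → ℝ≥0∞}
    (h : ∀ U V Z, U.length = n + 1 → (V.map g).sum = (U.map f).sum → F U V Z ≤ G U V Z) :
    P.turns Q f g n K M F ≤ P.turns Q f g n K M G := by
  unfold turns
  refine avg_mono_of_length fun U hU => Finset.sum_le_sum fun k _ => avg_mono fun V => ?_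
  refine avg_mono fun Z => ?_
  by_cases hh : (V.map g).sum = (U.map f).sum
  · exact mul_le_mul' le_rfl (h U V Z hU hh)
  · simp [ind_neg hh]

lemma turns_add (n K M : ℕ) (F G : List α → List β → List α → ℝ≥0∞) :
    P.turns Q f g n K M (fun U V Z => F U V Z + G U V Z)
      = P.turns Q f g n K M F + P.turns Q f g n K M G := by
  simp only [turns, Beam.avg, mul_add, avg_fun_add, Finset.sum_add_distrib]

lemma turns_const_mul (n K M : ℕ) (c : ℝ≥0∞) (F : List α → List β → List α → ℝ≥0∞) :
    P.turns Q f g n K M (fun U V Z => c * F U V Z) = c * P.turns Q f g n K M F := by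
  simp only [turns, Beam.avg, mul_left_comm _ c, avg_const_mul, ← Finset.mul_sum]

lemma meets_eq_zero {A C : List Pt} (h : ∀ x ∈ A, ∀ y ∈ C, x ≠ y) : meets A C = 0 := by
  induction A with
  | nil => rfl
  | cons x A ih =>
    rw [meets_cons_left, ih fun a ha => h a (List.mem_cons_of_mem _ ha),
      List.count_eq_zero_of_not_mem fun hx => h x List.mem_cons_self x hx rfl]

variable (hg : ∀ a, (g a : ℤ) = (Q.disp a).1)
include hg

lemma turns_first_le (n K M : ℕ) (F : List α → ℝ≥0∞) :
    P.turns Q f g n K M (fun U _ _ => F U) ≤ P.avg (n + 1) F := by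
  unfold turns
  refine avg_mono fun U => ?_
  simp only [Beam.avg, avg_mul_const, avg_const P.sum_w, ← Finset.sum_mul]
  exact (mul_le_mul' (Q.sum_hit_one hg K _) le_rfl).trans (one_mul _).le

lemma turns_last_le (n K M : ℕ) (F : List α → ℝ≥0∞) :
    P.turns Q f g n K M (fun _ _ Z => F Z) ≤ P.avg (M + 1) F := by
  unfold turns
  refine avg_le_const P.sum_w fun U _ => ?_
  simp only [Beam.avg, avg_const_mul, avg_mul_const, ← Finset.sum_mul]
  exact (mul_le_mul' (Q.sum_hit_one hg K _) le_rfl).trans (one_mul _).le

lemma turns_middle_le (n K M : ℕ) (F : List α → List β → List α → ℝ≥0∞)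
    (hF : ∀ U Z V V', V <+: V' → F U V Z ≤ F U V' Z) :
    P.turns Q f g n K M F ≤
      P.avg (n + 1) fun U => Q.avg K fun V => P.avg (M + 1) fun Z => F U V Z := by
  unfold turns
  refine avg_mono fun U => ?_
  simp only [Beam.avg, avg_const_mul]
  exact Q.sum_hit_mono_le hg K _ (fun V => Velocity.avg P.w (M + 1) fun Z => F U V Z)
    fun L L' h => avg_mono fun Z => hF U Z L L' h

lemma turns_middle_rev_le (n K M : ℕ) (F : List α → List β → List α → ℝ≥0∞)
    (hF : ∀ U Z V V', V <+: V' → F U V Z ≤ F U V' Z) :
    P.turns Q f g n K M (fun U V Z => F U V.reverse Z) ≤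
      P.avg (n + 1) fun U => Q.avg K fun V => P.avg (M + 1) fun Z => F U V Z := by
  refine le_trans (le_of_eq ?_) (turns_middle_le (f := f) hg n K M F hF)
  unfold turns
  refine avg_congr_of_length fun U _ => ?_
  simp only [Beam.avg, avg_const_mul]
  exact Q.sum_hit_reverse K _ fun V => Velocity.avg P.w (M + 1) fun Z => F U V Z

lemma hit_sum_ge {g₀ : ℝ≥0∞} (hren : ∀ N, g₀ ≤ renew Q.w g N) {x K : ℕ} (hx : x < K) :
    g₀ ≤ ∑ k ∈ Finset.range K, Q.avg k fun V => ind ((V.map g).sum = x) := by
  refine (hren x).trans (le_of_eq ?_)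
  rw [renew, tsum_eq_sum (s := Finset.range K) fun k hk => ?_]
  · refine Finset.sum_congr rfl fun k _ => avg_congr_of_length fun V _ => ?_
    by_cases h : (V.map g).sum = x <;> simp [ind, h]
  · refine le_antisymm ((avg_mono_of_length (G := fun _ => 0 * 1) fun V hV => ?_).trans
      (by rw [avg_const_mul]; simp)) zero_le
    rw [if_neg]
    · simp
    · have := Q.length_le_height hg V
      simp at hk
      omega

variable (hf : ∀ a, (f a : ℤ) = (P.disp a).1)
include hf

/-- The overlap split into the two main ends and six bad pieces. -/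
lemma overlap_split {n m m₁ : ℕ} {U : List α} {V : List β} {Z : List α} (hU : U.length = n + 1)
    (hm₁ : m₁ ≤ n + 1) (hV : (V.map g).sum = (U.map f).sum)
    (hZ : ((Z.take m).map f).sum < m₁) :
    meets (P.rev.trace U.reverse) (Q.trace V) + meets (P.trace Z) (Q.rev.trace V.reverse) +
        meets (P.trace U) ((P.trace Z).map (P.total U - Q.total V + ·)) ≤
      meets (P.rev.trace (U.reverse.take n)) (Q.trace (V.take m)) +
      meets (P.rev.window n U.reverse) (Q.trace (V.take m)) +
      meets (P.rev.trace U.reverse) (Q.window m V) +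
      meets (P.trace (Z.take n)) (Q.rev.trace (V.reverse.take m)) +
      meets (P.window n Z) (Q.rev.trace (V.reverse.take m)) +
      meets (P.trace Z) (Q.rev.window m V.reverse) +
      meets (P.trace U) ((P.window m Z).map (P.total U - Q.total V + ·)) +
      meets (P.trace (U.take m₁)) ((P.trace (Z.take m)).map (P.total U - Q.total V + ·)) := by
  have h0 : (P.total U - Q.total V).1 = 0 := by
    rw [Prod.fst_sub, P.total_fst hf, Q.total_fst hg, hV, sub_self]
  have e1 : meets (P.rev.trace U.reverse) (Q.trace V) =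
      meets (P.rev.trace (U.reverse.take n)) (Q.trace (V.take m)) +
      meets (P.rev.window n U.reverse) (Q.trace (V.take m)) +
      meets (P.rev.trace U.reverse) (Q.window m V) := by
    rw [Q.trace_split m V, meets_append_right, P.rev.trace_split n U.reverse, meets_append_left]
  have e2 : meets (P.trace Z) (Q.rev.trace V.reverse) =
      meets (P.trace (Z.take n)) (Q.rev.trace (V.reverse.take m)) +
      meets (P.window n Z) (Q.rev.trace (V.reverse.take m)) +
      meets (P.trace Z) (Q.rev.window m V.reverse) := by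
    rw [Q.rev.trace_split m V.reverse, meets_append_right, P.trace_split n Z, meets_append_left]
  have e3 : meets (P.trace U) ((P.trace Z).map (P.total U - Q.total V + ·)) =
      meets (P.trace (U.take m₁)) ((P.trace (Z.take m)).map (P.total U - Q.total V + ·)) +
      meets (P.window m₁ U) ((P.trace (Z.take m)).map (P.total U - Q.total V + ·)) +
      meets (P.trace U) ((P.window m Z).map (P.total U - Q.total V + ·)) := by
    rw [P.trace_split m Z, List.map_append, meets_append_right, P.trace_split m₁ U,
      meets_append_left]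
  have e4 : meets (P.window m₁ U) ((P.trace (Z.take m)).map (P.total U - Q.total V + ·)) = 0 := by
    refine meets_eq_zero fun x hx y hy hxy => ?_
    obtain ⟨z, hz, rfl⟩ := List.mem_map.mp hy
    have h1 := P.window_low (by omega) x hx
    have h2 := (P.trace_range z hz).2
    rw [P.total_fst hf] at h2
    rw [hxy, Prod.fst_add, h0] at h1
    omega
  omega

/-- Splitting the middle list into two free ends and a renewal in between. -/
lemma ends_le {g₀ : ℝ≥0∞} (hren : ∀ N, g₀ ≤ renew Q.w g N) (n m M : ℕ) (hm : m ≤ n)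
    (hM : n ≤ M) (A : List α → List β → ℝ≥0∞) (B : List β → List α → ℝ≥0∞)
    (hA : ∀ U L, A U L ≤ 1) (hB : ∀ R Z, B R Z ≤ 1) :
    g₀ * ((P.avg (n + 1) fun U => Q.avg m fun L => A U L) *
        (Q.avg m fun R => P.avg (M + 1) fun Z => B R.reverse Z)) ≤
      P.turns Q f g n (3 * M + 1) M (fun U V Z => A U (V.take m) * B (V.reverse.take m) Z) +
      ((Q.avg (m + m) fun L => ind (n < (L.map g).sum)) +
        P.avg (n + 1) fun U => ind (M < (U.map f).sum)) := by
  have hg1 : g₀ ≤ 1 := (hit_sum_ge hg hren (show 0 < 1 by norm_num)).trans (Q.sum_hit_one hg 1 0)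
  have hlow : ∀ U : List α,
      ∑ i ∈ Finset.range (3 * M + 1 - (m + m)), (Q.avg m fun L => Q.avg m fun R => Q.avg i fun Mid =>
          ind (((L ++ (Mid ++ R)).map g).sum = (U.map f).sum) *
            (A U L * P.avg (M + 1) fun Z => B R.reverse Z)) ≤
      ∑ k ∈ Finset.range (3 * M + 1), Q.avg k fun V => P.avg (M + 1) fun Z =>
        ind ((V.map g).sum = (U.map f).sum) * (A U (V.take m) * B (V.reverse.take m) Z) := by
    intro U
    refine le_trans (le_of_eq ?_) (Finset.sum_le_sum_of_subset
      (s := (Finset.range (3 * M + 1 - (m + m))).image fun i => m + (i + m)) fun k hk => ?_)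
    · rw [Finset.sum_image fun i _ j _ h => by omega]
      refine Finset.sum_congr rfl fun i _ => ?_
      rw [Beam.avg, Beam.avg, avg_append]
      refine avg_congr_of_length fun L hL => ?_
      rw [avg_append, avg_comm]
      refine avg_congr_of_length fun R hR => avg_congr_of_length fun Mid _ => ?_
      rw [List.take_left' hL, List.reverse_append, List.reverse_append, List.append_assoc,
        List.take_left' (by rw [List.length_reverse, hR])]
      simp only [Beam.avg, avg_const_mul]
    · obtain ⟨i, hi, rfl⟩ := Finset.mem_image.mp hk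
      simp at hi ⊢
      omega
  set Ball := Q.avg m fun R => P.avg (M + 1) fun Z => B R.reverse Z
  have step : ∀ U : List α, U.length = n + 1 →
      g₀ * ((Q.avg m fun L => A U L) * Ball) ≤
        (∑ k ∈ Finset.range (3 * M + 1), Q.avg k fun V => P.avg (M + 1) fun Z =>
          ind ((V.map g).sum = (U.map f).sum) * (A U (V.take m) * B (V.reverse.take m) Z)) +
        ((Q.avg m fun L => Q.avg m fun R => ind (n < (L.map g).sum + (R.map g).sum)) +
          ind (M < (U.map f).sum)) := by
    intro U hU
    refine le_trans ?_ (add_le_add (hlow U) le_rfl)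
    have e1 : g₀ * ((Q.avg m fun L => A U L) * Ball) = Q.avg m fun L => Q.avg m fun R =>
        g₀ * (A U L * P.avg (M + 1) fun Z => B R.reverse Z) := by
      simp only [Beam.avg]
      rw [← avg_mul_const, ← avg_const_mul]
      refine avg_congr_of_length fun L _ => ?_
      rw [avg_const_mul, avg_const_mul]
    have e2 : ∑ i ∈ Finset.range (3 * M + 1 - (m + m)), (Q.avg m fun L => Q.avg m fun R =>
        Q.avg i fun Mid => ind (((L ++ (Mid ++ R)).map g).sum = (U.map f).sum) *
            (A U L * P.avg (M + 1) fun Z => B R.reverse Z)) =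
        Q.avg m fun L => Q.avg m fun R => (∑ i ∈ Finset.range (3 * M + 1 - (m + m)), Q.avg i
          fun Mid => ind (((L ++ (Mid ++ R)).map g).sum = (U.map f).sum)) *
            (A U L * P.avg (M + 1) fun Z => B R.reverse Z) := by
      simp only [Beam.avg]
      rw [← avg_sum]
      refine avg_congr_of_length fun L _ => ?_
      rw [← avg_sum]
      refine avg_congr_of_length fun R _ => ?_
      rw [Finset.sum_mul]
      exact Finset.sum_congr rfl fun i _ => avg_mul_const _ _ _
    rw [e1, e2]
    simp only [Beam.avg]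
    conv_rhs => rw [← avg_const Q.sum_w m (ind (M < (U.map f).sum)), ← avg_fun_add, ← avg_fun_add]
    refine avg_mono fun L => ?_
    conv_rhs => rw [← avg_const Q.sum_w m (ind (M < (U.map f).sum)), ← avg_fun_add, ← avg_fun_add]
    refine avg_mono fun R => ?_
    set X := A U L * Velocity.avg P.w (M + 1) fun Z => B R.reverse Z
    have hX : X ≤ 1 :=
      (mul_le_mul' (hA U L) (avg_le_const P.sum_w fun Z _ => hB _ Z)).trans (one_mul _).le
    by_cases h1 : (L.map g).sum + (R.map g).sum ≤ (U.map f).sum
    · by_cases h2 : (U.map f).sum ≤ M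
      · refine le_trans ?_ le_self_add
        refine mul_le_mul' ?_ le_rfl
        refine (hit_sum_ge hg hren (x := (U.map f).sum - (L.map g).sum - (R.map g).sum)
          (K := 3 * M + 1 - (m + m)) (by omega)).trans (le_of_eq ?_)
        refine Finset.sum_congr rfl fun i _ => avg_congr_of_length fun Mid _ => ind_congr ?_
        simp only [List.map_append, List.sum_append]
        omega
      · refine le_trans ((mul_le_mul' hg1 hX).trans (one_mul _).le) ?_
        rw [ind_pos (not_le.mp h2)]
        exact le_trans le_add_self le_add_self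
    · refine le_trans ((mul_le_mul' hg1 hX).trans (one_mul _).le) ?_
      have h3 := P.length_le_height hf U
      rw [ind_pos (show n < (L.map g).sum + (R.map g).sum by omega)]
      exact le_trans le_self_add le_add_self
  have e : (Q.avg (m + m) fun L => ind (n < (L.map g).sum)) =
      Q.avg m fun L => Q.avg m fun R => ind (n < (L.map g).sum + (R.map g).sum) := by
    simp [Beam.avg, avg_append, List.map_append, List.sum_append]
  rw [e, Beam.avg, ← avg_mul_const, ← avg_const_mul]
  refine (avg_mono_of_length step).trans (le_of_eq ?_)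
  simp only [avg_fun_add, avg_const P.sum_w, turns, Beam.avg]

omit hf in
lemma bad_high (n K M m m₁ : ℕ) (hm : m ≤ M + 1) :
    P.turns Q f g n K M (fun _ _ Z => ind (m₁ < ((Z.take m).map f).sum)) ≤
      m * (∑' a, P.w a * (f a : ℝ≥0∞)) / ((m₁ : ℝ≥0∞) + 1) := by
  refine (turns_last_le hg n K M _).trans ?_
  rw [Beam.avg, avg_take P.sum_w hm (fun Z => ind (m₁ < (Z.map f).sum))]
  exact P.avg_high_le f m m₁

omit hf in
lemma bad_extra (n K M m : ℕ) (hm : m ≤ K) :
    P.turns Q f g n K M (fun U V _ => (meets (P.rev.window n U.reverse) (Q.trace (V.take m)) : ℝ≥0∞))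
      ≤ P.mass * Q.mass := by
  refine (turns_middle_le hg n K M (fun U V _ =>
    (meets (P.rev.window n U.reverse) (Q.trace (V.take m)) : ℝ≥0∞)) fun U Z V V' h =>
    Nat.cast_le.mpr (Q.trace_take_mono h _)).trans ?_
  have h1 : ∀ A : List Pt, Velocity.avg Q.w m (fun V => (meets A (Q.trace V) : ℝ≥0∞)) ≤
      (A.length : ℝ≥0∞) * Q.mass := by
    intro A
    have h := Q.avg_window_meets_le 0 m A 0
    refine le_trans (le_of_eq (avg_congr_of_length fun V _ => ?_)) (h.trans ?_)
    · simp [window]
    · exact (sum_map_le fun x _ => Q.load_le_mass 0 m _).trans (sum_map_const A Q.mass).le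
  calc _ ≤ P.avg (n + 1) fun U => ((P.rev.window n U.reverse).length : ℝ≥0∞) * Q.mass := by
        refine avg_mono fun U => ?_
        simp only [Beam.avg, avg_const P.sum_w]
        rw [avg_take Q.sum_w hm (fun V => (meets (P.rev.window n U.reverse) (Q.trace V) : ℝ≥0∞))]
        exact h1 _
    _ = _ := by
        rw [Beam.avg, avg_mul_const, avg_reverse (n + 1) fun U => ((P.rev.window n U).length : ℝ≥0∞)]
        have := P.rev.avg_length_window n 1
        rw [P.rev_mass] at this
        rw [show Velocity.avg P.w (n + 1) (fun U => ((P.rev.window n U).length : ℝ≥0∞)) = _ from this]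
        simp

variable {KP KQ : ℝ≥0∞} (hKP : ∀ k, ∑' l : ℤ, P.hitSup k l ≤ KP / ((k : ℝ≥0∞) + 1))
  (hKQ : ∀ k, ∑' l : ℤ, Q.hitSup k l ≤ KQ / ((k : ℝ≥0∞) + 1))

omit hf in
include hKQ in
lemma bad_top (n K M m : ℕ) :
    P.turns Q f g n K M (fun U V _ => (meets (P.rev.trace U.reverse) (Q.window m V) : ℝ≥0∞))
      ≤ P.mass * (Q.mass * (KQ * ((K : ℝ≥0∞) / ((m : ℝ≥0∞) + 1)))) := by
  refine (turns_middle_le hg n K M (fun U V _ =>
    (meets (P.rev.trace U.reverse) (Q.window m V) : ℝ≥0∞)) fun U Z V V' h =>
    Nat.cast_le.mpr (Q.window_mono h _)).trans ?_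
  simp only [Beam.avg, avg_const P.sum_w]
  rw [avg_reverse (n + 1) fun U => Velocity.avg Q.w K fun V =>
    (meets (P.rev.trace U) (Q.window m V) : ℝ≥0∞)]
  have := Q.avg_window_meets P.rev hKQ (n + 1) m K
  rwa [P.rev_mass] at this

omit hf in
include hKP in
lemma bad_bottom_window (n K M m : ℕ) (hm : m ≤ K) :
    P.turns Q f g n K M
        (fun _ V Z => (meets (P.window n Z) (Q.rev.trace (V.reverse.take m)) : ℝ≥0∞))
      ≤ Q.mass * (P.mass * (KP * (((M + 1 : ℕ) : ℝ≥0∞) / ((n : ℝ≥0∞) + 1)))) := by
  refine (turns_middle_rev_le hg n K M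
    (fun _ V Z => (meets (P.window n Z) (Q.rev.trace (V.take m)) : ℝ≥0∞)) fun U Z V V' h =>
    Nat.cast_le.mpr (Q.rev.trace_take_mono h _)).trans ?_
  refine avg_le_const P.sum_w fun U _ => ?_
  simp only [Beam.avg]
  rw [avg_take Q.sum_w hm fun V => Velocity.avg P.w (M + 1) fun Z =>
    (meets (P.window n Z) (Q.rev.trace V) : ℝ≥0∞)]
  have := P.avg_window_meets Q.rev hKP m n (M + 1)
  rw [Q.rev_mass] at this
  refine le_trans (le_of_eq ?_) this
  refine avg_congr_of_length fun V _ => avg_congr_of_length fun Z _ => ?_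
  rw [meets_comm]

omit hf in
include hKQ in
lemma bad_bottom (n K M m : ℕ) :
    P.turns Q f g n K M (fun _ V Z => (meets (P.trace Z) (Q.rev.window m V.reverse) : ℝ≥0∞))
      ≤ P.mass * (Q.mass * (KQ * ((K : ℝ≥0∞) / ((m : ℝ≥0∞) + 1)))) := by
  refine (turns_middle_rev_le hg n K M
    (fun _ V Z => (meets (P.trace Z) (Q.rev.window m V) : ℝ≥0∞)) fun U Z V V' h =>
    Nat.cast_le.mpr (Q.rev.window_mono h _)).trans ?_
  refine avg_le_const P.sum_w fun U _ => ?_
  simp only [Beam.avg]
  rw [avg_comm]
  have := Q.rev.avg_window_meets P (K₀ := KQ) hKQ (M + 1) m K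
  rw [Q.rev_mass] at this
  exact this

include hKP in
lemma bad_far (n K M m : ℕ) :
    P.turns Q f g n K M (fun U V Z =>
        (meets (P.trace U) ((P.window m Z).map (P.total U - Q.total V + ·)) : ℝ≥0∞))
      ≤ P.mass * (P.mass * (KP * (((M + 1 : ℕ) : ℝ≥0∞) / ((m : ℝ≥0∞) + 1)))) := by
  calc _ ≤ P.avg (n + 1) fun U => ((P.trace U).map fun x => P.load m (M + 1) x.1).sum := by
        refine avg_mono fun U => ?_
        calc _ ≤ ∑ k ∈ Finset.range K, Q.avg k fun V => ind ((V.map g).sum = (U.map f).sum) *
              ((P.trace U).map fun x => P.load m (M + 1) x.1).sum := by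
              refine Finset.sum_le_sum fun k _ => avg_mono fun V => ?_
              simp only [Beam.avg, avg_const_mul]
              by_cases hh : (V.map g).sum = (U.map f).sum
              · refine mul_le_mul' le_rfl ?_
                refine (P.avg_window_meets_le m (M + 1) (P.trace U)
                  (P.total U - Q.total V)).trans (le_of_eq ?_)
                simp [P.total_fst hf, Q.total_fst hg, hh]
              · simp [ind_neg hh]
          _ ≤ _ := by
              simp only [Beam.avg, avg_mul_const, ← Finset.sum_mul]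
              exact (mul_le_mul' (Q.sum_hit_one hg K _) le_rfl).trans (one_mul _).le
    _ ≤ P.mass * ∑' l : ℤ, P.load m (M + 1) l := P.avg_trace_le _ _
    _ ≤ _ := mul_le_mul' le_rfl ((P.tsum_load_le hKP _ _).trans
        (mul_le_mul' le_rfl (mul_le_mul' le_rfl (sum_inv_Ico_le _ _))))

include hKP in
lemma bad_near (n K M m m₁ r : ℕ) (hr : m₁ + r = n + 1) (hm : m ≤ M + 1) :
    P.turns Q f g n K M (fun U V Z =>
        (meets (P.trace (U.take m₁)) ((P.trace (Z.take m)).map (P.total U - Q.total V + ·)) : ℝ≥0∞))
      ≤ (m : ℝ≥0∞) * P.mass * (P.mass * (KP / ((r : ℝ≥0∞) + 1))) := by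
  set A := KP / ((r : ℝ≥0∞) + 1)
  set Y : List α → List Pt := fun Z => P.trace (Z.take m)
  calc P.turns Q f g n K M (fun U V Z =>
          (meets (P.trace (U.take m₁)) ((Y Z).map (P.total U - Q.total V + ·)) : ℝ≥0∞))
      ≤ P.avg m₁ fun H => P.avg (M + 1) fun Z =>
          ((P.trace H).map fun x => ((Y Z).map fun y => ind (x.1 = y.1) * A).sum).sum := by
        rw [turns, ← hr, Beam.avg, avg_append]
        refine avg_mono_of_length fun H hH => ?_
        calc _ = P.avg (M + 1) fun Z => P.avg r fun R => ∑ k ∈ Finset.range K, Q.avg k fun V =>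
              ind ((V.map g).sum = ((H ++ R).map f).sum) * (meets (P.trace H)
                ((Y Z).map (P.total (H ++ R) - Q.total V + ·)) : ℝ≥0∞) := by
              simp only [Beam.avg]
              rw [avg_comm (M + 1) r]
              refine avg_congr_of_length fun R _ => ?_
              rw [avg_sum]
              refine Finset.sum_congr rfl fun k _ => ?_
              rw [avg_comm (M + 1) k]
              simp [List.take_left' hH]
          _ ≤ _ := by
              refine avg_mono fun Z => ?_
              calc _ ≤ P.avg r fun R => ((P.trace H).map fun x => ((Y Z).map fun y =>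
                    ind (x.1 = y.1) * ∑ k ∈ Finset.range K, Q.avg k fun V =>
                      ind (P.total R - Q.total V = x - y - P.total H)).sum).sum := by
                    refine avg_mono fun R => ?_
                    calc _ ≤ ∑ k ∈ Finset.range K, Q.avg k fun V =>
                          ((P.trace H).map fun x => ((Y Z).map fun y => ind (x.1 = y.1) *
                            ind (P.total R - Q.total V = x - y - P.total H)).sum).sum := by
                          refine Finset.sum_le_sum fun k _ => avg_mono fun V => ?_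
                          by_cases hh : (V.map g).sum = ((H ++ R).map f).sum
                          · rw [ind_pos hh, one_mul, meets_cast_eq]
                            refine sum_map_le fun x _ => ?_
                            rw [List.map_map]
                            refine sum_map_le fun y _ => ?_
                            simp only [Function.comp_apply]
                            by_cases hy : P.total (H ++ R) - Q.total V + y = x
                            · have h0 : x.1 = y.1 := by
                                rw [← hy, Prod.fst_add, Prod.fst_sub, P.total_fst hf,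
                                  Q.total_fst hg, hh]
                                simp
                              rw [ind_pos hy, ind_pos h0, ind_pos (show P.total R - Q.total V =
                                x - y - P.total H by rw [← hy, total_append]; abel), one_mul]
                            · rw [ind_neg hy]; exact zero_le
                          · rw [ind_neg hh, zero_mul]; exact zero_le
                      _ = _ := by
                          simp only [avg_list_sum, Beam.avg, avg_const_mul]
                          induction P.trace H with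
                          | nil => simp
                          | cons x l ih =>
                            simp only [List.map_cons, List.sum_cons, Finset.sum_add_distrib, ih]
                            congr 1
                            induction Y Z with
                            | nil => simp
                            | cons y l ih2 =>
                              simp only [List.map_cons, List.sum_cons, Finset.sum_add_distrib, ih2,
                                ← Finset.mul_sum]
                _ ≤ _ := by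
                    rw [avg_list_sum]
                    refine sum_map_le fun x _ => ?_
                    rw [avg_list_sum]
                    refine sum_map_le fun y _ => ?_
                    rw [Beam.avg, avg_const_mul]
                    exact mul_le_mul' le_rfl ((P.avg_offset_le Q r K _).trans (hKP r))
    _ ≤ P.avg (M + 1) fun Z => ((Y Z).length : ℝ≥0∞) * (P.mass * A) := by
        simp only [Beam.avg]
        rw [avg_comm m₁ (M + 1)]
        refine avg_mono fun Z => ?_
        rw [← sum_map_const]
        calc _ = Velocity.avg P.w m₁ (fun H => ((Y Z).map fun y =>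
              ((P.trace H).map fun x => ind (x.1 = y.1) * A).sum).sum) := by
              refine avg_congr_of_length fun H _ => ?_
              induction P.trace H with
              | nil => simp
              | cons x l ih => simp [ih]
          _ ≤ _ := by
              refine le_trans (P.avg_list_sum m₁ _ _).le (sum_map_le fun y _ => ?_)
              refine (P.avg_trace_le m₁ fun z => ind (z = y.1) * A).trans ?_
              rw [ENNReal.tsum_mul_right, tsum_eq_single y.1 fun z hz => ind_neg hz, ind_pos rfl,
                one_mul]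
    _ = _ := by
        simp only [Beam.avg, Y, avg_mul_const]
        rw [avg_take P.sum_w hm fun Z => ((P.trace Z).length : ℝ≥0∞)]
        have := P.avg_length_trace m
        rw [show Velocity.avg P.w m (fun Z => ((P.trace Z).length : ℝ≥0∞)) = _ from this]

/-- With probability bounded below the two turns meet at most logarithmically with a small
constant. -/
theorem turns_good (hPA : P.Atoms) (hQA : Q.Atoms) (hPm : P.mass ≠ ⊤) (hQm : Q.mass ≠ ⊤)
    (hPh : ∑' a, P.w a * (f a : ℝ≥0∞) ≠ ⊤) (hQh : ∑' a, Q.w a * (g a : ℝ≥0∞) ≠ ⊤)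
    {g₀ : ℝ≥0∞} (hg₀ : g₀ ≠ 0) (hren : ∀ N, g₀ ≤ renew Q.w g N) {a₀ : α} (ha₀ : P.w a₀ ≠ 0)
    {η : ℝ} (hη : 0 < η) :
    ∃ c : ℝ≥0∞, c ≠ 0 ∧ ∀ᶠ n : ℕ in atTop, ∃ M K T : ℕ, (T : ℝ) ≤ η * Real.log n ∧
      c ≤ P.avg (n + 1) fun U => ∑ k ∈ Finset.range K, Q.avg k fun V => P.avg (M + 1) fun Z =>
        ind (U.head? = some a₀ ∧ (U.map f).sum ≤ M ∧ (V.map g).sum = (U.map f).sum ∧
          meets (P.rev.trace U.reverse) (Q.trace V) + meets (P.trace Z) (Q.rev.trace V.reverse) +
            meets (P.trace U) ((P.trace Z).map (P.total U - Q.total V + ·)) ≤ T) := by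
  classical
  obtain ⟨c₁, hc₁, hev₁⟩ := meets_small P.rev Q (P.rev_atoms hPA) hQA (by rwa [P.rev_mass]) hQm
    (show (0 : ℝ) < η / 8 by linarith)
  obtain ⟨c₂, hc₂, hev₂⟩ := meets_small P Q.rev hPA (Q.rev_atoms hQA) hPm (by rwa [Q.rev_mass])
    (show (0 : ℝ) < η / 8 by linarith)
  obtain ⟨KP, hKPt, hKP⟩ := P.spread hPA
  obtain ⟨KQ, hKQt, hKQ⟩ := Q.spread hQA
  set GP := ∑' a, P.w a * (f a : ℝ≥0∞)
  set GQ := ∑' a, Q.w a * (g a : ℝ≥0∞)
  set q := g₀ * (P.w a₀ * c₁ * c₂)
  have hw0 : P.w a₀ ≤ 1 := P.sum_w ▸ ENNReal.le_tsum a₀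
  have hg1 : g₀ ≤ 1 := (hit_sum_ge hg hren (show 0 < 1 by norm_num)).trans (Q.sum_hit_one hg 1 0)
  have hq : q ≠ 0 := mul_ne_zero hg₀ (mul_ne_zero (mul_ne_zero ha₀ hc₁) hc₂)
  have hq4 : q / 4 ≠ 0 := ENNReal.div_ne_zero.mpr ⟨hq, by norm_num⟩
  set S := 2 * GQ + 8 * GP
  have hS : S ≠ ⊤ := by simp [S, hPh, hQh, ENNReal.mul_ne_top]
  obtain ⟨D₀, hD₀, hD⟩ := ENNReal.exists_nat_pos_mul_gt hq4 hS
  set D := D₀ + 2
  have hDS : S / D ≤ q / 4 := by
    rw [ENNReal.div_le_iff (by simp [D]) (ENNReal.natCast_ne_top _)]
    refine hD.le.trans ?_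
    rw [mul_comm]
    exact mul_le_mul' le_rfl (Nat.cast_le.mpr (by omega))
  set BB := P.mass * Q.mass + P.mass * (Q.mass * (KQ * (4 * (D : ℝ≥0∞) * D))) +
    Q.mass * (P.mass * (KP * ((D : ℝ≥0∞) + 1))) +
    P.mass * (Q.mass * (KQ * (4 * (D : ℝ≥0∞) * D))) +
    P.mass * (P.mass * (KP * (4 * (D : ℝ≥0∞) * D))) + P.mass * (P.mass * KP)
  have hBB : BB ≠ ⊤ := by
    have h4 : (4 * (D : ℝ≥0∞) * D) ≠ ⊤ :=
      ENNReal.mul_ne_top (ENNReal.mul_ne_top (by norm_num) (ENNReal.natCast_ne_top D))
        (ENNReal.natCast_ne_top D)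
    have e1 := ENNReal.mul_ne_top hPm (ENNReal.mul_ne_top hQm (ENNReal.mul_ne_top hKQt h4))
    have e2 := ENNReal.mul_ne_top hQm (ENNReal.mul_ne_top hPm (ENNReal.mul_ne_top hKPt
      (ENNReal.add_ne_top.mpr ⟨ENNReal.natCast_ne_top D, ENNReal.one_ne_top⟩)))
    have e3 := ENNReal.mul_ne_top hPm (ENNReal.mul_ne_top hPm (ENNReal.mul_ne_top hKPt h4))
    have e4 := ENNReal.mul_ne_top hPm (ENNReal.mul_ne_top hPm hKPt)
    exact ENNReal.add_ne_top.mpr ⟨ENNReal.add_ne_top.mpr ⟨ENNReal.add_ne_top.mpr
      ⟨ENNReal.add_ne_top.mpr ⟨ENNReal.add_ne_top.mpr ⟨ENNReal.mul_ne_top hPm hQm, e1⟩, e2⟩, e1⟩,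
      e3⟩, e4⟩
  refine ⟨q / 4, hq4, ?_⟩
  have hlog : Tendsto (fun n : ℕ => ⌊η / 8 * Real.log n⌋₊) atTop atTop :=
    tendsto_nat_floor_atTop.comp
      ((Real.tendsto_log_atTop.comp tendsto_natCast_atTop_atTop).const_mul_atTop (by linarith))
  have hsmall : ∀ᶠ n : ℕ in atTop,
      BB / ((⌊η / 8 * Real.log n⌋₊ : ℝ≥0∞) + 1) ≤ q / 4 := by
    obtain ⟨N, -, hN⟩ := ENNReal.exists_nat_pos_mul_gt hq4 hBB
    filter_upwards [hlog.eventually_ge_atTop N] with n hn
    rw [ENNReal.div_le_iff (by simp) (by simp)]
    refine hN.le.trans ?_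
    rw [mul_comm]
    exact mul_le_mul' le_rfl (le_trans (Nat.cast_le.mpr hn) le_self_add)
  filter_upwards [hev₁, hev₂, hsmall, eventually_ge_atTop 1] with n h₁ h₂ hn hn1
  set T₀ := ⌊η / 8 * Real.log n⌋₊
  set m := n / D
  set m₁ := n / 2 + 1
  set M := D * n
  refine ⟨M, 3 * M + 1, 8 * T₀, ?_, ?_⟩
  · have h : (T₀ : ℝ) ≤ η / 8 * Real.log n :=
      Nat.floor_le (mul_nonneg (by linarith) (Real.log_natCast_nonneg n))
    push_cast; linarith
  have hD2 : 2 ≤ D := by omega
  have hmn : m ≤ n / 2 := Nat.div_le_div_left hD2 (by norm_num)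
  have hMn : n ≤ M := Nat.le_mul_of_pos_left n (by omega)
  set A : List α → List β → ℝ≥0∞ := fun U L => ind (U.head? = some a₀) *
    ind (meets (P.rev.trace (U.reverse.take n)) (Q.trace L) ≤ T₀)
  set B : List β → List α → ℝ≥0∞ := fun R Z =>
    ind (meets (P.trace (Z.take n)) (Q.rev.trace R) ≤ T₀)
  have hfloor : ∀ {k : ℕ}, (k : ℝ) ≤ η / 8 * Real.log n → k ≤ T₀ := fun h => Nat.le_floor h
  have htop : P.w a₀ * c₁ ≤ P.avg (n + 1) fun U => Q.avg m fun L => A U L := by
    refine le_trans (mul_le_mul' le_rfl h₁) ?_
    rw [Beam.avg, Beam.avg, avg_succ]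
    refine le_trans ?_ (ENNReal.le_tsum a₀)
    refine mul_le_mul' le_rfl ?_
    show Velocity.avg P.w n _ ≤ _
    rw [← avg_reverse n fun L => Velocity.avg Q.w n fun M =>
      if (meets (P.rev.trace L) (Q.trace M) : ℝ) ≤ η / 8 * Real.log n then 1 else 0]
    refine avg_mono_of_length fun U hU => ?_
    rw [Beam.avg, ← avg_take Q.sum_w (show m ≤ n by omega) (fun L => A (a₀ :: U) L)]
    refine avg_mono fun V => ?_
    split_ifs with hc
    · simp only [A]
      rw [List.reverse_cons, List.take_left' (by rw [List.length_reverse, hU]),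
        ind_pos (show (a₀ :: U).head? = some a₀ from rfl), one_mul, ind_pos]
      refine le_trans ?_ (hfloor hc)
      have := Q.trace_take_mono (a := m) (List.take_prefix m V) (P.rev.trace U.reverse)
      rw [Q.trace_split m V, meets_append_right]
      omega
    · exact zero_le
  have hbot : c₂ ≤ Q.avg m fun R => P.avg (M + 1) fun Z => B R.reverse Z := by
    refine le_trans h₂ ?_
    simp only [Beam.avg]
    rw [avg_reverse m fun R => Velocity.avg P.w (M + 1) fun Z => B R Z, avg_comm m (M + 1),
      avg_comm n n, avg_take P.sum_w (show n ≤ M + 1 by omega)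
        (fun Z => Velocity.avg Q.w m fun R => ind (meets (P.trace Z) (Q.rev.trace R) ≤ T₀))]
    rw [avg_comm n n]
    refine avg_mono fun Z => ?_
    rw [← avg_take Q.sum_w (show m ≤ n by omega)
      (fun R => ind (meets (P.trace Z) (Q.rev.trace R) ≤ T₀))]
    refine avg_mono fun R => ?_
    split_ifs with hc
    · rw [ind_pos]
      refine le_trans ?_ (hfloor hc)
      rw [Q.rev.trace_split m R, meets_append_right]
      omega
    · exact zero_le
  have hcore : q ≤ g₀ * ((P.avg (n + 1) fun U => Q.avg m fun L => A U L) *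
      (Q.avg m fun R => P.avg (M + 1) fun Z => B R.reverse Z)) :=
    mul_le_mul' le_rfl (mul_le_mul' htop hbot)
  have hAB := ends_le hg hf hren n m M (by omega) hMn A B
    (fun U L => (mul_le_mul' (ind_le_one _) (ind_le_one _)).trans (one_mul _).le)
    (fun R Z => ind_le_one _)
  set good : List α → List β → List α → ℝ≥0∞ := fun U V Z =>
    ind (U.head? = some a₀ ∧ (U.map f).sum ≤ M ∧
      meets (P.rev.trace U.reverse) (Q.trace V) + meets (P.trace Z) (Q.rev.trace V.reverse) +
        meets (P.trace U) ((P.trace Z).map (P.total U - Q.total V + ·)) ≤ 8 * T₀)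
  set t : ℝ≥0∞ := ((T₀ : ℝ≥0∞) + 1)⁻¹
  have hsplit : P.turns Q f g n (3 * M + 1) M
      (fun U V Z => A U (V.take m) * B (V.reverse.take m) Z) ≤
      P.turns Q f g n (3 * M + 1) M good + 2 * GP / D + 2 * GP / D + t * BB := by
    refine le_trans (turns_mono (G := fun U V Z => good U V Z + ind (M < (U.map f).sum) +
      ind (n / 2 < ((Z.take m).map f).sum) + t *
        ((meets (P.rev.window n U.reverse) (Q.trace (V.take m)) : ℝ≥0∞) +
        (meets (P.rev.trace U.reverse) (Q.window m V) : ℝ≥0∞) +
        (meets (P.window n Z) (Q.rev.trace (V.reverse.take m)) : ℝ≥0∞) +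
        (meets (P.trace Z) (Q.rev.window m V.reverse) : ℝ≥0∞) +
        (meets (P.trace U) ((P.window m Z).map (P.total U - Q.total V + ·)) : ℝ≥0∞) +
        (meets (P.trace (U.take m₁)) ((P.trace (Z.take m)).map (P.total U - Q.total V + ·))
          : ℝ≥0∞))) fun U V Z hU hV => ?_) ?_
    · by_cases hM' : M < (U.map f).sum
      · refine le_trans (b := (1 : ℝ≥0∞)) ((mul_le_mul' (mul_le_mul' (ind_le_one _) (ind_le_one _))
          (ind_le_one _)).trans (by simp)) (le_trans (le_trans ?_ le_self_add) le_self_add)
        rw [ind_pos hM']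
        exact le_add_self
      by_cases hZ' : n / 2 < ((Z.take m).map f).sum
      · refine le_trans (b := (1 : ℝ≥0∞)) ((mul_le_mul' (mul_le_mul' (ind_le_one _) (ind_le_one _))
          (ind_le_one _)).trans (by simp)) (le_trans ?_ le_self_add)
        rw [ind_pos hZ']
        exact le_add_self
      simp only [A, B]
      by_cases hh : U.head? = some a₀
      swap
      · rw [ind_neg hh]; simp
      by_cases ht : meets (P.rev.trace (U.reverse.take n)) (Q.trace (V.take m)) ≤ T₀
      swap
      · rw [ind_neg ht]; simp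
      by_cases hb : meets (P.trace (Z.take n)) (Q.rev.trace (V.reverse.take m)) ≤ T₀
      swap
      · rw [ind_neg hb]; simp
      rw [ind_pos hh, ind_pos ht, ind_pos hb, one_mul, one_mul]
      have hsum := overlap_split hg hf (n := n) (m := m) (m₁ := m₁) (U := U) (V := V) (Z := Z) hU
        (by omega) hV (by omega)
      simp only [good]
      generalize meets (P.rev.window n U.reverse) (Q.trace (V.take m)) = b1 at hsum ⊢
      generalize meets (P.rev.trace U.reverse) (Q.window m V) = b2 at hsum ⊢
      generalize meets (P.window n Z) (Q.rev.trace (V.reverse.take m)) = b3 at hsum ⊢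
      generalize meets (P.trace Z) (Q.rev.window m V.reverse) = b4 at hsum ⊢
      generalize meets (P.trace U) ((P.window m Z).map (P.total U - Q.total V + ·)) = b5 at hsum ⊢
      generalize meets (P.trace (U.take m₁))
        ((P.trace (Z.take m)).map (P.total U - Q.total V + ·)) = b6 at hsum ⊢
      by_cases hbad : b1 + b2 + b3 + b4 + b5 + b6 ≤ T₀
      · rw [ind_pos ⟨hh, by omega, by omega⟩]
        exact le_trans (le_trans le_self_add le_self_add) le_self_add
      · refine le_trans ?_ le_add_self
        rw [mul_comm, ← div_eq_mul_inv, ENNReal.le_div_iff_mul_le (Or.inl (by simp))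
          (Or.inl (by simp)), one_mul]
        exact_mod_cast not_le.mp hbad
    · simp only [turns_add, turns_const_mul]
      refine add_le_add (add_le_add (add_le_add le_rfl ?_) ?_) (mul_le_mul' le_rfl ?_)
      · refine (turns_first_le hg _ _ _ fun U => ind (M < (U.map f).sum)).trans ?_
        refine (P.avg_high_le f (n + 1) M).trans ?_
        rw [mul_comm 2 GP, mul_comm _ GP, mul_div_assoc, mul_div_assoc]
        refine mul_le_mul' le_rfl ?_
        rw [ENNReal.div_le_iff (by simp) (by simp), div_eq_mul_inv, mul_assoc, mul_comm _⁻¹,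
          ← div_eq_mul_inv, ← mul_div_assoc, ENNReal.le_div_iff_mul_le (Or.inl (by simp [D]))
            (Or.inl (ENNReal.natCast_ne_top _))]
        have : (n + 1) * D ≤ 2 * (M + 1) := by simp only [M]; nlinarith
        exact_mod_cast this
      · refine (bad_high hg n _ M m (n / 2) (by omega)).trans ?_
        rw [mul_comm 2 GP, mul_comm _ GP, mul_div_assoc, mul_div_assoc]
        refine mul_le_mul' le_rfl ?_
        rw [ENNReal.div_le_iff (by simp) (by simp), div_eq_mul_inv, mul_assoc, mul_comm _⁻¹,
          ← div_eq_mul_inv, ← mul_div_assoc, ENNReal.le_div_iff_mul_le (Or.inl (by simp [D]))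
            (Or.inl (ENNReal.natCast_ne_top _))]
        have : m * D ≤ 2 * (n / 2 + 1) := by
          have := Nat.div_mul_le_self n D
          simp only [m]; omega
        exact_mod_cast this
      · have hnD : n < D * (m + 1) := Nat.lt_mul_div_succ n (by omega)
        have r1 : ((3 * M + 1 : ℕ) : ℝ≥0∞) / ((m : ℝ≥0∞) + 1) ≤ 4 * D * D := by
          rw [ENNReal.div_le_iff (by simp) (by simp)]
          have : 3 * M + 1 ≤ 4 * D * D * (m + 1) := by
            simp only [M]
            nlinarith
          exact_mod_cast this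
        have r2 : ((M + 1 : ℕ) : ℝ≥0∞) / ((n : ℝ≥0∞) + 1) ≤ D + 1 := by
          rw [ENNReal.div_le_iff (by simp) (by simp)]
          have : M + 1 ≤ (D + 1) * (n + 1) := by simp only [M]; nlinarith
          exact_mod_cast this
        have r3 : ((M + 1 : ℕ) : ℝ≥0∞) / ((m : ℝ≥0∞) + 1) ≤ 4 * D * D := by
          refine le_trans (ENNReal.div_le_div_right (Nat.cast_le.mpr (by omega)) _) r1
        refine add_le_add (add_le_add (add_le_add (add_le_add (add_le_add
          (bad_extra hg n _ M m (by omega)) ?_) ?_) ?_) ?_) ?_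
        · exact (bad_top hg hKQ n _ M m).trans (by gcongr)
        · exact (bad_bottom_window hg hKP n _ M m (by omega)).trans (by gcongr)
        · exact (bad_bottom hg hKQ n _ M m).trans (by gcongr)
        · exact (bad_far hg hf hKP n _ M m).trans (by gcongr)
        · refine (bad_near hg hf hKP n _ M m m₁ (n + 1 - m₁) (by omega) (by omega)).trans ?_
          rw [mul_comm (m : ℝ≥0∞), mul_assoc]
          refine mul_le_mul' le_rfl ?_
          rw [mul_left_comm]
          refine mul_le_mul' le_rfl ?_
          rw [← mul_div_assoc, ENNReal.div_le_iff (by simp) (by simp), mul_comm (m : ℝ≥0∞) KP]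
          exact mul_le_mul' le_rfl (le_trans (Nat.cast_le.mpr (show m ≤ n + 1 - m₁ by omega))
            le_self_add)
  have hshort : (Q.avg (m + m) fun L => ind (n < (L.map g).sum)) ≤ 2 * GQ / D := by
    refine (Q.avg_high_le g (m + m) n).trans ?_
    rw [mul_comm 2 GQ, mul_comm _ GQ, mul_div_assoc, mul_div_assoc]
    refine mul_le_mul' le_rfl ?_
    rw [ENNReal.div_le_iff (by simp) (by simp), div_eq_mul_inv, mul_assoc, mul_comm _⁻¹,
      ← div_eq_mul_inv, ← mul_div_assoc, ENNReal.le_div_iff_mul_le (Or.inl (by simp [D]))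
        (Or.inl (ENNReal.natCast_ne_top _))]
    have : (m + m) * D ≤ 2 * (n + 1) := by
      have := Nat.div_mul_le_self n D
      simp only [m]; nlinarith
    exact_mod_cast this
  have hhigh : (P.avg (n + 1) fun U => ind (M < (U.map f).sum)) ≤ 4 * GP / D := by
    refine (P.avg_high_le f (n + 1) M).trans ?_
    rw [mul_comm 4 GP, mul_comm _ GP, mul_div_assoc, mul_div_assoc]
    refine mul_le_mul' le_rfl ?_
    rw [ENNReal.div_le_iff (by simp) (by simp), div_eq_mul_inv, mul_assoc, mul_comm _⁻¹,
      ← div_eq_mul_inv, ← mul_div_assoc, ENNReal.le_div_iff_mul_le (Or.inl (by simp [D]))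
        (Or.inl (ENNReal.natCast_ne_top _))]
    have : (n + 1) * D ≤ 4 * (M + 1) := by simp only [M]; nlinarith
    exact_mod_cast this
  have htot : q ≤ P.turns Q f g n (3 * M + 1) M good + (q / 4 + q / 4) := by
    refine hcore.trans (hAB.trans ((add_le_add hsplit (add_le_add hshort hhigh)).trans ?_))
    calc _ = P.turns Q f g n (3 * M + 1) M good +
          (((2 * GQ + 8 * GP) / D) + BB / ((T₀ : ℝ≥0∞) + 1)) := by
          simp only [t, div_eq_mul_inv, add_mul]
          rw [mul_comm BB]
          ring
      _ ≤ _ := by gcongr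
  have hqt : q ≠ ⊤ := by
    refine ne_top_of_le_ne_top ENNReal.one_ne_top ?_
    refine (mul_le_mul' hg1 (mul_le_mul' (mul_le_mul' hw0 (h₁.trans (?_ : _ ≤ (1 : ℝ≥0∞)))) (h₂.trans (?_ : _ ≤ (1 : ℝ≥0∞))))).trans
      (by simp)
    all_goals
      refine avg_le_const (Beam.sum_w _) fun L _ => avg_le_const (Beam.sum_w _) fun V _ => ?_
      split_ifs <;> simp
  have hgood : q / 4 ≤ P.turns Q f g n (3 * M + 1) M good := by
    by_contra hlt
    rw [not_le] at hlt
    have h4 : q / 4 + (q / 4 + q / 4) ≤ q := by
      calc q / 4 + (q / 4 + q / 4) ≤ q / 4 + (q / 4 + q / 4) + q / 4 := le_self_add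
        _ = 4 * (q / 4) := by ring
        _ = q := ENNReal.mul_div_cancel (by norm_num) (by norm_num)
    refine absurd (lt_of_le_of_lt htot (lt_of_lt_of_le ?_ h4)) (lt_irrefl q)
    exact ENNReal.add_lt_add_right (ne_top_of_le_ne_top hqt (le_trans le_add_self h4)) hlt
  refine hgood.trans (le_of_eq ?_)
  refine avg_congr_of_length fun U _ => Finset.sum_congr rfl fun k _ =>
    avg_congr_of_length fun V _ => avg_congr_of_length fun Z _ => ?_
  by_cases hh : (V.map g).sum = (U.map f).sum
  · rw [ind_pos hh, one_mul]
    exact ind_congr ⟨fun h => ⟨h.1, h.2.1, hh, h.2.2⟩, fun h => ⟨h.1, h.2.1, h.2.2.2⟩⟩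
  · rw [ind_neg hh, zero_mul, ind_neg fun h => hh h.2.2.1]

end Vale.Agent.P147.Velocity.Beam
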