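import Vale.Agent.P147.Velocity.Glue
import Vale.Agent.P147.Velocity.Turn

/-!
P147: in dimension at least three a uniformly elliptic walk has no two velocities with components
of opposite sign on one axis.
-/

open MeasureTheory Filter
open scoped ENNReal Topology

namespace Vale.Agent.P147.Velocity

variable {d : ℕ}

/-- The level and two lateral coordinates. -/
def coords (i j k : Fin d) : Site d →+ Pt where
  toFun x := (x i, x j, x k)
  map_zero' := rfl
  map_add' _ _ := rfl

@[simp] lemma coords_apply (i j k : Fin d) (x : Site d) : coords i j k x = (x i, x j, x k) := rfl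

lemma levOf_single (i : Fin d) (c : ℤ) (x : Site d) : levOf (Pi.single i c) x = c * x i := by
  rw [levOf_apply, Finset.sum_eq_single i]
  · simp
  · intro l _ hl; simp [hl]
  · simp

lemma qp_ge {ω : Env d} {κ : ℝ} (hκ : ∀ x e, κ ≤ ω x e) (γ : List (Step d)) :
    ∀ z, ENNReal.ofReal κ ^ γ.length ≤ qp ω z γ := by
  induction γ with
  | nil => intro z; simp [qp]
  | cons e γ ih =>
    intro z
    rw [List.length_cons, pow_succ', qp]
    exact mul_le_mul' (ENNReal.ofReal_le_ofReal (hκ z e)) (ih _)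

lemma wt_ne_zero (μ : Measure (Step d → ℝ)) [IsProbabilityMeasure μ] {κ : ℝ} (hκ : 0 < κ)
    (hell : ∀ᵐ p ∂μ, ∀ e, κ ≤ p e) (γ : List (Step d)) : wt μ γ ≠ 0 := by
  intro h
  have h2 : ENNReal.ofReal κ ^ γ.length ≤ wt μ γ := by
    calc ENNReal.ofReal κ ^ γ.length = ∫⁻ _, ENNReal.ofReal κ ^ γ.length ∂iidLaw μ := by simp
      _ ≤ _ := lintegral_mono_ae ((ae_forall_site μ hell).mono fun ω hω => qp_ge hω γ 0)
  rw [h, nonpos_iff_eq_zero] at h2
  exact pow_ne_zero _ (ENNReal.ofReal_pos.mpr hκ).ne' h2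

/-- Side steps followed by one step up form a block. -/
lemma isBlock_side {lev : Site d →+ ℤ} {σ : List (Step d)} {e : Step d}
    (hσ : ∀ s ∈ σ, lev (move s) = 0) (he : lev (move e) = 1) :
    IsBlock lev (σ ++ [e]) := by
  have hz : ∀ l : List (Step d), (∀ s ∈ l, lev (move s) = 0) → lev (disp l) = 0 := by
    intro l
    induction l with
    | nil => simp
    | cons a l ih =>
      intro h
      rw [disp_cons, map_add, h a (by simp), ih fun s hs => h s (List.mem_cons_of_mem _ hs),
        add_zero]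
  have hend : lev (disp (σ ++ [e])) = 1 := by simp [disp_append, hz σ hσ, he]
  have htake : ∀ t < (σ ++ [e]).length, lev (disp ((σ ++ [e]).take t)) = 0 := by
    intro t ht
    simp at ht
    rw [List.take_append_of_le_length (by omega)]
    exact hz _ fun s hs => hσ s (List.mem_of_mem_take hs)
  refine ⟨by simp, fun t ht => by rw [htake t ht, hend]; omega, fun t ht0 ht hrt _ => ?_⟩
  have h := (hrt 0 (by simp; omega)).2
  rw [htake t ht] at h
  simp at h

/-- A word of side steps with given lateral displacement in `{-1, 0, 1}`. -/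
def side (j : Fin d) (s : ℤ) : List (Step d) :=
  if s = 0 then [] else [(j, decide (s = 1))]

lemma disp_side {j : Fin d} {s : ℤ} (hs : |s| ≤ 1) : disp (side j s) = Pi.single j s := by
  have : s = -1 ∨ s = 0 ∨ s = 1 := by have := abs_le.mp hs; omega
  rcases this with rfl | rfl | rfl <;> simp [side, move]

/-- The atoms of the block beam. -/
lemma blkBeam_atoms (μ : Measure (Step d → ℝ)) [IsProbabilityMeasure μ] {κ : ℝ} (hκ : 0 < κ)
    (hell : ∀ᵐ p ∂μ, ∀ e, κ ≤ p e) {lev : Site d →+ ℤ} {φ : Site d →+ Pt}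
    (hφ : ∀ x, (φ x).1 = lev x) (hw : ∑' b, bw lev μ b = 1) (σ : ℤ) (hσ : |σ| = 1)
    {i j k : Fin d} (hij : i ≠ j) (hik : i ≠ k) (hjk : j ≠ k)
    (hlev : ∀ x, lev x = σ * x i) (hco : ∀ x, φ x = σ • coords i j k x) :
    (blkBeam μ φ hφ hw).Atoms := by
  intro s t hs ht
  have hσ' : σ = 1 ∨ σ = -1 := abs_eq (by norm_num) |>.mp hσ
  have hss : |σ * s| ≤ 1 := by rw [abs_mul, hσ, one_mul]; exact hs
  have htt : |σ * t| ≤ 1 := by rw [abs_mul, hσ, one_mul]; exact ht
  have hlat : ∀ e ∈ side j (σ * s) ++ side k (σ * t), lev (move e) = 0 := by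
    intro e he
    have : e.1 = j ∨ e.1 = k := by
      rcases List.mem_append.mp he with h | h <;> simp only [side] at h <;> split_ifs at h <;>
        simp at h <;> simp [h]
    rw [hlev, move]
    rcases this with h | h <;> simp [h, hij, hik]
  have hup : lev (move (i, decide (σ = 1))) = 1 := by
    rcases hσ' with h | h <;> simp [hlev, move, h]
  refine ⟨⟨_, isBlock_side hlat hup⟩, wt_ne_zero μ hκ hell _, ?_⟩
  show φ (disp _) = _
  rw [hco, disp_append, disp_append, disp_side hss, disp_side htt]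
  rcases hσ' with h | h <;>
    simp [h, move, hij, hik, hjk, hij.symm, hik.symm, hjk.symm]

variable [NeZero d]

/-- No opposite velocities on an axis. -/
theorem no_opposite {μ : Measure (Step d → ℝ)} [IsProbabilityMeasure μ]
    (hrow : ∀ᵐ p ∂μ, GoodRow p) {κ : ℝ} (hκ : 0 < κ) (hell : ∀ᵐ p ∂μ, ∀ e, κ ≤ p e)
    (hd : 3 ≤ d) {v v' : Fin d → ℝ} {i : Fin d} (hv : 0 < v i) (hv' : v' i < 0)
    (hP : annealed μ (vel v) ≠ 0) (hP' : annealed μ (vel v') ≠ 0) : False := by
  classical
  wlog hκ1 : κ ≤ 1 / 2 generalizing κ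
  · exact this (κ := 1 / 2) (by norm_num) (hell.mono fun p hp e => by linarith [hp e]) le_rfl
  obtain ⟨j, k, hij, hik, hjk⟩ : ∃ j k : Fin d, i ≠ j ∧ i ≠ k ∧ j ≠ k := by
    have h2 : 2 ≤ (Finset.univ.erase i).card := by simp; omega
    obtain ⟨j, hj, k, hk, hjk⟩ := Finset.one_lt_card.mp h2
    simp at hj hk
    exact ⟨j, k, Ne.symm hj, Ne.symm hk, hjk⟩
  set aP : Fin d → ℤ := Pi.single i 1 with haP
  set aM : Fin d → ℤ := Pi.single i (-1) with haM
  have hbound : ∀ (c : ℤ), |c| ≤ 1 → ∀ l, |(Pi.single i c : Fin d → ℤ) l| ≤ 1 := by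
    intro c hc l
    by_cases hl : l = i
    · subst hl; simpa using hc
    · simp [hl]
  have hsum : ∀ (c : ℤ) (u : Fin d → ℝ),
      ∑ l, (((Pi.single i c : Fin d → ℤ) l : ℤ) : ℝ) * u l = (c : ℝ) * u i := by
    intro c u
    rw [Finset.sum_eq_single i]
    · simp
    · intro l _ hl; simp [hl]
    · simp
  obtain ⟨hwP, hGP, hLP, -⟩ := blocks_of_vel (μ := μ) hrow (a := aP) (hbound 1 (by simp)) (v := v)
    (by rw [hsum]; simpa using hv) hP
  obtain ⟨hwM, hGM, hLM, g₀, hg₀, hren⟩ := blocks_of_vel (μ := μ) hrow (a := aM)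
    (hbound (-1) (by simp)) (v := v') (by rw [hsum]; simpa using hv') hP'
  set φ : Site d →+ Pt := coords i j k
  have hφ : ∀ x, (φ x).1 = levOf aP x := fun x => by simp [φ, aP, levOf_single]
  have hφ' : ∀ x, ((-φ) x).1 = levOf aM x := fun x => by simp [φ, aM, levOf_single]
  set BP := blkBeam μ φ hφ hwP
  set BM := blkBeam μ (-φ) hφ' hwM
  have hPA : BP.Atoms := blkBeam_atoms μ hκ hell hφ hwP 1 (by simp) hij hik hjk
    (fun x => by simp [aP, levOf_single]) (fun x => by simp [φ])
  have hMA : BM.Atoms := blkBeam_atoms μ hκ hell hφ' hwM (-1) (by simp) hij hik hjk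
    (fun x => by simp [aM, levOf_single]) (fun x => by simp [φ])
  have hup : levOf aP (move (i, true)) = 1 := by simp [aP, levOf_move]
  let a₀ : Blk (levOf aP) := ⟨[(i, true)], by
    simpa using isBlock_side (σ := []) (lev := levOf aP) (by simp) hup⟩
  have hlog : 0 < -Real.log κ := by
    have := Real.log_neg hκ (show κ < 1 by linarith); linarith
  obtain ⟨c, hc, hev⟩ := Beam.turns_good (P := BP) (Q := BM) (f := hgt) (g := hgt)
    (fun b => (hgt_cast b).trans (hφ' _).symm) (fun b => (hgt_cast b).trans (hφ _).symm)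
    hPA hMA (by rw [blkBeam_mass]; exact hLP) (by rw [blkBeam_mass]; exact hLM) hGP hGM hg₀
    hren (a₀ := a₀) (wt_ne_zero μ hκ hell _) (η := 1 / (2 * -Real.log κ)) (by positivity)
  set G := ∑' b : Blk (levOf aP), bw (levOf aP) μ b * (hgt b : ℝ≥0∞) with hG
  set c' := (min c 1).toReal
  have hc' : 0 < c' := ENNReal.toReal_pos (by simp [hc]) (by simp)
  obtain ⟨n, hn, hbig, hn1⟩ := ((hev.and ((tendsto_natCast_atTop_atTop (R := ℝ)).eventually
    (eventually_gt_atTop ((G.toReal / c') ^ 2)))).and (eventually_ge_atTop 1)).exists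
    |>.imp fun n h => (⟨h.1.1, h.1.2, h.2⟩ : _ ∧ _ ∧ _)
  obtain ⟨M, K, T, hT, hle⟩ := hn
  have hκ' : κ ≤ 1 := by linarith
  have hglue := glue_le (μ := μ) (hφ := hφ) (hw := hwP) (hφ' := hφ') (hw' := hwM) (φ := φ)
    (φ' := -φ) (a₀ := a₀) (e₀ := (i, true)) hrow hκ' hell
    (fun x => by simp [aP, aM, levOf_single]) (fun x => rfl) rfl hup n M T K
  have hmain : ENNReal.ofReal κ ^ T * c ≤
      ∑' b : Blk (levOf aP), if n < hgt b then bw (levOf aP) μ b else 0 := by
    refine le_trans (mul_le_mul' le_rfl (hle.trans (le_of_eq ?_))) hglue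
    refine avg_congr_of_length fun U _ => Finset.sum_congr rfl fun l _ =>
      avg_congr_of_length fun V _ => avg_congr_of_length fun Z _ => ?_
    simp only [ind]
    congr 1
  have hN : (n : ℝ≥0∞) * (ENNReal.ofReal κ ^ T * c) ≤ G := by
    refine (mul_le_mul' le_rfl hmain).trans ?_
    rw [← ENNReal.tsum_mul_left, hG]
    refine ENNReal.tsum_le_tsum fun b => ?_
    split_ifs with hb
    · rw [mul_comm]; exact mul_le_mul' le_rfl (Nat.cast_le.mpr hb.le)
    · simp
  have hreal : (n : ℝ) * (κ ^ T * c') ≤ G.toReal := by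
    have h1 := ENNReal.toReal_mono hGP
      ((mul_le_mul' le_rfl (mul_le_mul' le_rfl (min_le_left c 1))).trans hN)
    rw [ENNReal.toReal_mul, ENNReal.toReal_natCast, ENNReal.toReal_mul, ENNReal.toReal_pow,
      ENNReal.toReal_ofReal hκ.le] at h1
    exact h1
  have hn0 : (0 : ℝ) < n := by exact_mod_cast hn1
  have hpow : 1 / Real.sqrt n ≤ κ ^ T := by
    rw [Real.sqrt_eq_rpow, one_div, ← Real.rpow_neg hn0.le, ← Real.rpow_natCast κ T,
      Real.rpow_def_of_pos hn0, Real.rpow_def_of_pos hκ]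
    refine Real.exp_le_exp.mpr ?_
    have h2 : Real.log κ * T ≥ Real.log κ * (1 / (2 * -Real.log κ) * Real.log n) :=
      mul_le_mul_of_nonpos_left hT (by linarith)
    have h3 : Real.log κ * (1 / (2 * -Real.log κ) * Real.log n) = Real.log n * -(1 / 2) := by
      field_simp [show Real.log κ ≠ 0 by linarith]
    linarith
  have hsq : Real.sqrt n * c' ≤ G.toReal := by
    refine le_trans (le_of_eq ?_) (le_trans (mul_le_mul_of_nonneg_left
      (mul_le_mul_of_nonneg_right hpow hc'.le) hn0.le) hreal)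
    rw [← mul_assoc, mul_one_div, Real.div_sqrt]
  rw [← le_div_iff₀ hc'] at hsq
  have := pow_le_pow_left₀ (Real.sqrt_nonneg _) hsq 2
  rw [Real.sq_sqrt hn0.le] at this
  linarith

end Vale.Agent.P147.Velocity
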