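import Vale.Agent.P147.Velocity.Tail
import Vale.Agent.P147.Velocity.OneSideLaw

/-!
P147: in dimension `3 p + 1` and more, escape along a lattice direction at least like the `p`-th
root of the time with positive chance gives the zero-one law in every direction.
-/

open MeasureTheory Filter
open scoped ENNReal Topology

namespace Vale.Agent.P147.Velocity

variable {d : ℕ}

/-- Paths escaping along `a` at least like the `p`-th root of the time. -/
def rootEscape (a : Fin d → ℤ) (p : ℕ) : Set (Path d) :=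
  {X | ∃ C : ℕ, ∀ᶠ t : ℕ in atTop,
    0 ≤ ∑ i, a i * X t i ∧ (t : ℤ) ≤ C * (∑ i, a i * X t i) ^ p}

lemma rootEscape_subset_escape {a : Fin d → ℤ} {p : ℕ} :
    rootEscape a p ⊆ escape fun i => (a i : ℝ) := by
  rintro X ⟨C, hC⟩
  have hZ : Tendsto (fun t => levOf a (X t)) atTop atTop := by
    refine tendsto_atTop.2 fun b => ?_
    filter_upwards [hC, eventually_gt_atTop (C * b.toNat ^ p)] with t ht hbig
    rw [← levOf_apply] at ht
    by_contra h
    rw [not_le] at h
    have h2 := mul_le_mul_of_nonneg_left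
      (pow_le_pow_left₀ ht.1 (h.le.trans (Int.self_le_toNat b)) p) (Int.natCast_nonneg C)
    have h3 : (t : ℤ) ≤ ((C * b.toNat ^ p : ℕ) : ℤ) := by push_cast; exact ht.2.trans h2
    omega
  refine ((tendsto_intCast_atTop_iff (R := ℝ)).2 hZ).congr fun t => ?_
  rw [levOf_apply]
  push_cast
  rfl

lemma measurableSet_rootEscape (a : Fin d → ℤ) (p : ℕ) : MeasurableSet (rootEscape a p) := by
  have h : rootEscape a p = ⋃ C : ℕ, ⋃ T : ℕ, ⋂ t : ℕ, ⋂ (_ : T ≤ t), (fun X : Path d => X t) ⁻¹'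
      {x | 0 ≤ ∑ i, a i * x i ∧ (t : ℤ) ≤ C * (∑ i, a i * x i) ^ p} := by
    ext X; simp [rootEscape, eventually_atTop]
  rw [h]
  exact MeasurableSet.iUnion fun C => MeasurableSet.iUnion fun T => MeasurableSet.iInter fun t =>
    MeasurableSet.iInter fun _ => measurable_pi_apply t MeasurableSet.of_discrete

lemma measurableSet_rise (a : Fin d → ℤ) (C p : ℕ) : MeasurableSet (rise a C p) := by
  have h : rise a C p = ⋂ t : ℕ, (fun X : Path d => (X t, X 0)) ⁻¹'
      {q | 0 ≤ levOf a (q.1 - q.2) ∧ (t : ℤ) ≤ C * (levOf a (q.1 - q.2) + 1) ^ p} := by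
    ext X; simp [rise]
  rw [h]
  exact MeasurableSet.iInter fun t =>
    ((measurable_pi_apply t).prodMk (measurable_pi_apply 0)) MeasurableSet.of_discrete

lemma rise_translate (a : Fin d → ℤ) (C p : ℕ) (z : Site d) :
    (fun (X : Path d) k => X k - z) ⁻¹' rise a C p = rise a C p := by
  ext X
  simp [rise]

lemma rootEscape_subset_rise (a : Fin d → ℤ) (p : ℕ) :
    rootEscape a p ⊆ ⋃ q : ℕ × ℕ, theta^[q.1] ⁻¹' rise a q.2 p := by
  intro X hX
  have hesc := rootEscape_subset_escape hX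
  have hcast : ∀ t, (levOf a (X t) : ℝ) = ∑ i, (a i : ℝ) * (X t i : ℝ) := fun t => by
    rw [levOf_apply]; push_cast; rfl
  obtain ⟨C, hC⟩ := hX
  obtain ⟨T, hT⟩ := eventually_atTop.mp (hC.and
    ((tendsto_atTop.mp hesc (levOf a (X 0) : ℝ))))
  obtain ⟨n, hn, hmin⟩ := Finset.exists_min_image (Finset.range (T + 1))
    (fun t => levOf a (X t)) ⟨0, by simp⟩
  have hall : ∀ t, levOf a (X n) ≤ levOf a (X t) := by
    intro t
    rcases Nat.lt_or_ge t (T + 1) with h | h
    · exact hmin t (Finset.mem_range.mpr h)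
    · have h1 := (hT t (by omega)).2
      rw [← hcast] at h1
      exact (hmin 0 (by simp)).trans (by exact_mod_cast h1)
  set m := levOf a (X n)
  refine Set.mem_iUnion.mpr ⟨(n, C * (m.natAbs + 1) ^ p + T), fun t => ?_⟩
  rw [theta_iterate]
  simp only [zero_add, map_sub]
  set u := levOf a (X (t + n)) - m + 1
  have hu : (1 : ℤ) ≤ u := by have := hall (t + n); omega
  have hup : (1 : ℤ) ≤ u ^ p := one_le_pow₀ hu
  refine ⟨by omega, ?_⟩
  push_cast
  rcases Nat.lt_or_ge (t + n) T with h | h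
  · have h2 : (0 : ℤ) ≤ (C : ℤ) * (|m| + 1) ^ p := by positivity
    have h3 : (t : ℤ) ≤ T := by omega
    nlinarith
  · obtain ⟨⟨h0, h1⟩, -⟩ := hT (t + n) h
    rw [← levOf_apply] at h0 h1
    have h2 : levOf a (X (t + n)) ≤ (|m| + 1) * u := by
      have := le_abs_self m
      nlinarith [abs_nonneg m]
    have h3 := mul_le_mul_of_nonneg_left (pow_le_pow_left₀ h0 h2 p) (Int.natCast_nonneg C)
    have h4 : (0 : ℤ) ≤ (T : ℤ) * u ^ p := by positivity
    rw [mul_pow] at h3
    push_cast at h1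
    nlinarith

variable [NeZero d] {μ : Measure (Step d → ℝ)} [IsProbabilityMeasure μ]

lemma exists_rise (hrow : ∀ᵐ p ∂μ, GoodRow p) (a : Fin d → ℤ) {p : ℕ}
    (hP : annealed μ (rootEscape a p) ≠ 0) : ∃ C, annealed μ (rise a C p) ≠ 0 := by
  by_contra hall
  push Not at hall
  exact hP (measure_mono_null (rootEscape_subset_rise a p) (measure_iUnion_null fun q =>
    annealed_theta_null hrow (measurableSet_rise a q.2 p) (rise_translate a q.2 p) (hall q.2) q.1))

/-- Escape along `a` like the `p`-th root of the time gives the zero-one law in every direction. -/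
theorem root_escape_zero_one {p : ℕ} (hp : 1 ≤ p) (hd : 3 * p + 1 ≤ d)
    (hrow : ∀ᵐ p ∂μ, GoodRow p) {κ : ℝ} (hκ : 0 < κ) (hell : ∀ᵐ p ∂μ, ∀ e, κ ≤ p e)
    {a : Fin d → ℤ} (ha : ∀ i, |a i| ≤ 1) (ha0 : ∃ i, a i ≠ 0)
    (hP : annealed μ (rootEscape a p) ≠ 0) :
    annealed μ (escape fun i => (a i : ℝ)) = 1 ∧ ∀ ℓ : Fin d → ℝ, ∃ c : ℝ≥0∞, (c = 0 ∨ c = 1) ∧
      annealed μ (escape ℓ) = c ∧ ∀ᵐ ω ∂iidLaw μ, Good ω ∧ ∀ x, law ω x (escape ℓ) = c := by
  obtain ⟨C, hC⟩ := exists_rise hrow a hP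
  exact one_side_zero_one hrow hκ hell ha ha0 (escape_tail_rise hp hd hrow hκ hell ha ha0 hC)
    fun h => hP (measure_mono_null rootEscape_subset_escape h)

end Vale.Agent.P147.Velocity
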