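import Vale.Agent.P147.Velocity.StayUp
import Vale.Agent.P147.Velocity.Unique

/-!
P147: rows beyond the first hit of a new level are fresh, so an invariant event which has positive
chance together with staying above the start has chance one, once all levels are reached.
-/

open MeasureTheory Filter
open scoped ENNReal Topology

namespace Vale.Agent.P147.Velocity

variable {d : ℕ}

/-- The word reaches level `m` for the first time at its end. -/
def FirstHit (lev : Site d →+ ℤ) (m : ℕ) (γ : List (Step d)) : Prop :=
  lev (disp γ) = m ∧ ∀ k < γ.length, lev (disp (γ.take k)) < m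

lemma stayUp_translate (a : Fin d → ℤ) (z : Site d) :
    (fun (X : Path d) k => X k - z) ⁻¹' stayUp a = stayUp a := by
  ext X
  simp [stayUp]

lemma theta_iterate (n : ℕ) (Y : Path d) : theta^[n] Y = fun t => Y (t + n) := by
  induction n with
  | zero => rfl
  | succ n ih =>
    rw [Function.iterate_succ_apply', ih]
    funext t
    simp [theta, Nat.add_assoc, Nat.add_comm 1 n]

lemma preimage_iterate_theta {E : Set (Path d)} (hE : theta ⁻¹' E = E) (n : ℕ) :
    theta^[n] ⁻¹' E = E := by
  induction n with
  | zero => rfl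
  | succ n ih => rw [Function.iterate_succ, Set.preimage_comp, ih, hE]

lemma FirstHit.eq_of_follow {lev : Site d →+ ℤ} {m : ℕ} {γ π : List (Step d)}
    (hγ : FirstHit lev m γ) (hπ : FirstHit lev m π) {X : Path d} (h1 : X ∈ follow γ)
    (h2 : X ∈ follow π) : γ = π := by
  wlog hle : γ.length ≤ π.length generalizing γ π
  · exact (this hπ hγ h2 h1 (le_of_not_ge hle)).symm
  have e := follow_eq_take h1 h2 hle
  by_cases hlt : γ.length < π.length
  · have := hπ.2 _ hlt
    rw [← e, hγ.1] at this
    omega
  · rwa [List.take_of_length_le (not_lt.mp hlt)] at e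

lemma FirstHit.le_length {a : Fin d → ℤ} (ha : ∀ i, |a i| ≤ 1) {m : ℕ} {γ : List (Step d)}
    (hγ : FirstHit (levOf a) m γ) : m ≤ γ.length := by
  have := levOf_disp_le ha γ
  rw [hγ.1] at this
  omega

/-- A path whose levels are unbounded has a first hit of every level. -/
lemma exists_firstHit {a : Fin d → ℤ} (ha : ∀ i, |a i| ≤ 1) {X : Path d} (h0 : X 0 = 0)
    (hs : ∀ k, ∃ e, X (k + 1) = X k + move e) {m : ℕ} (hm : ∃ t, (m : ℤ) ≤ levOf a (X t)) :
    ∃ γ, FirstHit (levOf a) m γ ∧ X ∈ follow γ := by
  set t := Nat.find hm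
  have ht : (m : ℤ) ≤ levOf a (X t) := Nat.find_spec hm
  have hbefore : ∀ k < t, levOf a (X k) < m := fun k hk => lt_of_not_ge (Nat.find_min hm hk)
  have hend : levOf a (X t) = m := by
    refine le_antisymm ?_ ht
    rcases Nat.eq_zero_or_pos t with h | h
    · rw [h, h0]; simp
    · obtain ⟨e, he⟩ := hs (t - 1)
      rw [Nat.sub_add_cancel h] at he
      have h1 := hbefore (t - 1) (by omega)
      have h2 := abs_le.mp (ha e.1)
      rw [he, map_add, levOf_move]
      split_ifs <;> omega
  obtain ⟨γ, hγ, hfol, hdisp⟩ := exists_follow h0 hs t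
  refine ⟨γ, ⟨?_, fun k hk => ?_⟩, hfol⟩
  · rw [show disp γ = X t by rw [← hdisp t le_rfl, List.take_of_length_le hγ.le], hend]
  · rw [hdisp k (by omega)]
    exact hbefore k (by omega)

variable [NeZero d] {μ : Measure (Step d → ℝ)} [IsProbabilityMeasure μ]

/-- The Markov property at a fixed time. -/
lemma law_cyl_theta {ω : Env d} (hω : Good ω) {B : Set (Path d)} (hB : MeasurableSet B) (n : ℕ) :
    ∀ (x : Site d) (p : Path d),
      law ω x (cyl n p ∩ theta^[n] ⁻¹' B) = law ω x (cyl n p) * law ω (p n) B := by
  induction n with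
  | zero =>
    intro x p
    by_cases hx : p 0 = x
    · have h : cyl 0 p = {X | X 0 = x} := by
        ext X
        simp [cyl, hx]
      rw [h, Function.iterate_zero, Set.preimage_id, law_inter_start, hx,
        (prob_compl_eq_zero_iff (measurableSet_start x)).mp (law_start ω x), one_mul]
    · have h : law ω x (cyl 0 p) = 0 := by rw [law_cyl, if_neg hx, zero_mul]
      rw [h, zero_mul]
      exact measure_mono_null Set.inter_subset_left h
  | succ n ih =>
    intro x p
    by_cases hx : p 0 = x
    · rw [cyl_succ, Set.inter_assoc, hx, law_inter_start, law_inter_start, Function.iterate_succ,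
        Set.preimage_comp, ← Set.preimage_inter,
        law_theta hω x ((measurableSet_cyl n _).inter ((measurable_theta.iterate n) hB)),
        law_theta hω x (measurableSet_cyl n _), Finset.sum_mul]
      refine Finset.sum_congr rfl fun e _ => ?_
      rw [ih (x + move e) (theta p), mul_assoc]
      rfl
    · have h : law ω x (cyl (n + 1) p) = 0 := by rw [law_cyl, if_neg hx, zero_mul]
      rw [h, zero_mul]
      exact measure_mono_null Set.inter_subset_left h

lemma law_follow_theta {ω : Env d} (hω : Good ω) (γ : List (Step d)) {B : Set (Path d)}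
    (hB : MeasurableSet B) :
    law ω 0 (follow γ ∩ theta^[γ.length] ⁻¹' B) = qp ω 0 γ * law ω (disp γ) B := by
  rw [follow, law_cyl_theta hω hB, List.take_of_length_le le_rfl]
  congr 1
  simpa using law_follow hω γ 0

/-- The annealed chance of a translation invariant event is the same from every start. -/
lemma lintegral_law_translate (hrow : ∀ᵐ p ∂μ, GoodRow p) {B : Set (Path d)}
    (hB : MeasurableSet B) (htr : ∀ z, (fun (X : Path d) k => X k - z) ⁻¹' B = B) (z : Site d) :
    ∫⁻ ω, law ω z B ∂iidLaw μ = annealed μ B := by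
  rw [annealed_apply μ hB, ← (measurePreserving_shift μ z).lintegral_comp (measurable_law 0 hB)]
  refine lintegral_congr_ae ((ae_forall_site μ hrow).mono fun ω hω => ?_)
  have hm : Measurable fun (X : Path d) k => X k - z := measurable_pi_lambda _ fun k =>
    (measurable_of_countable fun y : Site d => y - z).comp (measurable_pi_apply k)
  simp [law_shift hω, Measure.map_apply hm hB, htr]

/-- The rows seen after the first hit of a level by a path staying above it are fresh. -/
lemma annealed_follow_fresh (hrow : ∀ᵐ p ∂μ, GoodRow p) {a : Fin d → ℤ} {m : ℕ}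
    {γ : List (Step d)} (hγ : FirstHit (levOf a) m γ) {B : Set (Path d)} (hB : MeasurableSet B)
    (hsub : B ⊆ stayUp a) (htr : ∀ z, (fun (X : Path d) k => X k - z) ⁻¹' B = B) :
    annealed μ (follow γ ∩ theta^[γ.length] ⁻¹' B) = wt μ γ * annealed μ B := by
  classical
  rw [annealed_apply μ ((measurableSet_follow γ).inter ((measurable_theta.iterate _) hB)),
    lintegral_congr_ae ((ae_forall_site μ hrow).mono fun ω hω => law_follow_theta hω γ hB),
    lintegral_mul_split μ (visits 0 γ).toFinset (measurable_qp γ 0) (measurable_law _ hB)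
      (fun ω ω' hω => qp_congr γ 0 fun x hx => hω x (List.mem_toFinset.mpr hx))
      (fun ω ω' hω => ?_),
    lintegral_law_translate hrow hB htr, wt]
  set S := (visits 0 γ).toFinset with hS
  have hset : {X : Path d | X 0 = disp γ} ∩ B = {X : Path d | X 0 = disp γ} ∩ (B ∩ avoid S) := by
    ext X
    refine ⟨fun h => ⟨h.1, h.2, fun k _ hk => ?_⟩, fun h => ⟨h.1, h.2.1⟩⟩
    rw [hS, List.mem_toFinset, mem_visits] at hk
    obtain ⟨j, hj, e⟩ := hk
    have h1 : (0 : ℤ) ≤ levOf a (X k - X 0) := hsub h.2 k
    have h0 : X 0 = disp γ := h.1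
    rw [map_sub, e, zero_add, h0, hγ.1] at h1
    have := hγ.2 j hj
    omega
  rw [← law_inter_start ω _ B, ← law_inter_start ω' _ B, hset, law_inter_start, law_inter_start,
    law_avoid_congr hω hB]

/-- An invariant event with positive chance to hold without backtracking has chance one. -/
theorem invariant_trivial (hrow : ∀ᵐ p ∂μ, GoodRow p) {a : Fin d → ℤ} (ha : ∀ i, |a i| ≤ 1)
    (hsup : ∀ᵐ X ∂annealed μ, ∀ m : ℕ, ∃ t, (m : ℤ) ≤ levOf a (X t))
    {E : Set (Path d)} (hE : MeasurableSet E) (hshift : theta ⁻¹' E = E)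
    (htr : ∀ z, (fun (X : Path d) k => X k - z) ⁻¹' E = E)
    (hpos : annealed μ (stayUp a ∩ E) ≠ 0) : annealed μ E = 1 := by
  classical
  set B := stayUp a ∩ E with hB'
  have hB : MeasurableSet B := (measurableSet_stayUp a).inter hE
  have htrB : ∀ z, (fun (X : Path d) k => X k - z) ⁻¹' B = B := fun z => by
    rw [hB', Set.preimage_inter, stayUp_translate, htr z]
  set e := annealed μ B
  have he1 : e ≤ 1 := prob_le_one
  have key : ∀ (P : List (Step d) → Prop) (m : ℕ),
      annealed μ (⋃ γ : {γ // FirstHit (levOf a) m γ ∧ P γ},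
        follow γ.1 ∩ theta^[γ.1.length] ⁻¹' B) =
      annealed μ (⋃ γ : {γ // FirstHit (levOf a) m γ ∧ P γ}, follow γ.1) * e := by
    intro P m
    have hd : Pairwise (fun γ π : {γ // FirstHit (levOf a) m γ ∧ P γ} =>
        Disjoint (follow γ.1) (follow π.1)) := fun γ π hne => Set.disjoint_left.mpr
      fun X h1 h2 => hne (Subtype.ext (γ.2.1.eq_of_follow π.2.1 h1 h2))
    rw [measure_iUnion hd (fun γ => measurableSet_follow γ.1), measure_iUnion
      (fun γ π hne => (hd hne).mono Set.inter_subset_left Set.inter_subset_left)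
      (fun γ => (measurableSet_follow γ.1).inter ((measurable_theta.iterate _) hB)),
      ← ENNReal.tsum_mul_right]
    refine tsum_congr fun γ => ?_
    rw [annealed_follow_fresh hrow γ.2.1 hB Set.inter_subset_left htrB, annealed_follow μ hrow]
  have hbig : ∀ ε : ℝ, 0 < ε →
      e ≤ annealed μ E * e + (ENNReal.ofReal ε + ENNReal.ofReal ε) := by
    intro ε hε
    obtain ⟨n, C, hC, hCε⟩ := exists_past_approx (annealed μ) hE hε
    set P : List (Step d) → Prop := fun γ => ∃ X ∈ C, X ∈ follow γ
    set H := ⋃ γ : {γ // FirstHit (levOf a) (n + 1) γ ∧ P γ}, follow γ.1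
    have hHC : H ⊆ C := by
      intro X hX
      obtain ⟨⟨γ, hγ, Y, hY, hYγ⟩, hXγ⟩ := Set.mem_iUnion.mp hX
      have := hγ.le_length ha
      exact hC n le_rfl Y X (fun k hk => (hYγ k (show k ≤ γ.length by omega)).trans
        (hXγ k (show k ≤ γ.length by omega)).symm) hY
    set R := ⋃ γ : {γ // FirstHit (levOf a) (n + 1) γ ∧ True},
      follow γ.1 ∩ theta^[γ.1.length] ⁻¹' B
    have hR : annealed μ R = e := by
      rw [key (fun _ => True) (n + 1)]
      refine (congrArg (· * e) ?_).trans (one_mul e)
      refine le_antisymm prob_le_one ?_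
      rw [← measure_univ (μ := annealed μ)]
      refine measure_mono_ae ?_
      filter_upwards [hsup, annealed_steps μ] with X h1 h2 _
      obtain ⟨γ, hγ, hXγ⟩ := exists_firstHit ha h2.1 h2.2 (h1 (n + 1))
      exact Set.mem_iUnion.mpr ⟨⟨γ, hγ, trivial⟩, hXγ⟩
    have hsplit : R ⊆ (⋃ γ : {γ // FirstHit (levOf a) (n + 1) γ ∧ P γ},
        follow γ.1 ∩ theta^[γ.1.length] ⁻¹' B) ∪ symmDiff E C := by
      intro X hX
      obtain ⟨i, hi⟩ := Set.mem_iUnion.mp hX
      by_cases hXC : X ∈ C
      · exact Or.inl (Set.mem_iUnion.mpr ⟨⟨i.1, i.2.1, X, hXC, hi.1⟩, hi.1, hi.2⟩)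
      · have hXE : X ∈ E := by
          have h3 : theta^[i.1.length] X ∈ E := hi.2.2
          rwa [← Set.mem_preimage, preimage_iterate_theta hshift] at h3
        exact Or.inr (Or.inl ⟨hXE, hXC⟩)
    calc e = annealed μ R := hR.symm
      _ ≤ annealed μ H * e + ENNReal.ofReal ε := by
          refine (measure_mono hsplit).trans ((measure_union_le _ _).trans ?_)
          rw [key P (n + 1)]
          exact add_le_add le_rfl hCε
      _ ≤ (annealed μ E + ENNReal.ofReal ε) * e + ENNReal.ofReal ε := by
          gcongr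
          refine (measure_mono hHC).trans ((measure_mono ?_).trans
            ((measure_union_le E _).trans (add_le_add le_rfl hCε)))
          intro X hX
          by_cases hXE : X ∈ E
          · exact Or.inl hXE
          · exact Or.inr (Or.inr ⟨hX, hXE⟩)
      _ ≤ _ := by
          rw [add_mul, add_assoc]
          exact add_le_add le_rfl (add_le_add ((mul_le_mul' le_rfl he1).trans_eq (mul_one _)) le_rfl)
  by_contra hne
  have hlt : annealed μ E < 1 := lt_of_le_of_ne prob_le_one hne
  have hlim : e ≤ annealed μ E * e := by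
    refine ENNReal.le_of_forall_pos_le_add fun ε hε _ => ?_
    refine (hbig ((ε : ℝ) / 2) (by positivity)).trans ?_
    rw [← ENNReal.ofReal_add (by positivity) (by positivity), add_halves, ENNReal.ofReal_coe_nnreal]
  have h2 : annealed μ E * e < 1 * e :=
    ENNReal.mul_lt_mul_left hpos (ne_top_of_le_ne_top ENNReal.one_ne_top he1) hlt
  rw [one_mul] at h2
  exact absurd hlim (not_le.mpr h2)

end Vale.Agent.P147.Velocity
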