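import Vale.Agent.P147.Velocity.Words
import Vale.Agent.P147.Velocity.ListAvg

/-!
P147: words reaching a new level for the first time without going below their start, and their
unique decomposition into blocks; the annealed weight is multiplicative over blocks.
-/

open MeasureTheory Filter
open scoped ENNReal

namespace Vale.Agent.P147.Velocity

variable {d : ℕ} (lev : Site d →+ ℤ)

/-- The word stays at levels in `[0, H)` until it ends at its level `H`. -/
def IsReach (γ : List (Step d)) : Prop :=
  ∀ k < γ.length, 0 ≤ lev (disp (γ.take k)) ∧ lev (disp (γ.take k)) < lev (disp γ)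

/-- A nonempty word of this kind which is not made of two such words. -/
def IsBlock (γ : List (Step d)) : Prop :=
  γ ≠ [] ∧ IsReach lev γ ∧
    ∀ k, 0 < k → k < γ.length → IsReach lev (γ.take k) → ¬ IsReach lev (γ.drop k)

/-- The blocks. -/
abbrev Blk := {γ : List (Step d) // IsBlock lev γ}

/-- The word of a list of blocks. -/
def flat (L : List (Blk lev)) : List (Step d) := (L.map (fun b => b.1)).flatten

variable {lev}

lemma isReach_nil : IsReach lev ([] : List (Step d)) := by simp [IsReach]

lemma IsReach.nonneg {γ : List (Step d)} (h : IsReach lev γ) : 0 ≤ lev (disp γ) := by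
  rcases γ with _ | ⟨e, γ⟩
  · simp
  · have := h 0 (by simp); simp at this ⊢; omega

lemma IsReach.pos {γ : List (Step d)} (h : IsReach lev γ) (hne : γ ≠ []) :
    0 < lev (disp γ) := by
  have := h 0 (List.length_pos_iff.mpr hne); simp at this; omega

lemma IsReach.le {γ : List (Step d)} (h : IsReach lev γ) (k : ℕ) :
    0 ≤ lev (disp (γ.take k)) ∧ lev (disp (γ.take k)) ≤ lev (disp γ) := by
  by_cases hk : k < γ.length
  · exact ⟨(h k hk).1, (h k hk).2.le⟩
  · rw [List.take_of_length_le (not_lt.mp hk)]; exact ⟨h.nonneg, le_rfl⟩

lemma IsReach.append {γ π : List (Step d)} (hγ : IsReach lev γ) (hπ : IsReach lev π) :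
    IsReach lev (γ ++ π) := by
  intro k hk
  rw [List.take_append, disp_append, map_add, disp_append, map_add]
  have h2 := hπ.nonneg
  by_cases h : k < γ.length
  · have := hγ k h
    simp [Nat.sub_eq_zero_of_le h.le]
    omega
  · have hk' : k - γ.length < π.length := by simp at hk; omega
    have := hπ _ hk'
    rw [List.take_of_length_le (not_lt.mp h)]
    have := hγ.nonneg
    omega

/-- The middle part between two cuts is again such a word. -/
lemma IsReach.middle {a s r : List (Step d)} (h1 : IsReach lev (a ++ s))
    (h2 : IsReach lev (s ++ r)) : IsReach lev s := by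
  intro k hk
  have e1 := (h1 (a.length + k) (by simp; omega)).2
  have e2 := (h2 k (by simp; omega)).1
  rw [List.take_append_of_le_length hk.le] at e2
  rw [List.take_append, List.take_of_length_le (Nat.le_add_right _ _)] at e1
  simp [disp_append] at e1
  exact ⟨e2, e1⟩

lemma exists_block_append {γ : List (Step d)} (h : IsReach lev γ) (hne : γ ≠ []) :
    ∃ b r, γ = b ++ r ∧ IsBlock lev b ∧ IsReach lev r := by
  classical
  have hex : ∃ k, 0 < k ∧ IsReach lev (γ.take k) ∧ IsReach lev (γ.drop k) :=
    ⟨γ.length, List.length_pos_iff.mpr hne, by simpa using h, by simp [isReach_nil]⟩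
  set k := Nat.find hex
  obtain ⟨hk0, hkt, hkd⟩ := Nat.find_spec hex
  refine ⟨γ.take k, γ.drop k, (List.take_append_drop _ _).symm, ⟨?_, hkt, ?_⟩, hkd⟩
  · intro he
    rcases List.take_eq_nil_iff.mp he with he | he
    · exact absurd he (Nat.pos_iff_ne_zero.mp hk0)
    · exact hne he
  · intro j hj0 hj hjt hjd
    have hjk : j < k := lt_of_lt_of_le hj (by simp)
    refine Nat.find_min hex hjk ⟨hj0, ?_, ?_⟩
    · rwa [List.take_take, min_eq_left hjk.le] at hjt
    · have e : γ.drop j = (γ.take k).drop j ++ γ.drop k := by
        conv_lhs => rw [← List.take_append_drop k γ]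
        exact List.drop_append_of_le_length hj.le
      rw [e]
      exact hjd.append hkd

lemma block_append_unique {b b' r r' : List (Step d)} (hb : IsBlock lev b)
    (hb' : IsBlock lev b') (hr : IsReach lev r) (hr' : IsReach lev r')
    (h : b ++ r = b' ++ r') : b = b' ∧ r = r' := by
  rcases List.append_eq_append_iff.mp h with ⟨s, e1, e2⟩ | ⟨s, e1, e2⟩
  · rcases eq_or_ne s [] with rfl | hs
    · simp at e1 e2; exact ⟨e1.symm, e2⟩
    · subst e1
      subst e2
      refine absurd (IsReach.middle hb'.2.1 hr) ?_
      have := hb'.2.2 b.length (List.length_pos_iff.mpr hb.1)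
        (by simp [List.length_pos_iff.mpr hs]) (by simpa using hb.2.1)
      simpa using this
  · rcases eq_or_ne s [] with rfl | hs
    · simp at e1 e2; exact ⟨e1, e2.symm⟩
    · subst e1
      subst e2
      refine absurd (IsReach.middle hb.2.1 hr') ?_
      have := hb.2.2 b'.length (List.length_pos_iff.mpr hb'.1)
        (by simp [List.length_pos_iff.mpr hs]) (by simpa using hb'.2.1)
      simpa using this

@[simp] lemma flat_nil : flat lev [] = [] := rfl

@[simp] lemma flat_cons (b : Blk lev) (L : List (Blk lev)) :
    flat lev (b :: L) = b.1 ++ flat lev L := rfl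

lemma flat_append (L M : List (Blk lev)) : flat lev (L ++ M) = flat lev L ++ flat lev M := by
  simp [flat]

lemma isReach_flat (L : List (Blk lev)) : IsReach lev (flat lev L) := by
  induction L with
  | nil => exact isReach_nil
  | cons b L ih => exact b.2.2.1.append ih

lemma flat_injective : Function.Injective (flat lev) := by
  intro L
  induction L with
  | nil =>
    intro M h
    cases M with
    | nil => rfl
    | cons b M => simp [b.2.1] at h
  | cons a L ih =>
    intro M h
    cases M with
    | nil => simp [a.2.1] at h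
    | cons b M =>
      obtain ⟨e1, e2⟩ := block_append_unique a.2 b.2 (isReach_flat L) (isReach_flat M) h
      rw [Subtype.ext e1, ih e2]

lemma exists_flat {γ : List (Step d)} (h : IsReach lev γ) : ∃ L, flat lev L = γ := by
  induction hn : γ.length using Nat.strong_induction_on generalizing γ with
  | _ n ih =>
    rcases eq_or_ne γ [] with rfl | hne
    · exact ⟨[], rfl⟩
    · obtain ⟨b, r, rfl, hb, hr⟩ := exists_block_append h hne
      have := List.length_pos_iff.mpr hb.1
      obtain ⟨L, hL⟩ := ih r.length (by simp at hn; omega) hr rfl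
      exact ⟨⟨b, hb⟩ :: L, by simp [hL]⟩

/-- Lists of blocks are the same as words reaching a new level. -/
noncomputable def flatEquiv : List (Blk lev) ≃ {γ : List (Step d) // IsReach lev γ} :=
  Equiv.ofBijective (fun L => ⟨flat lev L, isReach_flat L⟩)
    ⟨fun _ _ h => flat_injective (Subtype.ext_iff.mp h),
      fun γ => (exists_flat γ.2).imp fun _ h => Subtype.ext h⟩

variable (lev) in
/-- The weight of a block. -/
noncomputable def bw (μ : Measure (Step d → ℝ)) (b : Blk lev) : ℝ≥0∞ := wt μ b.1

variable (μ : Measure (Step d → ℝ)) [IsProbabilityMeasure μ]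

lemma wt_reach_append {γ π : List (Step d)} (hγ : IsReach lev γ) (hπ : IsReach lev π) :
    wt μ (γ ++ π) = wt μ γ * wt μ π := by
  refine wt_append μ γ π fun x hx hx' => ?_
  obtain ⟨i, hi, e⟩ := mem_visits.mp hx
  obtain ⟨j, hj, rfl⟩ := mem_visits.mp hx'
  have := congrArg lev e
  simp only [map_add, zero_add] at this
  have := hγ i hi
  have := hπ j hj
  omega

lemma wt_flat (L : List (Blk lev)) : wt μ (flat lev L) = lw (bw lev μ) L := by
  induction L with
  | nil => simp [lw, wt_nil]
  | cons b L ih =>
    rw [flat_cons, wt_reach_append μ b.2.2.1 (isReach_flat L), ih]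
    simp [lw, bw]

/-- Sums over words reaching a new level are sums over lists of blocks. -/
lemma tsum_reach (F : List (Step d) → ℝ≥0∞) :
    ∑' γ : {γ : List (Step d) // IsReach lev γ}, wt μ γ.1 * F γ.1
      = ∑' n, avg (bw lev μ) n (fun L => F (flat lev L)) := by
  simp only [avg_eq_tsum]
  rw [← (flatEquiv (lev := lev)).tsum_eq,
    ← (Equiv.sigmaFiberEquiv (List.length (α := Blk lev))).tsum_eq, ENNReal.tsum_sigma']
  refine tsum_congr fun n => tsum_congr fun L => ?_
  show wt μ (flat lev L.1) * F (flat lev L.1) = lw (bw lev μ) L.1 * F (flat lev L.1)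
  rw [wt_flat]

end Vale.Agent.P147.Velocity
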