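import Mathlib
import Vale.Agent.P147.Velocity.Climbers
import Vale.Agent.P147.Velocity.Step.Laplace
import Vale.Agent.P147.Velocity.Record

/-!
P147: on a side of escape at least like the `p`-th root of the time, in dimension `3 p + 1` and
more, the quenched chance never to fall below the start is polynomially small only with
super-polynomially small probability.
-/

open MeasureTheory Filter
open scoped ENNReal Topology

namespace Vale.Agent.P147.Velocity

variable {d : ℕ}

/-- The word stays at levels at least zero and ends at level zero. -/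
def LoopWord (lev : Site d →+ ℤ) (γ : List (Step d)) : Prop :=
  lev (disp γ) = 0 ∧ ∀ k, 0 ≤ lev (disp (γ.take k))

lemma LoopWord.append {lev : Site d →+ ℤ} {γ π : List (Step d)} (hγ : LoopWord lev γ)
    (hπ : LoopWord lev π) : LoopWord lev (γ ++ π) := by
  refine ⟨by rw [disp_append, map_add, hγ.1, hπ.1, add_zero], fun k => ?_⟩
  rw [List.take_append, disp_append, map_add]
  rcases le_total k γ.length with h | h
  · rw [Nat.sub_eq_zero_of_le h]; simpa using hγ.2 k
  · rw [List.take_of_length_le h, hγ.1, zero_add]; exact hπ.2 _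

lemma loopWord_nil (lev : Site d →+ ℤ) : LoopWord lev ([] : List (Step d)) :=
  ⟨by simp, fun k => by simp⟩

/-- Repetitions of a loop. -/
def reps (γ : List (Step d)) (n : ℕ) : List (Step d) := (List.replicate n γ).flatten

lemma reps_loop {lev : Site d →+ ℤ} {γ : List (Step d)} (hγ : LoopWord lev γ) :
    ∀ n, LoopWord lev (reps γ n)
  | 0 => by simpa [reps] using loopWord_nil lev
  | n + 1 => by
    rw [reps, List.replicate_succ, List.flatten_cons]
    exact hγ.append (reps_loop hγ n)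

lemma reps_disp (γ : List (Step d)) : ∀ n, disp (reps γ n) = n • disp γ
  | 0 => by simp [reps]
  | n + 1 => by
    rw [reps, List.replicate_succ, List.flatten_cons, disp_append, succ_nsmul', ← reps_disp γ n]
    rfl

lemma reps_length (γ : List (Step d)) : ∀ n, (reps γ n).length = n * γ.length
  | 0 => by simp [reps]
  | n + 1 => by
    rw [reps, List.replicate_succ, List.flatten_cons, List.length_append]
    rw [show (List.replicate n γ).flatten = reps γ n from rfl, reps_length γ n]
    ring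

/-- Loops moving along `q` separate coordinates. -/
lemma exists_loops {q : ℕ} (hd : q + 1 ≤ d) {a : Fin d → ℤ} (ha : ∀ i, |a i| ≤ 1) (ha0 : ∃ i, a i ≠ 0) :
    ∃ (ι : Fin q → Fin d) (σ : Fin q → ℤ) (l : Fin q → List (Step d)),
      (∀ r, σ r ≠ 0) ∧ (∀ m, LoopWord (levOf a) (l m) ∧ (l m).length ≤ 2) ∧
      ∀ m r, disp (l m) (ι r) = if m = r then σ r else 0 := by
  obtain ⟨j₀, hj₀⟩ := ha0
  have hone : ∀ i, a i ≠ 0 → |a i| = 1 := fun i hi =>
    le_antisymm (ha i) (Int.one_le_abs hi)
  have hcard : Fintype.card (Fin q) ≤ Fintype.card {i : Fin d // i ≠ j₀} := by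
    simp only [Fintype.card_fin, ne_eq, Fintype.card_subtype_compl, Fintype.card_subtype_eq]
    omega
  obtain ⟨emb⟩ := Function.Embedding.nonempty_of_card_le hcard
  set down : Step d := (j₀, decide (a j₀ < 0))
  have hdown : levOf a (move down) = -1 := by
    rw [levOf_move]
    have h2 := abs_le.mp (ha j₀)
    by_cases h : a j₀ < 0
    · simp only [down, h, decide_true, if_true]; omega
    · simp only [down, h, decide_false, Bool.false_eq_true, if_false]; omega
  refine ⟨fun r => (emb r).1, fun r => if 0 ≤ a (emb r).1 then 1 else -1,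
    fun m => if a (emb m).1 = 0 then [upStep a (emb m).1] else [upStep a (emb m).1, down],
    fun r => by dsimp only; split_ifs <;> norm_num, fun m => ?_, fun m r => ?_⟩
  · dsimp only
    split_ifs with h
    · refine ⟨⟨by simp [lev_upStep, h], fun k => ?_⟩, by simp⟩
      rcases k with _ | k <;> simp [lev_upStep, h]
    · refine ⟨⟨by simp [lev_upStep, hone _ h, hdown], fun k => ?_⟩, by simp⟩
      rcases k with _ | _ | k <;> simp [lev_upStep, hone _ h, hdown]
  · have hne : (emb r).1 ≠ j₀ := (emb r).2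
    by_cases hqr : m = r
    · subst hqr
      dsimp only
      split_ifs <;> simp_all [move, upStep, down]
    · have hne2 : (emb r).1 ≠ (emb m).1 := fun e => hqr (emb.injective (Subtype.ext e)).symm
      dsimp only
      split_ifs <;> simp_all [move, upStep, down]

/-- The loop reaching the grid point `P`. -/
def gridWord {q : ℕ} (l : Fin q → List (Step d)) (P : Fin q → ℕ) : List (Step d) :=
  (List.ofFn fun i => reps (l i) (P i)).flatten

lemma disp_flatten : ∀ L : List (List (Step d)), disp L.flatten = (L.map disp).sum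
  | [] => by simp
  | γ :: L => by rw [List.flatten_cons, disp_append, disp_flatten L, List.map_cons, List.sum_cons]

lemma gridWord_disp {q : ℕ} (l : Fin q → List (Step d)) (P : Fin q → ℕ) :
    disp (gridWord l P) = ∑ i, P i • disp (l i) := by
  simp [gridWord, disp_flatten, List.map_ofFn, List.sum_ofFn, Function.comp_def, reps_disp]

lemma gridWord_length {q : ℕ} (l : Fin q → List (Step d)) (P : Fin q → ℕ) :
    (gridWord l P).length = ∑ i, P i * (l i).length := by
  simp [gridWord, List.length_flatten, List.map_ofFn, List.sum_ofFn, Function.comp_def, reps_length]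

lemma gridWord_loop {lev : Site d →+ ℤ} {q : ℕ} {l : Fin q → List (Step d)}
    (hl : ∀ i, LoopWord lev (l i)) (P : Fin q → ℕ) : LoopWord lev (gridWord l P) := by
  have key : ∀ L : List (List (Step d)), (∀ γ ∈ L, LoopWord lev γ) → LoopWord lev L.flatten := by
    intro L hL
    induction L with
    | nil => exact loopWord_nil lev
    | cons γ L ih =>
      rw [List.flatten_cons]
      exact (hL γ (by simp)).append (ih fun δ hδ => hL δ (List.mem_cons_of_mem _ hδ))
  refine key _ fun γ hγ => ?_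
  obtain ⟨i, rfl⟩ := List.mem_ofFn.1 hγ
  exact reps_loop (hl i) _

variable [NeZero d]

/-- A loop to `z` and then staying up. -/
lemma loop_mul_stay_le {ω : Env d} (hω : Good ω) {κ : ℝ} (hκ : ∀ x e, κ ≤ ω x e) (a : Fin d → ℤ)
    {γ : List (Step d)} (hγ : LoopWord (levOf a) γ) :
    ENNReal.ofReal κ ^ γ.length * law ω (disp γ) (stayUp a) ≤ law ω 0 (stayUp a) := by
  calc ENNReal.ofReal κ ^ γ.length * law ω (disp γ) (stayUp a)
      ≤ qp ω 0 γ * law ω (disp γ) (stayUp a) := mul_le_mul' (pow_le_qp hκ γ 0) le_rfl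
    _ = law ω 0 (follow γ ∩ theta^[γ.length] ⁻¹' stayUp a) :=
        (law_follow_theta hω γ (measurableSet_stayUp a)).symm
    _ ≤ law ω 0 (stayUp a) := by
        refine measure_mono fun X hX t => ?_
        obtain ⟨h1, h2⟩ := hX
        have h0 : X 0 = 0 := by simpa using h1 0 (Nat.zero_le _)
        rw [h0, sub_zero]
        rcases le_total t γ.length with h | h
        · have h3 := h1 t h
          change X t = disp (γ.take t) at h3
          rw [h3]; exact hγ.2 t
        · have h3 := h1 γ.length le_rfl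
          change X γ.length = disp (γ.take γ.length) at h3
          rw [List.take_length] at h3
          have h4 := h2 (t - γ.length)
          rw [theta_iterate] at h4
          simp only [Nat.sub_add_cancel h, zero_add] at h4
          rwa [map_sub, h3, hγ.1, sub_zero] at h4

variable {μ : Measure (Step d → ℝ)} [IsProbabilityMeasure μ]

open Four (top reach reach_lim)
open Step (surv lam load)

/-- The climbers from many starts reach the top alive, together, less than once with exponentially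
small probability, in `R t` where `R = t ^ (2 j)` and `R ^ (3 p)` is the number of starts. -/
lemma grid_weight_small (hrow : ∀ᵐ p ∂μ, GoodRow p) {κ : ℝ} (hκ : 0 < κ) (hκ1 : κ ≤ 1)
    (hell : ∀ᵐ p ∂μ, ∀ e, κ ≤ p e) {lev : Site d →+ ℤ} {C p j : ℕ} (hp : 1 ≤ p)
    (hj1 : 3 * p ≤ 2 * j + 1) (hj2 : 2 * j ≤ 3 * p)
    {P : List (Step d) → Prop} (hPC : ∀ γ, P γ → ClimbWord lev C p γ) {K ρ g : ℝ≥0∞}
    (hK : K ≠ ⊤) (hρ : ρ ≠ ⊤) (hg0 : g ≠ 0) (hmass : ∀ N, g ≤ reachMass μ lev N P)
    (h1 : ∀ N x, occ μ lev P N x ≤ K * (((lev x).toNat : ℝ≥0∞) + 1) ^ (p - 1) /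
      (((lev x).toNat : ℝ≥0∞) + 1) ^ j)
    (h2 : ∀ N (y : Site d) (Z : Finset (Site d)), (∀ z ∈ Z, lev z = 0) →
      ∑ z ∈ Z, occ μ lev P N (y - z) ≤ ρ * (((lev y).toNat : ℝ≥0∞) + 1) ^ (p - 1)) :
    ∃ c : ℝ, 0 < c ∧ ∀ t : ℕ, 1 ≤ t → ∀ Z : Finset (Site d), (∀ z ∈ Z, lev z = 0) →
      Z.card = (t ^ (2 * j)) ^ (3 * p) → ∀ N : ℕ,
        iidLaw μ {ω | Step.tot lev (t ^ (2 * (3 * p))) p N Z ω < 1} ≤
          ENNReal.ofReal (Real.exp (1 - c * ((t : ℝ) ^ (2 * j) * t))) := by
  classical
  have hd : (1 : ℝ) ≤ d := by exact_mod_cast NeZero.one_le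
  have hg : g ≠ ⊤ := ne_top_of_le_ne_top ENNReal.one_ne_top
    ((hmass 0).trans (reachMass_le_one hrow lev 0 P))
  set δ := g.toReal / 2 with hδdef
  have hδ : 0 < δ := half_pos (ENNReal.toReal_pos hg0 hg)
  have hδ1 : δ ≤ 1 := by
    have := ENNReal.toReal_mono ENNReal.one_ne_top ((hmass 0).trans (reachMass_le_one hrow lev 0 P))
    rw [ENNReal.toReal_one] at this
    linarith
  set G₀ := 2 * (ρ.toReal ^ 2 + K.toReal ^ 2) with hG₀
  set b := (G₀ / 2 + 2 * d / κ) / κ with hb_def
  have hb1 : 1 ≤ b := by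
    rw [hb_def, le_div_iff₀ hκ]
    have : 1 ≤ 2 * (d : ℝ) / κ := by rw [le_div_iff₀ hκ]; linarith
    have : 0 ≤ G₀ / 2 := by positivity
    linarith
  set e := Real.exp (-((C : ℝ) + 1 + C * p))
  refine ⟨δ ^ 3 * e / (8 * b), by positivity, fun t ht Z hZ hcard N => ?_⟩
  set U := t ^ (2 * (3 * p)) with hU_def
  have hU : 1 ≤ U := Nat.one_le_pow _ _ ht
  set G := (reachers lev C p N).filter P
  have hsum : ∀ (Q : List (Step d) → Prop), (∀ γ, Q γ → P γ) →
      reachMass μ lev N Q = ∑ γ ∈ G.filter Q, wt μ γ := by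
    intro Q hQ
    rw [reachMass, tsum_eq_sum (s := (G.filter Q).subtype (IsReach lev)) fun γ hγ => ?_]
    · rw [Finset.sum_subtype_eq_sum_filter (fun γ => wt μ γ *
        if lev (disp γ) = (N : ℤ) ∧ Q γ then 1 else 0)]
      rw [Finset.filter_true_of_mem fun γ hγ =>
        (mem_reachers.1 (Finset.mem_filter.1 (Finset.mem_filter.1 hγ).1).1).1]
      refine Finset.sum_congr rfl fun γ hγ => ?_
      obtain ⟨h3, h4⟩ := Finset.mem_filter.1 hγ
      rw [if_pos ⟨(mem_reachers.1 (Finset.mem_filter.1 h3).1).2.1, h4⟩, mul_one]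
    · rw [if_neg, mul_zero]
      intro h
      refine hγ (Finset.mem_subtype.2 (Finset.mem_filter.2 ⟨Finset.mem_filter.2 ⟨?_, hQ _ h.2⟩, h.2⟩))
      exact mem_reachers.2 ⟨γ.2, h.1, hPC _ (hQ _ h.2)⟩
  have hmassG : ENNReal.ofReal (2 * δ) ≤ ∑ γ ∈ G, wt μ γ := by
    rw [hδdef, mul_div_cancel₀ _ two_ne_zero, ENNReal.ofReal_toReal hg]
    refine (hmass N).trans (le_of_eq ?_)
    rw [hsum P fun γ h => h, Finset.filter_true_of_mem fun γ hγ => (Finset.mem_filter.1 hγ).2]
  have hload : ∀ x, load μ Z G x = ∑ z ∈ Z, occ μ lev P N (x - z) := by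
    intro x
    refine Finset.sum_congr rfl fun z _ => ?_
    rw [occ, hsum _ fun γ h => h.1, Finset.sum_filter (s := G)]
    refine Finset.sum_congr rfl fun γ hγ => ?_
    have h3 : P γ := (Finset.mem_filter.1 hγ).2
    have h4 : x ∈ visits z γ ↔ x - z ∈ visits 0 γ := by
      simp only [mem_visits, zero_add, sub_eq_iff_eq_add']
    simp only [h3, h4, true_and]
  set u : Site d → ℝ := fun x => ((lev x).toNat : ℝ) + 1
  have hu : ∀ x, 1 ≤ u x := fun x => by simp [u]
  set r : Site d → ℝ := fun x => if u x ≤ U then ρ.toReal * u x ^ (p - 1)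
    else Z.card * K.toReal * u x ^ (p - 1) / u x ^ j
  have hloadr : ∀ x, load μ Z G x ≤ ENNReal.ofReal (r x) := by
    intro x
    rw [hload]
    have e0 : ((lev x).toNat : ℝ≥0∞) + 1 = ENNReal.ofReal (u x) := by
      rw [ENNReal.ofReal_add (Nat.cast_nonneg _) zero_le_one, ENNReal.ofReal_natCast,
        ENNReal.ofReal_one]
    have hux : 0 < u x := zero_lt_one.trans_le (hu x)
    simp only [r]
    split_ifs
    · refine (h2 N x Z hZ).trans (le_of_eq ?_)
      rw [e0, ENNReal.ofReal_mul ENNReal.toReal_nonneg, ENNReal.ofReal_toReal hρ,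
        ENNReal.ofReal_pow hux.le]
    · refine (Finset.sum_le_sum fun z _ => h1 N (x - z)).trans ?_
      rw [Finset.sum_congr rfl (g := fun _ => K * ENNReal.ofReal (u x) ^ (p - 1) /
        ENNReal.ofReal (u x) ^ j) fun z hz => by rw [map_sub, hZ z hz, sub_zero, e0],
        Finset.sum_const, nsmul_eq_mul, mul_div_assoc, mul_div_assoc]
      refine le_of_eq ?_
      rw [ENNReal.ofReal_mul (by positivity), ENNReal.ofReal_mul (Nat.cast_nonneg _),
        ENNReal.ofReal_natCast, ENNReal.ofReal_toReal hK, ENNReal.ofReal_div_of_pos (by positivity),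
        ENNReal.ofReal_pow hux.le, ENNReal.ofReal_pow hux.le]
      ring
  set n := (t : ℝ) ^ (3 * p * (3 * p - 2)) with hn_def
  have ht' : (1 : ℝ) ≤ t := by exact_mod_cast ht
  have hn : 1 ≤ n := one_le_pow₀ ht'
  have hUn : (U : ℝ) ^ (3 * p - 2) = n ^ 2 := by
    rw [hU_def, hn_def]
    push_cast
    rw [← pow_mul, ← pow_mul]
    congr 1
    ring
  have hM : (Z.card : ℝ) = (U : ℝ) ^ j := by
    rw [hcard, hU_def]
    push_cast
    rw [← pow_mul, ← pow_mul]
    congr 1
    ring
  have hB : (G₀ * n ^ 2 / (2 * n) + 2 * d * n / κ) / κ = n * b := by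
    rw [hb_def]; field_simp
  refine (Step.total_small hrow hκ hell hp hU hZ G (Finset.filter_subset _ _) (n := n)
    (Γ := G₀ * n ^ 2) hδ hδ1 (by linarith) (by positivity) (by rw [hB]; nlinarith) hmassG r
    fun z hz γ hγ x hx => ⟨hloadr x, ?_⟩).trans ?_
  · have hux : 0 < u x := zero_lt_one.trans_le (hu x)
    refine ⟨by simp only [r]; split_ifs <;> positivity, ?_⟩
    obtain ⟨k, hk, rfl⟩ := mem_visits.1 hx
    obtain ⟨hr, hN, -⟩ := mem_reachers.1 (Finset.mem_filter.1 hγ).1
    obtain ⟨hlo, hhi⟩ := hr k hk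
    rw [hN] at hhi
    rw [Step.surv_inside (by rw [map_add, hZ z hz, zero_add]; exact hlo)
      (by rw [map_add, hZ z hz, zero_add]; exact hhi), sub_sub_cancel, lam, ← hUn]
    set x := z + disp (γ.take k)
    change r x ^ 2 ≤ G₀ * (U : ℝ) ^ (3 * p - 2) * (U / (2 * max (U : ℝ) (u x) ^ (p + 1)))
    have hUR : (1 : ℝ) ≤ U := by exact_mod_cast hU
    have hρ2 : ρ.toReal ^ 2 ≤ ρ.toReal ^ 2 + K.toReal ^ 2 := le_add_of_nonneg_right (sq_nonneg _)
    have hK2 : K.toReal ^ 2 ≤ ρ.toReal ^ 2 + K.toReal ^ 2 := le_add_of_nonneg_left (sq_nonneg _)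
    have hrhs : G₀ * (U : ℝ) ^ (3 * p - 2) * (U / (2 * max (U : ℝ) (u x) ^ (p + 1))) =
        (ρ.toReal ^ 2 + K.toReal ^ 2) * (U : ℝ) ^ (3 * p - 1) / max (U : ℝ) (u x) ^ (p + 1) := by
      rw [hG₀, show 3 * p - 1 = 3 * p - 2 + 1 by omega, pow_succ (U : ℝ) (3 * p - 2)]
      field_simp
    rw [hrhs, le_div_iff₀ (by positivity)]
    simp only [r]
    split_ifs with hle
    · rw [max_eq_left hle, mul_pow, ← pow_mul]
      calc ρ.toReal ^ 2 * u x ^ ((p - 1) * 2) * (U : ℝ) ^ (p + 1)
          ≤ (ρ.toReal ^ 2 + K.toReal ^ 2) * (U : ℝ) ^ ((p - 1) * 2) * (U : ℝ) ^ (p + 1) :=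
            mul_le_mul_of_nonneg_right (mul_le_mul hρ2 (pow_le_pow_left₀ hux.le hle _)
              (by positivity) (by positivity)) (by positivity)
        _ = _ := by rw [mul_assoc, ← pow_add]; congr 2; omega
    · rw [max_eq_right (not_le.1 hle).le, hM]
      have key : (U : ℝ) ^ (2 * j) * u x ^ (3 * p - 1) ≤
          (U : ℝ) ^ (3 * p - 1) * u x ^ (2 * j) := by
        rw [show 2 * j = 3 * p - 1 + (2 * j - (3 * p - 1)) by omega, pow_add, pow_add,
          mul_right_comm, ← mul_assoc]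
        exact mul_le_mul_of_nonneg_left
          (pow_le_pow_left₀ (Nat.cast_nonneg U) (not_le.1 hle).le _) (by positivity)
      calc ((U : ℝ) ^ j * K.toReal * u x ^ (p - 1) / u x ^ j) ^ 2 * u x ^ (p + 1)
          = K.toReal ^ 2 * ((U : ℝ) ^ (2 * j) * u x ^ (3 * p - 1)) / u x ^ (2 * j) := by
            rw [div_pow, div_mul_eq_mul_div, show 3 * p - 1 = (p - 1) * 2 + (p + 1) by omega]
            ring
        _ ≤ K.toReal ^ 2 * ((U : ℝ) ^ (3 * p - 1) * u x ^ (2 * j)) / u x ^ (2 * j) :=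
            div_le_div_of_nonneg_right (mul_le_mul_of_nonneg_left key (by positivity)) (by positivity)
        _ = K.toReal ^ 2 * (U : ℝ) ^ (3 * p - 1) := by field_simp
        _ ≤ _ := mul_le_mul_of_nonneg_right hK2 (by positivity)
  · refine ENNReal.ofReal_le_ofReal (Real.exp_le_exp.2 (sub_le_sub_left ?_ 1))
    rw [hB, le_div_iff₀ (by positivity)]
    have hexp : n * ((t : ℝ) ^ (2 * j) * t) ≤ Z.card := by
      rw [hn_def, hcard]
      push_cast
      rw [← pow_succ, ← pow_add, ← pow_mul]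
      refine pow_le_pow_right₀ ht' ?_
      obtain ⟨m, hm⟩ : ∃ m, 3 * p = m + 2 := ⟨3 * p - 2, by omega⟩
      rw [show 3 * p - 2 = m by omega, hm]
      rcases (show 2 * j = m + 1 ∨ 2 * j = m + 2 by omega) with h | h <;> rw [h] <;> ring_nf <;>
        omega
    have h := mul_le_mul_of_nonneg_left hexp (show (0 : ℝ) ≤ δ ^ 3 * e by positivity)
    calc δ ^ 3 * e / (8 * b) * ((t : ℝ) ^ (2 * j) * t) * (8 * (n * b))
        = δ ^ 3 * e * (n * ((t : ℝ) ^ (2 * j) * t)) := by field_simp
      _ ≤ _ := h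

/-- On a side of escape like the `p`-th root of the time the quenched escape chance has a
super-polynomial lower tail. -/
theorem escape_tail_rise {p : ℕ} (hp : 1 ≤ p) (hd : 3 * p + 1 ≤ d) (hrow : ∀ᵐ p ∂μ, GoodRow p)
    {κ : ℝ} (hκ : 0 < κ) (hell : ∀ᵐ p ∂μ, ∀ e, κ ≤ p e) {a : Fin d → ℤ} (ha : ∀ i, |a i| ≤ 1)
    (ha0 : ∃ i, a i ≠ 0) {C : ℕ} (hP : annealed μ (rise a C p) ≠ 0) : EscapeTail μ a := by
  classical
  set κ' := min κ 1
  have hκ' : 0 < κ' := lt_min hκ one_pos
  have hell' : ∀ᵐ p ∂μ, ∀ e, κ' ≤ p e := hell.mono fun q hq e => (min_le_left _ _).trans (hq e)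
  set j := 3 * p / 2 with hj_def
  obtain ⟨P, K, ρ, g, hK, hρ, hg0, hPC, hmass, h1, h2⟩ :=
    climbers hp (show 1 ≤ j by omega) (show 2 * j + 1 ≤ d by omega) hrow hκ hell ha ha0 hP
  obtain ⟨c, hc, hsmall⟩ := grid_weight_small hrow hκ' (min_le_right _ _) hell' hp
    (show 3 * p ≤ 2 * j + 1 by omega) (show 2 * j ≤ 3 * p by omega) hPC hK hρ hg0 hmass h1 h2
  set q := 3 * p with hq_def
  set k := 2 * j
  obtain ⟨ι, σ, l, hσ, hl, hlι⟩ := exists_loops (q := q) hd ha ha0
  set L := -Real.log κ'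
  have hL : 0 ≤ L := neg_nonneg.2 (Real.log_nonpos hκ'.le (min_le_right _ _))
  have hq0 : (0 : ℝ) < q := by exact_mod_cast (show 0 < q by omega)
  set η := 1 / (4 * (2 * q * L + q)) with hη
  have hη0 : 0 < η := by positivity
  intro A
  obtain ⟨T, hT⟩ := exists_nat_ge (((A : ℝ) + 1) * 2 ^ k / (c * η))
  have hlog : Tendsto (fun m : ℕ => Real.log m) atTop atTop :=
    Real.tendsto_log_atTop.comp tendsto_natCast_atTop_atTop
  filter_upwards [hlog.eventually (eventually_ge_atTop (max 1 (((T : ℝ) + 1) ^ k / η))),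
    eventually_ge_atTop 2] with m hm hm2
  set x := Real.log m
  have hx1 : 1 ≤ x := le_trans (le_max_left _ _) hm
  have hbig : ((T : ℝ) + 1) ^ k ≤ η * x := by
    have := le_trans (le_max_right _ _) hm
    rw [div_le_iff₀ hη0] at this
    linarith
  -- the largest `t` with `t ^ k ≤ η x`
  have hex : ∃ t : ℕ, η * x < ((t : ℝ) + 1) ^ k := by
    obtain ⟨t, ht⟩ := exists_nat_gt (η * x)
    exact ⟨t, ht.trans_le ((le_add_of_nonneg_right zero_le_one).trans
      (le_self_pow₀ (le_add_of_nonneg_left (Nat.cast_nonneg t)) (by omega)))⟩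
  set t := Nat.find hex
  have ht2 : η * x < ((t : ℝ) + 1) ^ k := Nat.find_spec hex
  have htT : T + 1 ≤ t := by
    by_contra h
    rw [not_le] at h
    have h' : (t : ℝ) + 1 ≤ (T : ℝ) + 1 := by exact_mod_cast (show t + 1 ≤ T + 1 by omega)
    exact absurd (hbig.trans_lt ht2) (not_lt.2 (pow_le_pow_left₀ (by positivity) h' _))
  have ht1 : (t : ℝ) ^ k ≤ η * x := by
    have h := Nat.find_min hex (show t - 1 < t by omega)
    rw [not_lt] at h
    rwa [Nat.cast_sub (show 1 ≤ t by omega), Nat.cast_one, sub_add_cancel] at h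
  set R := t ^ k
  have hR : (R : ℝ) ≤ η * x := by simp only [R]; push_cast; exact ht1
  set grid : Finset (Fin q → ℕ) := Fintype.piFinset fun _ => Finset.range R
  set Z : Finset (Site d) := grid.image fun P => disp (gridWord l P)
  have hloop : ∀ P, LoopWord (levOf a) (gridWord l P) := fun P => gridWord_loop (fun i => (hl i).1) P
  have hdisp : ∀ P i, disp (gridWord l P) (ι i) = (P i : ℤ) * σ i := by
    intro P i
    simp [gridWord_disp, Finset.sum_apply, hlι]
  have hinj : Set.InjOn (fun P => disp (gridWord l P)) grid := by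
    intro P _ Q _ h
    funext i
    have h3 := congrFun h (ι i)
    simp only [hdisp] at h3
    exact_mod_cast mul_right_cancel₀ (hσ i) h3
  have hcard : Z.card = R ^ q := by
    rw [Finset.card_image_of_injOn hinj]
    simp [grid]
  have hR0 : 0 < R := pow_pos (by omega) _
  have hZ : ∀ z ∈ Z, levOf a z = 0 := fun z hz => by
    obtain ⟨P', -, rfl⟩ := Finset.mem_image.1 hz
    exact (hloop P').1
  set M := R ^ q
  have hM0 : 0 < M := pow_pos hR0 _
  set U := t ^ (2 * q)
  have hU : 1 ≤ U := Nat.one_le_pow _ _ (by omega)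
  -- small escape from the origin forces small finite horizon chances at all grid points
  set E : ℕ → Set (Env d) := fun N =>
    {ω | Good ω ∧ ∀ z ∈ Z, law ω z (reach (levOf a) N) < (M : ℝ≥0∞)⁻¹}
  have hEmono : Monotone E := fun N N' h ω hω =>
    ⟨hω.1, fun z hz => lt_of_le_of_lt (measure_mono (show reach (levOf a) N' ⊆ reach (levOf a) N from
      fun X ⟨s, hs, hs'⟩ => ⟨s, le_trans (by exact_mod_cast h) hs, hs'⟩)) (hω.2 z hz)⟩
  have hEbound : ∀ N, iidLaw μ (E N) ≤
      ENNReal.ofReal (Real.exp (1 - c * ((t : ℝ) ^ k * t))) := by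
    intro N
    refine le_trans (measure_mono fun ω hω => ?_) (hsmall t (by omega) Z hZ hcard N)
    change Step.tot (levOf a) U p N Z ω < 1
    have hne : Z.Nonempty := Finset.card_pos.1 (by rw [hcard]; exact hM0)
    calc Step.tot (levOf a) U p N Z ω < ∑ _z ∈ Z, (1 : ℝ) / M := by
          refine Finset.sum_lt_sum_of_nonempty hne fun z hz => ?_
          have h3 := (Step.succ_le_reach hU hω.1 z).trans_lt (hω.2 z hz) (a :=
            Four.succ (surv (levOf a) U p N) ω (top (levOf a) N) z)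
          have h4 := (ENNReal.toReal_lt_toReal (ne_top_of_lt h3) (by simp [hM0.ne'])).2 h3
          simpa using h4
      _ = 1 := by
          rw [Finset.sum_const, nsmul_eq_mul, hcard]
          field_simp
  have hsub : ∀ᵐ ω ∂iidLaw μ, law ω 0 (stayUp a) ≤ ENNReal.ofReal (Real.sqrt m)⁻¹ →
      ω ∈ ⋃ N, E N := by
    filter_upwards [ae_forall_site μ hrow, ae_forall_site μ hell'] with ω hω hκω hsmall
    have hz : ∀ z ∈ Z, law ω z (stayUp a) < (M : ℝ≥0∞)⁻¹ := by
      intro z hz
      obtain ⟨P', hP', rfl⟩ := Finset.mem_image.1 hz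
      by_contra hbig
      rw [not_lt] at hbig
      have h3 := (loop_mul_stay_le hω hκω a (hloop P')).trans hsmall
      have hlen : (gridWord l P').length ≤ 2 * q * R := by
        rw [gridWord_length]
        refine (Finset.sum_le_sum fun i _ => Nat.mul_le_mul
          (Finset.mem_range.1 (Fintype.mem_piFinset.1 hP' i)).le (hl i).2).trans (le_of_eq ?_)
        simp; ring
      have h4 : ENNReal.ofReal κ' ^ (2 * q * R) * (M : ℝ≥0∞)⁻¹ ≤ ENNReal.ofReal (Real.sqrt m)⁻¹ :=
        le_trans (mul_le_mul' (pow_le_pow_right_of_le_one'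
          (ENNReal.ofReal_le_one.2 (min_le_right _ _)) hlen) hbig) h3
      have hMR : (0 : ℝ) < M := by exact_mod_cast hM0
      rw [← ENNReal.ofReal_pow hκ'.le, ← ENNReal.ofReal_natCast, ← ENNReal.ofReal_inv_of_pos hMR,
        ← ENNReal.ofReal_mul (by positivity), ENNReal.ofReal_le_ofReal_iff (by positivity)] at h4
      have hm0 : (1 : ℝ) < m := by exact_mod_cast (show 1 < m by omega)
      have h6 : Real.exp (-(x / 4)) ≤ κ' ^ (2 * q * R) * ((M : ℝ))⁻¹ := by
        have hk : κ' ^ (2 * q * R) = Real.exp (-(2 * q * R * L)) := by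
          rw [show -(2 * (q : ℝ) * R * L) = ((2 * q * R : ℕ) : ℝ) * Real.log κ' by
            simp only [L]; push_cast; ring, Real.exp_nat_mul, Real.exp_log hκ']
        have hMe : ((M : ℝ)) ≤ Real.exp (q * R) := by
          simp only [M]; push_cast
          rw [Real.exp_nat_mul]
          exact pow_le_pow_left₀ (by positivity)
            ((le_add_of_nonneg_right zero_le_one).trans (Real.add_one_le_exp _)) _
        rw [hk]
        refine le_trans ?_ (mul_le_mul_of_nonneg_left (inv_anti₀ hMR hMe) (Real.exp_pos _).le)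
        rw [← Real.exp_neg, ← Real.exp_add]
        refine Real.exp_le_exp.2 ?_
        have h7 : (R : ℝ) * (2 * q * L + q) ≤ x / 4 := by
          refine (mul_le_mul_of_nonneg_right hR (by positivity)).trans (le_of_eq ?_)
          rw [hη]; field_simp
        linarith
      have h8 : (Real.sqrt m)⁻¹ < Real.exp (-(x / 4)) := by
        rw [Real.exp_neg]
        refine (inv_lt_inv₀ (by positivity) (Real.exp_pos _)).2 ?_
        rw [Real.sqrt_eq_rpow, Real.rpow_def_of_pos (by linarith)]
        exact Real.exp_lt_exp.2 (by simp only [x]; linarith)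
      linarith
    obtain ⟨N, hN⟩ := ((Filter.eventually_all_finset Z).2 fun z hz' =>
      reach_lim a z (hZ z hz') (hz z hz')).exists
    exact Set.mem_iUnion.2 ⟨N, hω, hN⟩
  refine le_trans (measure_mono_ae (t := ⋃ N, E N) ?_) ?_
  · filter_upwards [hsub] with ω hω using hω
  refine le_trans (le_of_eq hEmono.measure_iUnion) (iSup_le fun N => (hEbound N).trans ?_)
  rw [← ENNReal.ofReal_natCast, ← ENNReal.ofReal_pow (Nat.cast_nonneg _),
    ← ENNReal.ofReal_inv_of_pos (by positivity)]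
  refine ENNReal.ofReal_le_ofReal ?_
  rw [show ((m : ℝ) ^ A)⁻¹ = Real.exp (-((A : ℝ) * x)) by
    rw [Real.exp_neg, Real.exp_nat_mul, Real.exp_log (by positivity)]]
  refine Real.exp_le_exp.2 ?_
  have h4 : ((A : ℝ) + 1) * 2 ^ k ≤ c * η * t := by
    rw [div_le_iff₀ (by positivity)] at hT
    have h' : (T : ℝ) ≤ t := by exact_mod_cast (show T ≤ t by omega)
    have := mul_le_mul_of_nonneg_right h' (show 0 ≤ c * η by positivity)
    linarith
  have h5 : η * x ≤ 2 ^ k * (t : ℝ) ^ k := by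
    rw [← mul_pow]
    refine ht2.le.trans (pow_le_pow_left₀ (by positivity) ?_ _)
    have : (1 : ℝ) ≤ t := by exact_mod_cast (show 1 ≤ t by omega)
    linarith
  have h6 := mul_le_mul_of_nonneg_right h4 (show (0 : ℝ) ≤ x by linarith)
  have h7 := mul_le_mul_of_nonneg_left h5 (show (0 : ℝ) ≤ c * t by positivity)
  have h8 : ((A : ℝ) + 1) * x ≤ c * ((t : ℝ) ^ k * t) :=
    le_of_mul_le_mul_right (by linarith) (show (0 : ℝ) < 2 ^ k by positivity)
  linarith

omit [IsProbabilityMeasure μ] in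
lemma climb_subset_rise {a : Fin d → ℤ} {ε B : ℝ} (hε : 0 < ε) (hB : 0 ≤ B) {C : ℕ}
    (hC : (B + 1) / ε ≤ C) {v : Fin d → ℝ} : climb a ε B v ⊆ rise a C 1 := by
  intro X hX t
  obtain ⟨h1, h2⟩ := hX.1 t
  refine ⟨h1, ?_⟩
  set h := levOf a (X t - X 0)
  rw [div_le_iff₀ hε] at hC
  have h1' : (0 : ℝ) ≤ (h : ℝ) := by exact_mod_cast h1
  have h3 : (t : ℝ) ≤ ((C : ℤ) * (h + 1) : ℤ) := by
    push_cast
    nlinarith
  rw [pow_one]
  exact_mod_cast h3

/-- On the side of a velocity the quenched escape chance has a super-polynomial lower tail. -/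
theorem escape_tail (hd : 4 ≤ d) (hrow : ∀ᵐ p ∂μ, GoodRow p) {κ : ℝ} (hκ : 0 < κ)
    (hell : ∀ᵐ p ∂μ, ∀ e, κ ≤ p e) {a : Fin d → ℤ} (ha : ∀ i, |a i| ≤ 1)
    {v : Fin d → ℝ} (hv : 0 < ∑ i, (a i : ℝ) * v i) (hP : annealed μ (vel v) ≠ 0) :
    EscapeTail μ a := by
  obtain ⟨B, hB⟩ := exists_climb hrow a hv hP
  obtain ⟨C, hC⟩ := exists_nat_ge (((B : ℝ) + 1) / ((∑ i, (a i : ℝ) * v i) / 2))
  have ha0 : ∃ i, a i ≠ 0 := by
    by_contra h
    push Not at h
    simp [h] at hv
  exact escape_tail_rise le_rfl hd hrow hκ hell ha ha0 fun h => hB (measure_mono_null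
    (climb_subset_rise (by positivity) (Nat.cast_nonneg B) hC) h)

end Vale.Agent.P147.Velocity
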