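import Vale.Agent.P147.Velocity.Cross
import Vale.Agent.P147.Velocity.Spread

/-!
P147: the expected meets of far windows of beams, and sums over lists hitting a given level.
-/

open Filter
open scoped ENNReal

namespace Vale.Agent.P147.Velocity

/-- The indicator of a proposition. -/
noncomputable def ind (p : Prop) : ℝ≥0∞ := by
  classical
  exact if p then 1 else 0

lemma ind_pos {p : Prop} (h : p) : ind p = 1 := by simp [ind, h]

lemma ind_neg {p : Prop} (h : ¬ p) : ind p = 0 := by simp [ind, h]

lemma ind_le_one (p : Prop) : ind p ≤ 1 := by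
  by_cases h : p <;> simp [ind, h]

lemma ind_mono {p q : Prop} (h : p → q) : ind p ≤ ind q := by
  by_cases hp : p
  · rw [ind_pos hp, ind_pos (h hp)]
  · rw [ind_neg hp]; exact zero_le

lemma ind_congr {p q : Prop} (h : p ↔ q) : ind p = ind q := by rw [propext h]

/-- Reciprocals over a window. -/
lemma sum_inv_Ico_le (a b : ℕ) :
    ∑ j ∈ Finset.Ico a b, ((j : ℝ≥0∞) + 1)⁻¹ ≤ (b : ℝ≥0∞) / ((a : ℝ≥0∞) + 1) := by
  refine le_trans (Finset.sum_le_card_nsmul _ _ ((a : ℝ≥0∞) + 1)⁻¹ fun j hj => ?_) ?_
  · exact ENNReal.inv_le_inv.mpr (add_le_add (by exact_mod_cast (Finset.mem_Ico.mp hj).1) le_rfl)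
  · rw [nsmul_eq_mul, div_eq_mul_inv, Nat.card_Ico]
    exact mul_le_mul' (Nat.cast_le.mpr (Nat.sub_le _ _)) le_rfl

namespace Beam

variable {α β : Type*} (B : Beam α) {f : α → ℕ}

lemma total_fst (hf : ∀ a, (f a : ℤ) = (B.disp a).1) (L : List α) :
    (B.total L).1 = ((L.map f).sum : ℕ) := by
  induction L with
  | nil => rfl
  | cons a L ih =>
    rw [total_cons, Prod.fst_add, ih, ← hf, List.map_cons, List.sum_cons]
    push_cast; rfl

lemma length_le_height (hf : ∀ a, (f a : ℤ) = (B.disp a).1) (L : List α) :
    L.length ≤ (L.map f).sum := by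
  have h1 := B.length_le_total L
  rw [B.total_fst hf] at h1
  omega

lemma trace_split (a : ℕ) (L : List α) : B.trace L = B.trace (L.take a) ++ B.window a L := by
  conv_lhs => rw [← List.take_append_drop a L]
  rw [trace_append]
  rfl

lemma window_low {a : ℕ} {L : List α} (ha : a ≤ L.length) :
    ∀ x ∈ B.window a L, (a : ℤ) ≤ x.1 := by
  intro x hx
  obtain ⟨y, hy, rfl⟩ := List.mem_map.mp hx
  have h1 := B.length_le_total (L.take a)
  have h2 := (B.trace_range y hy).1
  rw [List.length_take, min_eq_left ha] at h1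
  simp only [Prod.fst_add]
  omega

lemma window_mono {a : ℕ} {L L' : List α} (h : L <+: L') (P : List Pt) :
    meets P (B.window a L) ≤ meets P (B.window a L') := by
  obtain ⟨R, rfl⟩ := h
  rcases Nat.lt_or_ge L.length a with hl | hl
  · rw [show B.window a L = [] by simp [window, List.drop_eq_nil_of_le hl.le], meets_comm]
    simp
  · simp only [window, List.take_append_of_le_length hl, List.drop_append_of_le_length hl,
      trace_append, List.map_append, meets_append_right]
    omega

lemma trace_take_mono {a : ℕ} {L L' : List α} (h : L <+: L') (P : List Pt) :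
    meets P (B.trace (L.take a)) ≤ meets P (B.trace (L'.take a)) := by
  obtain ⟨R, rfl⟩ := h
  rw [List.take_append, trace_append, meets_append_right]
  omega

lemma avg_height (f : α → ℕ) (n : ℕ) :
    B.avg n (fun L => ((L.map f).sum : ℝ≥0∞)) = n * ∑' a, B.w a * (f a : ℝ≥0∞) := by
  induction n with
  | zero => simp
  | succ n ih =>
    simp only [Beam.avg] at ih
    simp only [Beam.avg, avg_succ, List.map_cons, List.sum_cons, Nat.cast_add, avg_fun_add, ih,
      avg_const B.sum_w, mul_add, ENNReal.tsum_add, ENNReal.tsum_mul_right, B.sum_w]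
    push_cast; ring

/-- Markov's inequality for the height. -/
lemma avg_high_le (f : α → ℕ) (n m : ℕ) :
    B.avg n (fun L => ind (m < (L.map f).sum)) ≤
      n * (∑' a, B.w a * (f a : ℝ≥0∞)) / ((m : ℝ≥0∞) + 1) := by
  rw [div_eq_mul_inv, ← B.avg_height f, ← avg_mul_const]
  refine avg_mono fun L => ?_
  by_cases h : m < (L.map f).sum
  · rw [ind_pos h, ← div_eq_mul_inv, ENNReal.le_div_iff_mul_le (Or.inl (by simp))
      (Or.inl (by simp)), one_mul]
    exact_mod_cast h
  · rw [ind_neg h]; exact zero_le

lemma avg_length_trace (n : ℕ) :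
    B.avg n (fun L => ((B.trace L).length : ℝ≥0∞)) = n * B.mass := by
  induction n with
  | zero => simp
  | succ n ih =>
    simp only [Beam.avg] at ih
    simp only [Beam.avg, avg_succ, trace_cons, List.length_append, List.length_map, Nat.cast_add,
      avg_fun_add, ih, avg_const B.sum_w, mul_add, ENNReal.tsum_add, ENNReal.tsum_mul_right,
      B.sum_w]
    rw [Beam.mass]
    push_cast; ring

lemma avg_length_window (a b : ℕ) :
    B.avg (a + b) (fun L => ((B.window a L).length : ℝ≥0∞)) = b * B.mass := by
  rw [Beam.avg, avg_append]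
  refine le_antisymm (avg_le_const B.sum_w fun L hL => ?_) ?_
  · refine (le_of_eq ?_).trans (B.avg_length_trace b).le
    refine avg_congr_of_length fun M _ => ?_
    simp [window, List.drop_left' hL]
  · refine le_trans (avg_const B.sum_w a _).ge (avg_mono_of_length fun L hL => ?_)
    refine (B.avg_length_trace b).ge.trans (le_of_eq (avg_congr_of_length fun M _ => ?_))
    simp [window, List.drop_left' hL]

/-- At most one initial segment has a given height. -/
lemma sum_level_le_one (hf : ∀ a, (f a : ℤ) = (B.disp a).1) {K : ℕ} {L : List α}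
    (hL : L.length = K) (h : ℕ) :
    ∑ k ∈ Finset.range K, ind (((L.take k).map f).sum = h) ≤ 1 := by
  by_cases hex : ∃ k ∈ Finset.range K, ((L.take k).map f).sum = h
  · obtain ⟨k, hk, hkh⟩ := hex
    rw [Finset.sum_eq_single_of_mem k hk fun j hj hjk => ind_neg fun hjh => ?_, ind_pos hkh]
    have := Finset.mem_range.mp hk
    have := Finset.mem_range.mp hj
    rcases lt_or_gt_of_ne hjk with h' | h'
    · have := B.level_take_lt h' (L := L) (by omega)
      rw [B.total_fst hf, B.total_fst hf] at this; omega
    · have := B.level_take_lt h' (L := L) (by omega)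
      rw [B.total_fst hf, B.total_fst hf] at this; omega
  · rw [Finset.sum_eq_zero fun k hk => ind_neg fun hk' => hex ⟨k, hk, hk'⟩]
    exact zero_le

/-- Summing over the lists of a given height is dominated by one long list. -/
lemma sum_hit_mono_le (hf : ∀ a, (f a : ℤ) = (B.disp a).1) (K h : ℕ) (F : List α → ℝ≥0∞)
    (hF : ∀ L L', L <+: L' → F L ≤ F L') :
    ∑ k ∈ Finset.range K, B.avg k (fun L => ind ((L.map f).sum = h) * F L) ≤ B.avg K F := by
  calc ∑ k ∈ Finset.range K, B.avg k (fun L => ind ((L.map f).sum = h) * F L)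
      ≤ ∑ k ∈ Finset.range K, B.avg K (fun L => ind (((L.take k).map f).sum = h) * F L) := by
        refine Finset.sum_le_sum fun k hk => ?_
        rw [Beam.avg, ← avg_take B.sum_w (Finset.mem_range.mp hk).le
          (fun L => ind ((L.map f).sum = h) * F L)]
        exact avg_mono fun L => mul_le_mul' le_rfl (hF _ _ (List.take_prefix _ _))
    _ ≤ _ := by
        rw [Beam.avg, ← avg_sum]
        refine avg_mono_of_length fun L hL => ?_
        rw [← Finset.sum_mul]
        exact (mul_le_mul' (B.sum_level_le_one hf hL h) le_rfl).trans (one_mul _).le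

lemma sum_hit_one (hf : ∀ a, (f a : ℤ) = (B.disp a).1) (K h : ℕ) :
    ∑ k ∈ Finset.range K, B.avg k (fun L => ind ((L.map f).sum = h)) ≤ 1 := by
  have := B.sum_hit_mono_le hf K h (fun _ => 1) fun _ _ _ => le_rfl
  simpa [Beam.avg, avg_const B.sum_w] using this

lemma sum_hit_reverse (K h : ℕ) (F : List α → ℝ≥0∞) :
    ∑ k ∈ Finset.range K, B.avg k (fun L => ind ((L.map f).sum = h) * F L.reverse)
      = ∑ k ∈ Finset.range K, B.avg k (fun L => ind ((L.map f).sum = h) * F L) := by
  refine Finset.sum_congr rfl fun k _ => ?_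
  simp only [Beam.avg]
  conv_rhs => rw [← avg_reverse]
  simp [List.map_reverse, List.sum_reverse]

/-- The windows of two independent beams. -/
lemma avg_window_meets (X : Beam β) {K₀ : ℝ≥0∞}
    (hK : ∀ n, ∑' m : ℤ, B.hitSup n m ≤ K₀ / ((n : ℝ≥0∞) + 1)) (n a b : ℕ) :
    X.avg n (fun L => B.avg b fun M => (meets (X.trace L) (B.window a M) : ℝ≥0∞)) ≤
      X.mass * (B.mass * (K₀ * ((b : ℝ≥0∞) / ((a : ℝ≥0∞) + 1)))) := by
  calc _ ≤ X.avg n (fun L => ((X.trace L).map fun x => B.load a b x.1).sum) := by
        refine avg_mono fun L => ?_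
        have h := B.avg_window_meets_le a b (X.trace L) 0
        simpa using h
    _ ≤ X.mass * ∑' m : ℤ, B.load a b m := X.avg_trace_le n _
    _ ≤ _ := mul_le_mul' le_rfl ((B.tsum_load_le hK a b).trans
        (mul_le_mul' le_rfl (mul_le_mul' le_rfl (sum_inv_Ico_le a b))))

/-- Two independent displacements of which one is spread. -/
lemma avg_offset_le (Q : Beam β) (r K : ℕ) (c : Pt) :
    B.avg r (fun R => ∑ k ∈ Finset.range K, Q.avg k fun V => ind (B.total R - Q.total V = c)) ≤
      ∑' m : ℤ, B.hitSup r m := by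
  calc _ = B.avg r (fun R => ∑' x : Pt, ind (B.total R = x) *
          ∑ k ∈ Finset.range K, Q.avg k fun V => ind (Q.total V = x - c)) := by
        refine avg_congr_of_length fun R _ => ?_
        rw [tsum_eq_single (B.total R) fun x hx => by rw [ind_neg (Ne.symm hx), zero_mul],
          ind_pos rfl, one_mul]
        refine Finset.sum_congr rfl fun k _ => avg_congr_of_length fun V _ => ind_congr ?_
        constructor <;> intro h
        · rw [← h]; abel
        · rw [h]; abel
    _ = ∑' x : Pt, B.hit r x * ∑ k ∈ Finset.range K, Q.hit k (x - c) := by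
        simp only [Beam.avg, avg_tsum, avg_mul_const]
        refine tsum_congr fun x => ?_
        congr 1
        · exact avg_congr_of_length fun R _ => by by_cases h : B.total R = x <;> simp [ind, h]
        · refine Finset.sum_congr rfl fun k _ => avg_congr_of_length fun V _ => ?_
          by_cases h : Q.total V = x - c <;> simp [ind, h]
    _ = ∑' m : ℤ, ∑' u : ℤ × ℤ, B.hit r (m, u) * ∑ k ∈ Finset.range K, Q.hit k ((m, u) - c) :=
        ENNReal.tsum_prod' (f := fun x : Pt => B.hit r x * ∑ k ∈ Finset.range K, Q.hit k (x - c))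
    _ ≤ _ := by
        refine ENNReal.tsum_le_tsum fun m => ?_
        calc ∑' u : ℤ × ℤ, B.hit r (m, u) * ∑ k ∈ Finset.range K, Q.hit k ((m, u) - c)
            ≤ ∑' u : ℤ × ℤ, B.hitSup r m * ∑ k ∈ Finset.range K, Q.hit k ((m, u) - c) :=
              ENNReal.tsum_le_tsum fun u =>
                mul_le_mul' (le_iSup (fun u : ℤ × ℤ => B.hit r (m, u)) u) le_rfl
          _ ≤ B.hitSup r m * 1 := by
              rw [ENNReal.tsum_mul_left]
              refine mul_le_mul' le_rfl ?_
              rw [Summable.tsum_finsetSum fun _ _ => ENNReal.summable]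
              refine le_trans (le_of_eq (Finset.sum_congr rfl fun k _ => ?_))
                (Q.sum_hit_le_one K (m - c.1))
              exact (Equiv.subRight c.2).tsum_eq fun u : ℤ × ℤ => Q.hit k (m - c.1, u)
          _ = _ := mul_one _

lemma meets_cast_eq (A C : List Pt) :
    (meets A C : ℝ≥0∞) = (A.map fun x => (C.map fun y => ind (y = x)).sum).sum := by
  induction A with
  | nil => simp
  | cons x A ih =>
    rw [meets_cons_left, Nat.cast_add, ih, cast_count, List.map_cons, List.sum_cons]
    congr 2
    exact List.map_congr_left fun y _ => by by_cases h : y = x <;> simp [ind, h]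

end Beam

end Vale.Agent.P147.Velocity
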