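import Vale.Agent.P147.Anisotropic

/-!
P147: finite words of steps, their quenched and annealed weights, and the weight of a
concatenation, which is at least `κ` to the number of revisits times the product of the weights.
-/

open MeasureTheory Filter
open scoped ENNReal

namespace Vale.Agent.P147.Velocity

variable {d : ℕ}

/-- The displacement of a word. -/
def disp (γ : List (Step d)) : Site d := (γ.map move).sum

/-- The departure sites of a word read from `z`. -/
def visits : Site d → List (Step d) → List (Site d)
  | _, [] => []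
  | z, e :: γ => z :: visits (z + move e) γ

/-- The quenched weight of a word read from `z`. -/
noncomputable def qp (ω : Env d) : Site d → List (Step d) → ℝ≥0∞
  | _, [] => 1
  | z, e :: γ => ENNReal.ofReal (ω z e) * qp ω (z + move e) γ

/-- The annealed weight of a word. -/
noncomputable def wt (μ : Measure (Step d → ℝ)) (γ : List (Step d)) : ℝ≥0∞ :=
  ∫⁻ ω, qp ω 0 γ ∂iidLaw μ

@[simp] lemma disp_nil : disp ([] : List (Step d)) = 0 := rfl

@[simp] lemma disp_cons (e : Step d) (γ : List (Step d)) :
    disp (e :: γ) = move e + disp γ := by simp [disp]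

lemma disp_append (γ π : List (Step d)) : disp (γ ++ π) = disp γ + disp π := by simp [disp]

lemma visits_append (γ π : List (Step d)) :
    ∀ z, visits z (γ ++ π) = visits z γ ++ visits (z + disp γ) π := by
  induction γ with
  | nil => intro z; simp [visits]
  | cons e γ ih => intro z; simp [visits, ih, add_assoc]

lemma visits_translate (γ : List (Step d)) :
    ∀ z a : Site d, visits (z + a) γ = (visits z γ).map (· + a) := by
  induction γ with
  | nil => intro z a; rfl
  | cons e γ ih => intro z a; simp [visits, ← ih, add_right_comm]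

lemma length_visits (γ : List (Step d)) : ∀ z, (visits z γ).length = γ.length := by
  induction γ with
  | nil => intro z; rfl
  | cons e γ ih => intro z; simp [visits, ih]

lemma mem_visits {γ : List (Step d)} {z x : Site d} :
    x ∈ visits z γ ↔ ∃ k < γ.length, x = z + disp (γ.take k) := by
  induction γ generalizing z with
  | nil => simp [visits]
  | cons e γ ih =>
    rw [visits, List.mem_cons, ih]
    constructor
    · rintro (rfl | ⟨k, hk, rfl⟩)
      · exact ⟨0, by simp, by simp⟩
      · exact ⟨k + 1, by simpa using hk, by simp [add_assoc]⟩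
    · rintro ⟨k, hk, rfl⟩
      cases k with
      | zero => exact Or.inl (by simp)
      | succ k => exact Or.inr ⟨k, by simpa using hk, by simp [add_assoc]⟩

lemma qp_append (ω : Env d) (γ π : List (Step d)) :
    ∀ z, qp ω z (γ ++ π) = qp ω z γ * qp ω (z + disp γ) π := by
  induction γ with
  | nil => intro z; simp [qp]
  | cons e γ ih => intro z; simp [qp, ih, add_assoc, mul_assoc]

lemma qp_congr (γ : List (Step d)) : ∀ (z : Site d) {ω ω' : Env d},
    (∀ x ∈ visits z γ, ω x = ω' x) → qp ω z γ = qp ω' z γ := by
  induction γ with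
  | nil => intro z ω ω' _; rfl
  | cons e γ ih =>
    intro z ω ω' h
    rw [qp, qp, h z (by simp [visits]),
      ih _ fun x hx => h x (List.mem_cons_of_mem _ hx)]

lemma qp_shift (γ : List (Step d)) : ∀ (z a : Site d) (ω : Env d),
    qp (shift a ω) z γ = qp ω (z + a) γ := by
  induction γ with
  | nil => intro z a ω; rfl
  | cons e γ ih => intro z a ω; simp [qp, ih, shift, add_right_comm]

lemma measurable_qp (γ : List (Step d)) : ∀ z, Measurable fun ω : Env d => qp ω z γ := by
  induction γ with
  | nil => intro z; exact measurable_const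
  | cons e γ ih =>
    intro z
    exact (ENNReal.measurable_ofReal.comp
      ((measurable_pi_apply e).comp (measurable_pi_apply z))).mul (ih _)

lemma lintegral_qp (μ : Measure (Step d → ℝ)) [IsProbabilityMeasure μ] (γ : List (Step d))
    (z : Site d) : ∫⁻ ω, qp ω z γ ∂iidLaw μ = wt μ γ := by
  rw [wt, ← (measurePreserving_shift μ z).lintegral_comp (measurable_qp γ 0)]
  simp [qp_shift]

lemma wt_nil (μ : Measure (Step d → ℝ)) [IsProbabilityMeasure μ] :
    wt μ ([] : List (Step d)) = 1 := by simp [wt, qp]

/-- Words without common sites multiply. -/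
lemma wt_append (μ : Measure (Step d → ℝ)) [IsProbabilityMeasure μ] (γ π : List (Step d))
    (h : ∀ x ∈ visits 0 γ, x ∉ visits (disp γ) π) : wt μ (γ ++ π) = wt μ γ * wt μ π := by
  classical
  simp only [wt, qp_append, zero_add]
  rw [lintegral_mul_split μ (visits 0 γ).toFinset (measurable_qp γ 0) (measurable_qp π _),
    lintegral_qp μ π (disp γ), wt]
  · exact fun ω ω' hω => qp_congr γ 0 fun x hx => hω x (List.mem_toFinset.mpr hx)
  · exact fun ω ω' hω => qp_congr π _ fun x hx => hω x fun hxS =>
      h x (List.mem_toFinset.mp hxS) hx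

/-- The quenched weight without the factors from sites in `S`. -/
noncomputable def qpOff (S : Finset (Site d)) (ω : Env d) : Site d → List (Step d) → ℝ≥0∞
  | _, [] => 1
  | z, e :: γ => (if z ∈ S then 1 else ENNReal.ofReal (ω z e)) * qpOff S ω (z + move e) γ

lemma qpOff_congr (S : Finset (Site d)) (γ : List (Step d)) : ∀ (z : Site d) {ω ω' : Env d},
    (∀ x, x ∉ S → ω x = ω' x) → qpOff S ω z γ = qpOff S ω' z γ := by
  induction γ with
  | nil => intro z ω ω' _; rfl
  | cons e γ ih =>
    intro z ω ω' h
    by_cases hz : z ∈ S
    · simp [qpOff, hz, ih _ h]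
    · simp [qpOff, hz, h z hz, ih _ h]

lemma measurable_qpOff (S : Finset (Site d)) (γ : List (Step d)) :
    ∀ z, Measurable fun ω : Env d => qpOff S ω z γ := by
  induction γ with
  | nil => intro z; exact measurable_const
  | cons e γ ih =>
    intro z
    by_cases hz : z ∈ S
    · simpa [qpOff, hz] using ih (z + move e)
    · simp only [qpOff, hz, if_false]
      exact (ENNReal.measurable_ofReal.comp
        ((measurable_pi_apply e).comp (measurable_pi_apply z))).mul (ih _)

lemma qp_le_qpOff {ω : Env d} (hω : Good ω) (S : Finset (Site d)) (γ : List (Step d)) :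
    ∀ z, qp ω z γ ≤ qpOff S ω z γ := by
  induction γ with
  | nil => intro z; exact le_rfl
  | cons e γ ih =>
    intro z
    refine mul_le_mul' ?_ (ih _)
    split_ifs
    · refine ENNReal.ofReal_le_one.mpr ?_
      rw [← (hω z).2]
      exact Finset.single_le_sum (fun i _ => ((hω z).1 i).le) (Finset.mem_univ e)
    · exact le_rfl

lemma pow_mul_qpOff_le {ω : Env d} {κ : ℝ} (hκ : ∀ x e, κ ≤ ω x e) (S : Finset (Site d))
    (γ : List (Step d)) : ∀ z,
    ENNReal.ofReal κ ^ (visits z γ).countP (· ∈ S) * qpOff S ω z γ ≤ qp ω z γ := by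
  induction γ with
  | nil => intro z; simp [visits, qp, qpOff]
  | cons e γ ih =>
    intro z
    by_cases hz : z ∈ S
    · simp only [visits, qp, qpOff, hz, if_true, one_mul, List.countP_cons, decide_true,
        pow_add, pow_one]
      rw [mul_comm _ (ENNReal.ofReal κ), mul_assoc]
      exact mul_le_mul' (ENNReal.ofReal_le_ofReal (hκ z e)) (ih _)
    · simp only [visits, qp, qpOff, hz, if_false, List.countP_cons, decide_false,
        Bool.false_eq_true, add_zero]
      rw [← mul_assoc, mul_comm _ (ENNReal.ofReal (ω z e)), mul_assoc]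
      exact mul_le_mul' le_rfl (ih _)

/-- A concatenation weighs at least `κ` to the number of revisits times the product. -/
lemma wt_append_ge (μ : Measure (Step d → ℝ)) [IsProbabilityMeasure μ]
    (hrow : ∀ᵐ p ∂μ, GoodRow p) {κ : ℝ} (hell : ∀ᵐ p ∂μ, ∀ e, κ ≤ p e)
    (γ π : List (Step d)) :
    ENNReal.ofReal κ ^ (visits (disp γ) π).countP (· ∈ visits 0 γ) * (wt μ γ * wt μ π)
      ≤ wt μ (γ ++ π) := by
  classical
  set S := (visits 0 γ).toFinset with hS
  have hc : (visits (disp γ) π).countP (· ∈ visits 0 γ) = (visits (disp γ) π).countP (· ∈ S) :=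
    List.countP_congr fun x _ => by simp [hS]
  have h1 : wt μ γ * wt μ π ≤ ∫⁻ ω, qp ω 0 γ * qpOff S ω (disp γ) π ∂iidLaw μ := by
    rw [lintegral_mul_split μ S (measurable_qp γ 0) (measurable_qpOff S π _)
      (fun ω ω' hω => qp_congr γ 0 fun x hx => hω x (List.mem_toFinset.mpr hx))
      (fun ω ω' hω => qpOff_congr S π _ hω), ← lintegral_qp μ π (disp γ)]
    exact mul_le_mul' le_rfl (lintegral_mono_ae
      ((ae_forall_site μ hrow).mono fun ω hω => qp_le_qpOff hω S π _))
  rw [hc]
  refine (mul_le_mul' le_rfl h1).trans ?_
  have hm : Measurable fun ω : Env d => qp ω 0 γ * qpOff S ω (disp γ) π :=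
    (measurable_qp γ 0).mul (measurable_qpOff S π _)
  rw [← lintegral_const_mul _ hm, wt]
  refine lintegral_mono_ae ((ae_forall_site μ hell).mono fun ω hω => ?_)
  rw [qp_append, zero_add, mul_left_comm]
  exact mul_le_mul' le_rfl (pow_mul_qpOff_le hω S π _)

lemma move_injective : Function.Injective (move (d := d)) := by
  rintro ⟨i, b⟩ ⟨j, c⟩ h
  have hi := congrFun h i
  simp only [move, Pi.single_eq_same] at hi
  by_cases hij : i = j
  · subst hij
    rw [Pi.single_eq_same] at hi
    cases b <;> cases c <;> simp_all
  · rw [Pi.single_eq_of_ne hij] at hi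
    cases b <;> simp_all

/-- The paths which start at the origin and then follow the word. -/
def follow (γ : List (Step d)) : Set (Path d) := cyl γ.length fun k => disp (γ.take k)

variable [NeZero d]

lemma law_follow {ω : Env d} (hω : Good ω) (γ : List (Step d)) :
    ∀ z, law ω z (cyl γ.length fun k => z + disp (γ.take k)) = qp ω z γ := by
  have key : ∀ (δ : List (Step d)) (z : Site d), (∏ k ∈ Finset.range δ.length,
      ENNReal.ofReal (jump ω (z + disp (δ.take k)) (z + disp (δ.take (k + 1))))) = qp ω z δ := by
    intro δ
    induction δ with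
    | nil => intro z; simp [qp]
    | cons e δ ih =>
      intro z
      rw [List.length_cons, Finset.prod_range_succ', qp, mul_comm]
      congr 1
      · have he : ∀ e', (z + move e' = z + move e) ↔ e' = e := fun e' =>
          ⟨fun h => move_injective (add_left_cancel h), fun h => by rw [h]⟩
        simp [jump, he]
      · rw [← ih (z + move e)]
        simp [add_assoc]
  intro z
  rw [law_cyl_jump hω, if_pos (by simp), one_mul, key]

omit [NeZero d] in
lemma measurableSet_follow (γ : List (Step d)) : MeasurableSet (follow γ) := measurableSet_cyl _ _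

lemma annealed_follow (μ : Measure (Step d → ℝ)) [IsProbabilityMeasure μ]
    (hrow : ∀ᵐ p ∂μ, GoodRow p) (γ : List (Step d)) : annealed μ (follow γ) = wt μ γ := by
  rw [annealed_apply μ (measurableSet_follow γ), wt]
  refine lintegral_congr_ae ((ae_forall_site μ hrow).mono fun ω hω => ?_)
  simpa [follow] using law_follow hω γ 0

end Vale.Agent.P147.Velocity
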